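import Vale.Agent.P095.All.Coin.Cov

/-!
# P095 coin: the Powers–Størmer inequality, rank, and polynomials close to the square root
-/

namespace Vale.Agent.P095.All.Coin

open Vale.Agent.P101.KR Vale.Agent.P095.Amen Finset
open scoped ComplexOrder

noncomputable section

section Trace

variable {M : Type} [CStarAlgebra M] [PartialOrder M] [StarOrderedRing M] {Φ : M →ₗ[ℂ] ℂ}

theorem PosTr.mul_nonneg (h : PosTr Φ) {x q : M} (hx : 0 ≤ x) (hq : 0 ≤ q) :
    0 ≤ (Φ (x * q)).re := by
  obtain ⟨c, rfl⟩ := CStarAlgebra.nonneg_iff_eq_star_mul_self.1 hx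
  rw [mul_assoc, h.comm, mul_assoc]
  refine (h.of_nonneg ?_).1
  rw [← mul_assoc]
  exact star_right_conjugate_nonneg hq c

theorem PosTr.abs_mul_le (h : PosTr Φ) {O u : M} (hO : 0 ≤ O) (hu : IsSelfAdjoint u) (hu1 : ‖u‖ ≤ 1) :
    |(Φ (O * u)).re| ≤ (Φ O).re := by
  have hn : algebraMap ℝ M ‖u‖ ≤ 1 := by
    rw [Algebra.algebraMap_eq_smul_one]
    conv_rhs => rw [← one_smul ℝ (1 : M)]
    exact smul_le_smul_of_nonneg_right hu1 zero_le_one
  have h1 : u ≤ 1 := hu.le_algebraMap_norm_self.trans hn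
  have h2 : -1 ≤ u := le_trans (neg_le_neg hn) hu.neg_algebraMap_norm_le_self
  have e1 := h.mul_nonneg hO (sub_nonneg.2 h1)
  have e2 := h.mul_nonneg hO (show 0 ≤ u + 1 by rwa [← neg_le_iff_add_nonneg])
  rw [mul_sub, mul_one, map_sub, Complex.sub_re] at e1
  rw [mul_add, mul_one, map_add, Complex.add_re] at e2
  exact abs_le.2 ⟨by linarith, by linarith⟩

/-- The Powers–Størmer inequality, tested on self-adjoint contractions. -/
theorem PosTr.powers_stormer (h : PosTr Φ) {a b : M} (ha : 0 ≤ a) (hb : 0 ≤ b) {K : ℝ}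
    (hK : ∀ u : M, IsSelfAdjoint u → ‖u‖ ≤ 1 → |(Φ ((a * a - b * b) * u)).re| ≤ K) :
    (Φ ((a - b) * (a - b))).re ≤ K := by
  refine le_of_forall_pos_le_add fun ε hε => ?_
  obtain ⟨μ, hμ, hμε⟩ : ∃ μ : ℝ, 0 < μ ∧ μ ^ 2 * (Φ 1).re ≤ ε := by
    have hm := h.mass_nonneg
    refine ⟨min 1 (ε / ((Φ 1).re + 1)), lt_min one_pos (by positivity), ?_⟩
    have h1 := min_le_left 1 (ε / ((Φ 1).re + 1))
    have h2 := min_le_right 1 (ε / ((Φ 1).re + 1))
    have h3 : 0 ≤ min 1 (ε / ((Φ 1).re + 1)) := le_min zero_le_one (by positivity)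
    rw [le_div_iff₀ (by linarith)] at h2
    nlinarith [mul_le_mul_of_nonneg_right (pow_le_of_le_one h3 h1 two_ne_zero) hm]
  set d := a - b
  have hd : IsSelfAdjoint d := (IsSelfAdjoint.of_nonneg ha).sub (IsSelfAdjoint.of_nonneg hb)
  set cl : ℝ → ℝ := fun t => max (-1) (min 1 (t / μ))
  have hcl : Continuous cl := continuous_const.max (continuous_const.min (continuous_id.div_const μ))
  set u := cfc cl d
  set qp := cfc (fun t => max t 0 * cl t) d
  set qm := cfc (fun t => -(max (-t) 0 * cl t)) d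
  have hcp : Continuous fun t => max t 0 * cl t :=
    (continuous_id.max continuous_const).mul hcl
  have hcm : Continuous fun t => -(max (-t) 0 * cl t) :=
    ((continuous_neg.max continuous_const).mul hcl).neg
  have hu : IsSelfAdjoint u := cfc_predicate _ _
  have hu1 : ‖u‖ ≤ 1 := norm_cfc_le zero_le_one fun t _ => abs_le.2
    ⟨le_max_left _ _, max_le (by norm_num) (min_le_left _ _)⟩
  have hp0 : 0 ≤ qp := cfc_nonneg fun t _ => by
    rcases le_total t 0 with ht | ht
    · simp [ht]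
    · exact _root_.mul_nonneg (le_max_right _ _)
        (le_max_of_le_right (le_min zero_le_one (div_nonneg ht hμ.le)))
  have hm0 : 0 ≤ qm := cfc_nonneg fun t _ => by
    rcases le_total t 0 with ht | ht
    · rw [neg_nonneg]
      exact mul_nonpos_of_nonneg_of_nonpos (le_max_right _ _)
        (max_le (by norm_num) ((min_le_right _ _).trans (div_nonpos_of_nonpos_of_nonneg ht hμ.le)))
    · simp [ht]
  have hdu : d * u = qp + qm := by
    conv_lhs => enter [1]; rw [← cfc_id' ℝ d hd]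
    rw [← cfc_mul (fun t : ℝ => t) cl d continuous_id.continuousOn hcl.continuousOn,
      ← cfc_add (a := d) _ _ hcp.continuousOn hcm.continuousOn]
    refine cfc_congr fun t _ => ?_
    rcases le_total t 0 with ht | ht <;> simp [ht]
  have hud : u * d = d * u := ((Commute.refl d).cfc_real cl).eq
  have e : (Φ ((a * a - b * b) * u)).re = (Φ ((a + b) * (qp + qm))).re := by
    rw [← hdu, show (a * a - b * b) * u = a * d * u + d * b * u by simp only [d]; noncomm_ring,
      add_mul a b, map_add, map_add]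
    congr 2
    · rw [mul_assoc]
    · rw [mul_assoc d b u, h.comm, mul_assoc, hud]
  have h1 := h.mul_nonneg (show 0 ≤ a + b - d by
    simp only [d]; rw [show a + b - (a - b) = b + b by abel]; exact add_nonneg hb hb) hp0
  have h2 := h.mul_nonneg (show 0 ≤ a + b + d by
    simp only [d]; rw [show a + b + (a - b) = a + a by abel]; exact add_nonneg ha ha) hm0
  rw [sub_mul, map_sub, Complex.sub_re] at h1
  rw [add_mul (a + b) d, map_add, Complex.add_re] at h2
  have h3 : (Φ ((a - b) * (a - b))).re ≤ (Φ (d * qp)).re - (Φ (d * qm)).re + μ ^ 2 * (Φ 1).re := by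
    have hid : cfc (fun t : ℝ => t) d = d := cfc_id' ℝ d hd
    rw [← smul_re, ← Complex.sub_re, ← map_sub, ← Complex.add_re, ← map_add]
    refine h.mono ?_
    show d * d ≤ _
    conv_lhs => rw [← hid]
    rw [← Algebra.algebraMap_eq_smul_one]
    conv_rhs => enter [1, 1, 1]; rw [← hid]
    conv_rhs => enter [1, 2, 1]; rw [← hid]
    rw [← cfc_mul .., ← cfc_mul (fun t : ℝ => t) _ d continuous_id.continuousOn hcp.continuousOn,
      ← cfc_mul (fun t : ℝ => t) _ d continuous_id.continuousOn hcm.continuousOn,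
      ← cfc_sub (fun t => t * (max t 0 * cl t)) (fun t => t * -(max (-t) 0 * cl t)) d
        (continuous_id.mul hcp).continuousOn (continuous_id.mul hcm).continuousOn,
      ← cfc_add_const (μ ^ 2) (fun t => t * (max t 0 * cl t) - t * -(max (-t) 0 * cl t)) d
        ((continuous_id.mul hcp).sub (continuous_id.mul hcm)).continuousOn hd]
    refine cfc_mono (fun t _ => ?_) (continuous_id.mul continuous_id).continuousOn
      (((continuous_id.mul hcp).sub (continuous_id.mul hcm)).add continuous_const).continuousOn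
    rcases le_total t 0 with ht | ht
    · simp only [max_eq_right ht, max_eq_left (neg_nonneg.2 ht), cl]
      rcases le_total (t / μ) (-1) with hx | hx
      · rw [max_eq_left ((min_le_right _ _).trans hx)]; nlinarith
      · have h4 : t / μ ≤ 1 := (div_nonpos_of_nonpos_of_nonneg ht hμ.le).trans zero_le_one
        rw [min_eq_right h4, max_eq_right hx]
        rw [le_div_iff₀ hμ] at hx
        have e2 : t * (-t * (t / μ)) = -(t * t * (t / μ)) := by ring
        have hx' : t / μ * μ = t := div_mul_cancel₀ t hμ.ne'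
        have hq2 : 0 ≤ μ ^ 2 - t ^ 2 := by nlinarith
        have hq3 : t / μ ≤ 0 := div_nonpos_of_nonpos_of_nonneg ht hμ.le
        nlinarith [mul_nonpos_of_nonneg_of_nonpos (mul_self_nonneg t) hq3]
    · simp only [max_eq_left ht, max_eq_right (neg_nonpos.2 ht), cl]
      rcases le_total 1 (t / μ) with hx | hx
      · rw [min_eq_left hx, max_eq_right (by norm_num)]; nlinarith
      · rw [min_eq_right hx, max_eq_right (le_trans (by norm_num) (div_nonneg ht hμ.le))]
        rw [div_le_one hμ] at hx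
        have hq2 : 0 ≤ μ ^ 2 - t ^ 2 := by nlinarith
        have hq3 : 0 ≤ t / μ := div_nonneg ht hμ.le
        nlinarith [_root_.mul_nonneg (mul_self_nonneg t) hq3]
  have h4 : (Φ ((a + b) * (qp + qm))).re ≤ K := by
    rw [← e]; exact (le_abs_self _).trans (hK u hu hu1)
  rw [mul_add, map_add, Complex.add_re] at h4
  linarith

/-- A function vanishing at zero of `Y Y*` has trace at most its bound times the rank. -/
theorem PosTr.rank_le (h : PosTr Φ) {Y e : M} (hY : Y * e = Y) (hes : IsSelfAdjoint e)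
    (hee : e * e = e) (hP : Y * star Y ≤ 1) {φ : ℝ → ℝ} (hφ : Continuous φ) (hφ0 : φ 0 = 0)
    {σ : ℝ} (hσ : ∀ t ∈ Set.Icc (0 : ℝ) 1, φ t ≤ σ) :
    (Φ (cfc φ (Y * star Y))).re ≤ σ * (Φ e).re := by
  set P := Y * star Y
  set Q := star Y * Y
  have hP0 : 0 ≤ P := mul_star_self_nonneg _
  have hQ0 : 0 ≤ Q := star_mul_self_nonneg _
  have hQ1 : Q ≤ 1 := by
    rw [← CStarAlgebra.norm_le_one_iff_of_nonneg Q hQ0, CStarRing.norm_star_mul_self,
      ← CStarRing.norm_self_mul_star]
    exact (CStarAlgebra.norm_le_one_iff_of_nonneg P hP0).2 hP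
  have hspec : ∀ {X : M}, 0 ≤ X → X ≤ 1 → ∀ t ∈ spectrum ℝ X, t ∈ Set.Icc (0 : ℝ) 1 :=
    fun hX0 hX1 t ht => ⟨spectrum_nonneg_of_nonneg hX0 ht,
      (le_algebraMap_iff_spectrum_le (IsSelfAdjoint.of_nonneg hX0)).1
        (hX1.trans_eq (map_one _).symm) t ht⟩
  refine le_of_forall_pos_le_add fun ε hε => ?_
  have hm := h.mass_nonneg
  have he0 : 0 ≤ (Φ e).re := by
    rw [← hee]; exact (h.of_nonneg (hes.mul_self_nonneg)).1
  set δ := ε / (2 * ((Φ 1).re + (Φ e).re + 1)) with hδdef
  have hδ : 0 < δ := by positivity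
  obtain ⟨q₁, hq₁⟩ := exists_polynomial_near_of_continuousOn 0 1 φ hφ.continuousOn δ hδ
  set q := q₁ - Polynomial.C (q₁.eval 0)
  have hq : ∀ t ∈ Set.Icc (0 : ℝ) 1, |q.eval t - φ t| ≤ 2 * δ := fun t ht => by
    have h1 := hq₁ t ht
    have h2 := hq₁ 0 ⟨le_rfl, zero_le_one⟩
    rw [hφ0, sub_zero] at h2
    simp only [q, Polynomial.eval_sub, Polynomial.eval_C]
    calc _ = |(q₁.eval t - φ t) - q₁.eval 0| := by ring_nf
      _ ≤ |q₁.eval t - φ t| + |q₁.eval 0| := abs_sub _ _
      _ ≤ _ := by linarith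
  have hq0 : q.eval 0 = 0 := by simp [q]
  have hpow : ∀ k : ℕ, Φ (P ^ (k + 1)) = Φ (Q ^ (k + 1)) := by
    have hs : ∀ k : ℕ, P ^ (k + 1) = Y * (Q ^ k * star Y) := by
      intro k
      induction k with
      | zero => simp [P]
      | succ k ih =>
        rw [pow_succ', ih, pow_succ']
        simp only [P, Q, mul_assoc]
    intro k
    rw [hs, h.comm, mul_assoc, ← pow_succ]
  have hQe : ∀ k : ℕ, e * Q ^ (k + 1) * e = Q ^ (k + 1) := by
    have h1 : Q * e = Q := by simp only [Q, mul_assoc, hY]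
    have h2 : e * Q = Q := by
      have := congrArg star h1
      rwa [star_mul, hes.star_eq, (IsSelfAdjoint.of_nonneg hQ0).star_eq] at this
    intro k
    rw [pow_succ, ← mul_assoc, mul_assoc (e * Q ^ k), h1, mul_assoc e, ← pow_succ, pow_succ',
      ← mul_assoc, h2]
  have hae : ∀ {X : M}, IsSelfAdjoint X → cfc q.eval X = Polynomial.aeval X q :=
    fun hX => cfc_polynomial q _ hX
  have hdiv : q = Polynomial.X * q.divX := by
    have := q.X_mul_divX_add
    rw [Polynomial.coeff_zero_eq_eval_zero, hq0, map_zero, add_zero] at this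
    exact this.symm
  have hagree : Φ (Polynomial.aeval P q) = Φ (Polynomial.aeval Q q) ∧
      e * Polynomial.aeval Q q * e = Polynomial.aeval Q q := by
    rw [hdiv]
    generalize q.divX = r
    induction r using Polynomial.induction_on' with
    | add p p' hp hp' =>
      simp only [mul_add, map_add] at hp hp' ⊢
      exact ⟨by rw [hp.1, hp'.1], by rw [add_mul, hp.2, hp'.2]⟩
    | monomial n c =>
      simp only [Polynomial.X_mul_monomial, Polynomial.aeval_monomial, ← Algebra.smul_def]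
      exact ⟨by rw [map_real_smul, map_real_smul, hpow], by rw [mul_smul_comm, smul_mul_assoc, hQe]⟩
  have hqc := q.continuous
  have hPsa := IsSelfAdjoint.of_nonneg hP0
  have hQsa := IsSelfAdjoint.of_nonneg hQ0
  have h1 : cfc φ P ≤ cfc q.eval P + (2 * δ) • (1 : M) := by
    rw [← Algebra.algebraMap_eq_smul_one, ← cfc_add_const (2 * δ) q.eval P hqc.continuousOn hPsa]
    exact cfc_mono (fun t ht => by linarith [(abs_le.1 (hq t (hspec hP0 hP t ht))).1])
      hφ.continuousOn (hqc.add continuous_const).continuousOn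
  have h2 : cfc q.eval Q ≤ algebraMap ℝ M (σ + 2 * δ) :=
    cfc_le_algebraMap _ _ _ (fun t ht => by
      linarith [(abs_le.1 (hq t (hspec hQ0 hQ1 t ht))).2, hσ t (hspec hQ0 hQ1 t ht)])
      hqc.continuousOn hQsa
  have h3 : cfc q.eval Q ≤ (σ + 2 * δ) • e := by
    rw [hae hQsa] at h2 ⊢
    conv_lhs => rw [← hagree.2]
    refine (hes.conjugate_le_conjugate h2).trans_eq ?_
    rw [Algebra.algebraMap_eq_smul_one, mul_smul_comm, mul_one, smul_mul_assoc, hee]
  have h4 := h.mono h1
  have h5 := h.mono h3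
  rw [map_add, Complex.add_re, smul_re, hae hPsa, hagree.1, ← hae hQsa] at h4
  rw [smul_re] at h5
  have h6 : 2 * δ * ((Φ 1).re + (Φ e).re) ≤ ε := by
    rw [hδdef]; field_simp; nlinarith
  linarith

end Trace

/-- A polynomial without constant term close to the square root on the unit interval. -/
theorem exists_sqrt_poly {σ : ℝ} (hσ : 0 < σ) : ∃ (D : ℕ) (a : Fin D → ℝ),
    ∀ t ∈ Set.Icc (0 : ℝ) 1, (∑ k, a k * t ^ ((k : ℕ) + 1) - Real.sqrt t) ^ 2 ≤ σ ∧
      |(∑ k, a k * t ^ ((k : ℕ) + 1)) ^ 2 - t| ≤ σ ∧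
      (∑ k, a k * t ^ ((k : ℕ) + 1)) ^ 2 ≤ 4 * t := by
  set η : ℝ := min 1 (σ / 6)
  have hη : 0 < η := lt_min one_pos (by positivity)
  have hη1 : η ≤ 1 := min_le_left _ _
  have hη6 : 6 * η ≤ σ := by linarith [min_le_right 1 (σ / 6)]
  set g : ℝ → ℝ := fun t => (Real.sqrt (max t 0 + η ^ 2))⁻¹
  have hpos : ∀ t : ℝ, 0 < max t 0 + η ^ 2 := fun t => by positivity
  have hg : Continuous g := ((by fun_prop : Continuous fun t : ℝ => max t 0 + η ^ 2).sqrt).inv₀
    fun t => (Real.sqrt_pos.2 (hpos t)).ne'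
  obtain ⟨q, hq⟩ := exists_polynomial_near_of_continuousOn 0 1 g hg.continuousOn η hη
  refine ⟨q.natDegree + 1, fun k => q.coeff k, fun t ht => ?_⟩
  have hp : ∑ k : Fin (q.natDegree + 1), q.coeff k * t ^ ((k : ℕ) + 1) = t * q.eval t := by
    rw [Polynomial.eval_eq_sum_range, mul_sum,
      ← Fin.sum_univ_eq_sum_range (fun i => t * (q.coeff i * t ^ i))]
    exact sum_congr rfl fun k _ => by ring
  rw [hp]
  set p := t * q.eval t
  have ht0 := ht.1
  have hqt := (hq t ht).le
  simp only [g, max_eq_left ht0] at hqt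
  set r := Real.sqrt t
  set R := Real.sqrt (t + η ^ 2)
  have hR : 0 < R := Real.sqrt_pos.2 (by positivity)
  have hr2 : r * r = t := Real.mul_self_sqrt ht0
  have hR2 : R * R = t + η ^ 2 := Real.mul_self_sqrt (by positivity)
  have hr0 : 0 ≤ r := Real.sqrt_nonneg _
  have hr1 : r ≤ 1 := Real.sqrt_le_one.2 ht.2
  have hrR : r ≤ R := Real.sqrt_le_sqrt (by nlinarith)
  have hRr : R ≤ r + η := by nlinarith
  have hs1 : t * R⁻¹ ≤ r := by
    rw [← div_eq_mul_inv, div_le_iff₀ hR]; nlinarith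
  have hs2 : r - η ≤ t * R⁻¹ := by
    rw [← div_eq_mul_inv, le_div_iff₀ hR]; nlinarith
  have hs0 : 0 ≤ t * R⁻¹ := by positivity
  have hd : |p - t * R⁻¹| ≤ η * t := by
    rw [show p - t * R⁻¹ = t * (q.eval t - R⁻¹) by simp only [p]; ring, abs_mul, abs_of_nonneg ht0,
      mul_comm η]
    exact mul_le_mul_of_nonneg_left hqt ht0
  obtain ⟨hd1, hd2⟩ := abs_le.1 hd
  have ht1 : η * t ≤ η := mul_le_of_le_one_right hη.le ht.2
  have htr : η * t ≤ r := by nlinarith
  refine ⟨by nlinarith, abs_le.2 ⟨?_, ?_⟩, by nlinarith⟩ <;> nlinarith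

end

end Vale.Agent.P095.All.Coin
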