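import Vale.Agent.P095.All.Defs
import Vale.Agent.P095.Amen.Coin.Ineq

/-!
# P095 coin: positive tracial functionals
-/

namespace Vale.Agent.P095.All.Coin

open Vale.Agent.P101.KR Vale.Agent.P095.Amen Finset
open scoped ComplexOrder

noncomputable section

/-- A positive tracial functional, of any mass. -/
structure PosTr {A : Type} [CStarAlgebra A] (τ : A →ₗ[ℂ] ℂ) : Prop where
  nonneg : ∀ x, 0 ≤ τ (star x * x)
  comm : ∀ x y, τ (x * y) = τ (y * x)

variable {A B : Type} [CStarAlgebra A] [CStarAlgebra B] {τ : A →ₗ[ℂ] ℂ}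

theorem smul_re (τ : A →ₗ[ℂ] ℂ) (r : ℝ) (x : A) : (τ (r • x)).re = r * (τ x).re := by
  rw [← Complex.coe_smul, map_smul, smul_eq_mul, Complex.re_ofReal_mul]

theorem map_real_smul (τ : A →ₗ[ℂ] ℂ) (r : ℝ) (x : A) : τ (r • x) = (r : ℂ) * τ x := by
  rw [← Complex.coe_smul, map_smul, smul_eq_mul]

namespace PosTr

theorem re_sq_nonneg (h : PosTr τ) (x : A) : 0 ≤ (τ (star x * x)).re :=
  (Complex.nonneg_iff.1 (h.nonneg x)).1

/-- The mass. -/
theorem mass_nonneg (h : PosTr τ) : 0 ≤ (τ 1).re := by simpa using h.re_sq_nonneg 1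

theorem comp (h : PosTr τ) (φ : B →⋆ₐ[ℂ] A) : PosTr (τ ∘ₗ φ.toAlgHom.toLinearMap) where
  nonneg x := by
    show 0 ≤ τ (φ (star x * x))
    rw [map_mul, map_star]
    exact h.nonneg _
  comm x y := by
    show τ (φ (x * y)) = τ (φ (y * x))
    simp only [map_mul φ]
    exact h.comm _ _

variable [PartialOrder A] [StarOrderedRing A]

theorem of_nonneg (h : PosTr τ) {a : A} (ha : 0 ≤ a) : 0 ≤ (τ a).re ∧ (τ a).im = 0 := by
  obtain ⟨c, rfl⟩ := CStarAlgebra.nonneg_iff_eq_star_mul_self.1 ha
  have := Complex.nonneg_iff.1 (h.nonneg c)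
  exact ⟨this.1, this.2.symm⟩

theorem mono (h : PosTr τ) {a b : A} (hab : a ≤ b) : (τ a).re ≤ (τ b).re := by
  have := (h.of_nonneg (sub_nonneg.2 hab)).1
  rw [map_sub, Complex.sub_re] at this
  linarith

theorem im_eq_zero (h : PosTr τ) {a : A} (ha : IsSelfAdjoint a) : (τ a).im = 0 := by
  have h1 := (h.of_nonneg (CFC.posPart_nonneg a)).2
  have h2 := (h.of_nonneg (CFC.negPart_nonneg a)).2
  rw [← CFC.posPart_sub_negPart a ha, map_sub, Complex.sub_im, h1, h2, sub_zero]

theorem abs_re_le (h : PosTr τ) {a : A} (ha : IsSelfAdjoint a) :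
    |(τ a).re| ≤ ‖a‖ * (τ 1).re := by
  have hu : a ≤ ‖a‖ • (1 : A) := by
    rw [← Algebra.algebraMap_eq_smul_one]; exact ha.le_algebraMap_norm_self
  have hl : -(‖a‖ • (1 : A)) ≤ a := by
    rw [← Algebra.algebraMap_eq_smul_one]; exact ha.neg_algebraMap_norm_le_self
  have h1 := h.mono hu
  have h2 := h.mono hl
  rw [smul_re] at h1
  rw [map_neg, Complex.neg_re, smul_re] at h2
  exact abs_le.2 ⟨h2, h1⟩

theorem norm_le (h : PosTr τ) (x : A) : ‖τ x‖ ≤ 2 * ‖x‖ * (τ 1).re := by
  have hm := h.mass_nonneg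
  have key : ∀ z : A, |(τ (realPart z : A)).re| ≤ ‖z‖ * (τ 1).re := fun z =>
    (h.abs_re_le (realPart z).2).trans
      (mul_le_mul_of_nonneg_right (realPart.norm_le z) hm)
  have e1 : (τ x).re = (τ (realPart x : A)).re := by
    conv_lhs => rw [← realPart_add_I_smul_imaginaryPart x]
    simp [h.im_eq_zero (imaginaryPart x).2]
  have e2 : (τ x).im = (τ (imaginaryPart x : A)).re := by
    conv_lhs => rw [← realPart_add_I_smul_imaginaryPart x]
    simp [h.im_eq_zero (realPart x).2]
  refine (Complex.norm_le_abs_re_add_abs_im _).trans ?_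
  rw [e1, e2]
  have h1 := key x
  have h2 : |(τ (imaginaryPart x : A)).re| ≤ ‖x‖ * (τ 1).re :=
    (h.abs_re_le (imaginaryPart x).2).trans
      (mul_le_mul_of_nonneg_right (imaginaryPart.norm_le x) hm)
  linarith

/-- The arithmetic-geometric mean inequality. -/
theorem two_re_le (h : PosTr τ) (x y : A) {t : ℝ} (ht : 0 < t) :
    2 * (τ (star x * y)).re ≤ t * (τ (star x * x)).re + (τ (star y * y)).re / t := by
  set s := Real.sqrt t
  have hs : 0 < s := Real.sqrt_pos.2 ht
  have hss : s * s = t := Real.mul_self_sqrt ht.le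
  have h0 := h.re_sq_nonneg (s • x - s⁻¹ • y)
  have hsym : (τ (star y * x)).re = (τ (star x * y)).re := by
    have hsa : IsSelfAdjoint (Complex.I • (star x * y - star y * x)) := by
      rw [IsSelfAdjoint, star_smul, Complex.star_def, Complex.conj_I, star_sub, star_mul, star_mul,
        star_star, star_star, neg_smul, ← smul_neg, neg_sub]
    have := h.im_eq_zero hsa
    rw [map_smul, smul_eq_mul, Complex.I_mul_im, map_sub, Complex.sub_re] at this
    linarith
  simp only [star_sub, star_smul, star_trivial, sub_mul, mul_sub, smul_mul_assoc, mul_smul_comm,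
    map_sub, Complex.sub_re, smul_re, hsym] at h0
  rw [← mul_assoc, ← mul_assoc, ← mul_assoc, ← mul_assoc, hss, inv_mul_cancel₀ hs.ne', ← mul_inv,
    hss, mul_inv_cancel₀ hs.ne'] at h0
  rw [div_eq_inv_mul]
  linarith

omit [PartialOrder A] [StarOrderedRing A] in
/-- The mean of two squares. -/
theorem sq_add_le (h : PosTr τ) (x y : A) :
    (τ (star (x + y) * (x + y))).re ≤
      2 * (τ (star x * x)).re + 2 * (τ (star y * y)).re := by
  have h0 := h.re_sq_nonneg (x - y)
  simp only [star_sub, star_add, sub_mul, mul_sub, add_mul, mul_add, map_sub, map_add,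
    Complex.sub_re, Complex.add_re] at h0 ⊢
  linarith

/-- The weight of a commuting square. -/
theorem sandwich_le (h : PosTr τ) (u d v : A) :
    (τ (star (u * d * v) * (u * d * v))).re ≤ ‖u‖ ^ 2 * (‖v‖ ^ 2 * (τ (star d * d)).re) := by
  have h1 : star (u * d * v) * (u * d * v) ≤ (‖u‖ ^ 2) • (star (d * v) * (d * v)) := by
    rw [mul_assoc u, star_mul, show star (d * v) * star u * (u * (d * v)) =
      star (d * v) * (star u * u) * (d * v) by simp only [mul_assoc]]
    refine (star_left_conjugate_le_conjugate (IsSelfAdjoint.star_mul_self u).le_algebraMap_norm_self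
      _).trans_eq ?_
    rw [CStarRing.norm_star_mul_self, Algebra.algebraMap_eq_smul_one, ← sq, mul_smul_comm,
      smul_mul_assoc, mul_one]
  have h2 : d * v * star v * star d ≤ (‖v‖ ^ 2) • (d * star d) := by
    rw [mul_assoc d]
    refine (star_right_conjugate_le_conjugate (IsSelfAdjoint.mul_star_self v).le_algebraMap_norm_self
      _).trans_eq ?_
    rw [CStarRing.norm_self_mul_star, Algebra.algebraMap_eq_smul_one, ← sq, mul_smul_comm,
      smul_mul_assoc, mul_one]
  refine (h.mono h1).trans ?_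
  rw [smul_re]
  refine mul_le_mul_of_nonneg_left ?_ (sq_nonneg _)
  rw [h.comm (star (d * v)) (d * v), star_mul, ← mul_assoc]
  refine (h.mono h2).trans_eq ?_
  rw [smul_re, h.comm d (star d)]

omit [PartialOrder A] [StarOrderedRing A] in
/-- The weighting of a bank by a commuting square. -/
theorem weight (h : PosTr τ) (φ : B →⋆ₐ[ℂ] A) {r : A} (hr : ∀ b, Commute (φ b) r)
    (hs : IsSelfAdjoint r) : PosTr ((τ ∘ₗ LinearMap.mulRight ℂ (r * r)) ∘ₗ φ.toAlgHom.toLinearMap)
    where
  nonneg x := by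
    show 0 ≤ τ (φ (star x * x) * (r * r))
    have e : φ (star x * x) * (r * r) = star (φ x * r) * (φ x * r) := by
      rw [star_mul, hs.star_eq, ← mul_assoc (φ _) r r, (hr _).eq, map_mul, map_star]
      simp only [mul_assoc]
    rw [e]
    exact h.nonneg _
  comm x y := by
    show τ (φ (x * y) * (r * r)) = τ (φ (y * x) * (r * r))
    rw [map_mul φ, map_mul φ, mul_assoc, h.comm (φ x), mul_assoc (φ y) (r * r),
      ((hr x).mul_right (hr x)).symm.eq, ← mul_assoc]

end PosTr

/-- Matrices over `A`, as a C⋆-algebra. -/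
def Mat (A : Type) (R : ℕ) : Type := CStarMatrix (Fin R) (Fin R) A

instance (A : Type) [CStarAlgebra A] (R : ℕ) : CStarAlgebra (Mat A R) :=
  letI := CStarAlgebra.spectralOrder A
  haveI := CStarAlgebra.spectralOrderedRing A
  inferInstanceAs (CStarAlgebra (CStarMatrix (Fin R) (Fin R) A))

instance (A : Type) [CStarAlgebra A] (R : ℕ) : PartialOrder (Mat A R) := CStarAlgebra.spectralOrder _

instance (A : Type) [CStarAlgebra A] (R : ℕ) : StarOrderedRing (Mat A R) :=
  CStarAlgebra.spectralOrderedRing _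

/-- The matrix with given entries. -/
def Mat.of {R : ℕ} (f : Fin R → Fin R → A) : Mat A R := CStarMatrix.ofMatrix f

/-- An entry. -/
def Mat.ent {R : ℕ} (T : Mat A R) (i j : Fin R) : A := (T : CStarMatrix (Fin R) (Fin R) A) i j

namespace Mat

variable {R : ℕ}

@[simp] theorem ent_of (f : Fin R → Fin R → A) (i j : Fin R) : ent (of f) i j = f i j := rfl

theorem ext {S T : Mat A R} (h : ∀ i j, ent S i j = ent T i j) : S = T := CStarMatrix.ext h

@[simp] theorem ent_zero (i j : Fin R) : ent (0 : Mat A R) i j = 0 := rfl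

@[simp] theorem ent_add (S T : Mat A R) (i j : Fin R) : ent (S + T) i j = ent S i j + ent T i j := rfl

@[simp] theorem ent_sub (S T : Mat A R) (i j : Fin R) : ent (S - T) i j = ent S i j - ent T i j := rfl

@[simp] theorem ent_neg (T : Mat A R) (i j : Fin R) : ent (-T) i j = -ent T i j := rfl

@[simp] theorem ent_smul (c : ℂ) (T : Mat A R) (i j : Fin R) : ent (c • T) i j = c • ent T i j := rfl

@[simp] theorem ent_rsmul (r : ℝ) (T : Mat A R) (i j : Fin R) : ent (r • T) i j = r • ent T i j := by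
  rw [← Complex.coe_smul, ent_smul, Complex.coe_smul]

@[simp] theorem ent_star (T : Mat A R) (i j : Fin R) : ent (star T) i j = star (ent T j i) := rfl

theorem ent_mul (S T : Mat A R) (i j : Fin R) : ent (S * T) i j = ∑ k, ent S i k * ent T k j := rfl

theorem ent_one (i j : Fin R) : ent (1 : Mat A R) i j = if i = j then 1 else 0 := rfl

@[simp] theorem ent_sum {ι : Type} (s : Finset ι) (f : ι → Mat A R) (i j : Fin R) :
    ent (∑ a ∈ s, f a) i j = ∑ a ∈ s, ent (f a) i j := by
  classical
  induction s using Finset.induction_on with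
  | empty => simp
  | insert a s ha ih => rw [sum_insert ha, sum_insert ha, ent_add, ih]

/-- The trace of a matrix. -/
def tr (T : Mat A R) : A := ∑ i, ent T i i

theorem tr_sub (S T : Mat A R) : tr (S - T) = tr S - tr T := by simp [tr, sum_sub_distrib]

theorem tr_add (S T : Mat A R) : tr (S + T) = tr S + tr T := by simp [tr, sum_add_distrib]

theorem tr_rsmul (r : ℝ) (T : Mat A R) : tr (r • T) = r • tr T := by simp [tr, smul_sum]

/-- The functional on matrices. -/
def matTr (τ : A →ₗ[ℂ] ℂ) (R : ℕ) : Mat A R →ₗ[ℂ] ℂ where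
  toFun T := τ (tr T)
  map_add' S T := by simp [tr_add]
  map_smul' c T := by simp [tr, ← smul_sum]

theorem matTr_apply (τ : A →ₗ[ℂ] ℂ) (T : Mat A R) : matTr τ R T = τ (tr T) := rfl

theorem posTr (h : PosTr τ) (R : ℕ) : PosTr (matTr τ R) where
  nonneg T := by
    rw [matTr_apply]
    simp only [tr, ent_mul, ent_star, map_sum]
    exact sum_nonneg fun i _ => sum_nonneg fun k _ => h.nonneg _
  comm S T := by
    rw [matTr_apply, matTr_apply]
    simp only [tr, ent_mul, map_sum]
    rw [sum_comm]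
    exact sum_congr rfl fun i _ => sum_congr rfl fun k _ => h.comm _ _

theorem tr_mono [PartialOrder A] [StarOrderedRing A] {S T : Mat A R} (h : S ≤ T) :
    tr S ≤ tr T := by
  obtain ⟨c, hc⟩ := CStarAlgebra.nonneg_iff_eq_star_mul_self.1 (sub_nonneg.2 h)
  rw [← sub_nonneg, ← tr_sub, hc]
  simp only [tr, ent_mul, ent_star]
  exact sum_nonneg fun i _ => sum_nonneg fun k _ => star_mul_self_nonneg _

theorem tr_nonneg [PartialOrder A] [StarOrderedRing A] {T : Mat A R} (h : 0 ≤ T) : 0 ≤ tr T := by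
  simpa [tr] using tr_mono h

end Mat

end

end Vale.Agent.P095.All.Coin
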