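import Vale.Agent.P095.All.Coin.CovBounds

/-!
# P095 coin: the block

An element whose mean vanishes, whose variance is bounded below and whose fourth moment is bounded
above in every tracial state, and which the generators move little in every two-norm of a trace.
-/

namespace Vale.Agent.P095.All.Coin

open Vale.Agent.P101.KR Vale.Agent.P095.Amen Finset

noncomputable section

/-- Equivariant commuting banks and a self-adjoint commutator. -/
structure BankSystem (G A B : Type) [Group G] [CStarAlgebra A] [CStarAlgebra B] (R : ℕ) where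
  /-- The action on the big algebra. -/
  α : G → A ≃⋆ₐ[ℂ] A
  /-- The action on one bank. -/
  β : G → B ≃⋆ₐ[ℂ] B
  /-- The banks. -/
  φ : Fin R → B →⋆ₐ[ℂ] A
  /-- First factor. -/
  c : B
  /-- Second factor. -/
  d : B
  α_mul : ∀ g h x, α (g * h) x = α g (α h x)
  β_mul : ∀ g h x, β (g * h) x = β g (β h x)
  comm : ∀ i j, i ≠ j → ∀ x y, Commute (φ i x) (φ j y)
  equiv : ∀ g i x, α g (φ i x) = φ i (β g x)
  selfAdjoint : IsSelfAdjoint (c * d - d * c)
  bound : ‖c * d - d * c‖ ≤ 1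

variable {G A B : Type} [Group G] [CStarAlgebra A] [CStarAlgebra B] {R : ℕ}

namespace BankSystem

variable (Z : BankSystem G A B R)

/-- The commutator. -/
def ζ : B := Z.c * Z.d - Z.d * Z.c

/-- The variance of the commutator in every tracial functional of the bank. -/
def Spread (c₀ : ℝ) : Prop :=
  ∀ σ : B →ₗ[ℂ] ℂ, PosTr σ → c₀ * (σ 1).re ≤ (σ (Z.ζ * Z.ζ)).re

/-- The letters labelled by a finite set of the group. -/
def data (U : Finset G) : BankData A B U R where
  φ := Z.φ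
  ζ e := Z.β e Z.ζ
  comm := Z.comm
  selfAdjoint e := Z.selfAdjoint.map _
  bound e := (NonUnitalStarAlgHom.norm_apply_le _ _).trans Z.bound
  commutator e := ⟨Z.β e Z.c, Z.β e Z.d, by rw [ζ, map_sub, map_mul, map_mul]⟩

end BankSystem

/-- Uniform weights on a part of the labels. -/
def uniformWeight [DecidableEq G] {U : Finset G} (V : Finset G) (e : U) : ℝ :=
  if (e : G) ∈ V then (V.card : ℝ)⁻¹ else 0

omit [Group G] in
theorem isWeight_uniform [DecidableEq G] {U V : Finset G} (hV : V ⊆ U) (hne : V.Nonempty) :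
    BankData.IsWeight (uniformWeight (U := U) V) := by
  refine ⟨fun e => ?_, ?_⟩
  · unfold uniformWeight; split_ifs <;> positivity
  · unfold uniformWeight
    rw [← attach_eq_univ, sum_attach U (fun g => if g ∈ V then (V.card : ℝ)⁻¹ else 0), sum_ite_mem,
      inter_eq_right.2 hV, sum_const, nsmul_eq_mul, mul_inv_cancel₀]
    exact_mod_cast hne.card_pos.ne'

omit [Group G] in
theorem sum_uniform_sub [DecidableEq G] {U V W : Finset G} (hV : V ⊆ U) (hW : W ⊆ U)
    (h : V.card = W.card) :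
    ∑ e : U, |uniformWeight V e - uniformWeight W e| = 2 * (V \ W).card / V.card := by
  have hp : ∀ g : G, |(if g ∈ V then (V.card : ℝ)⁻¹ else 0) - (if g ∈ W then (W.card : ℝ)⁻¹ else 0)| =
      (if g ∈ V \ W then (V.card : ℝ)⁻¹ else 0) + (if g ∈ W \ V then (V.card : ℝ)⁻¹ else 0) := by
    intro g
    have : (0 : ℝ) ≤ (V.card : ℝ)⁻¹ := by positivity
    rw [← h]
    by_cases h1 : g ∈ V <;> by_cases h2 : g ∈ W <;> simp [h1, h2]
  unfold uniformWeight
  rw [← attach_eq_univ, sum_attach U (fun g => |(if g ∈ V then (V.card : ℝ)⁻¹ else 0) -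
    (if g ∈ W then (W.card : ℝ)⁻¹ else 0)|)]
  simp only [hp, sum_add_distrib, sum_ite_mem, inter_eq_right.2 (sdiff_subset.trans hV),
    inter_eq_right.2 (sdiff_subset.trans hW), sum_const, nsmul_eq_mul]
  have e2 : (W \ V).card = (V \ W).card := by
    have h1 := card_sdiff_add_card_inter V W
    have h2 := card_sdiff_add_card_inter W V
    rw [inter_comm] at h2
    omega
  rw [e2]
  ring

/-- The generators carry the coin of a set to the coin of its translate. -/
theorem BankSystem.act_coin (Z : BankSystem G A B R) [DecidableEq G] {D : ℕ} (a : Fin D → ℝ)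
    {U V : Finset G} (hV : V ⊆ U) {s : G} (hs : V.image (s * ·) ⊆ U) :
    Z.α s ((Z.data U).coin a (uniformWeight V)) =
      (Z.data U).coin a (uniformWeight (V.image (s * ·))) := by
  classical
  set b := Z.data U
  set f := Z.α s
  have hsm : ∀ (r : ℝ) (x : A), f (r • x) = r • f x := fun r x => by
    rw [← Complex.coe_smul, map_smul, Complex.coe_smul]
  have hcov : ∀ (W : Finset G), W ⊆ U → ∀ i j, Mat.ent (b.cov (uniformWeight W)) i j =
      ∑ g ∈ W, (W.card : ℝ)⁻¹ • (R : ℝ)⁻¹ • (Z.φ i (Z.β g Z.ζ) * Z.φ j (Z.β g Z.ζ)) := by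
    intro W hW i j
    simp only [BankData.cov, Mat.ent_sum, Mat.ent_rsmul, Mat.ent_of]
    unfold uniformWeight BankData.letter
    simp only [ite_smul, zero_smul]
    show ∑ e : U, (if (e : G) ∈ W then (W.card : ℝ)⁻¹ •
      (R : ℝ)⁻¹ • (Z.φ i (Z.β e Z.ζ) * Z.φ j (Z.β e Z.ζ)) else 0) = _
    rw [← attach_eq_univ, sum_attach U (fun g => if g ∈ W then (W.card : ℝ)⁻¹ •
      (R : ℝ)⁻¹ • (Z.φ i (Z.β g Z.ζ) * Z.φ j (Z.β g Z.ζ)) else 0), sum_ite_mem, inter_eq_right.2 hW]
  have hcard : (V.image (s * ·)).card = V.card := card_image_of_injective _ (mul_right_injective s)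
  have h1 : ∀ i j, f (Mat.ent (b.cov (uniformWeight V)) i j) =
      Mat.ent (b.cov (uniformWeight (V.image (s * ·)))) i j := by
    intro i j
    rw [hcov V hV, hcov _ hs, hcard, sum_image fun x _ y _ e => mul_left_cancel e, map_sum]
    refine sum_congr rfl fun g _ => ?_
    rw [hsm, hsm, map_mul, Z.equiv, Z.equiv, ← Z.β_mul]
  have h2 : ∀ (n : ℕ) i j, f (Mat.ent (b.cov (uniformWeight V) ^ (n + 1)) i j) =
      Mat.ent (b.cov (uniformWeight (V.image (s * ·))) ^ (n + 1)) i j := by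
    intro n
    induction n with
    | zero => simpa using h1
    | succ n ih =>
      intro i j
      simp only [pow_succ _ (n + 1), Mat.ent_mul, map_sum, map_mul, ih, h1]
  simp only [BankData.coin, BankData.polyCov, Mat.ent_sum, Mat.ent_rsmul, map_sum, hsm, h2]

/-- The fourth moment bound of the block. -/
def fourthBound : ℝ := (8 : ℝ) ^ 8 * 32 + 1

theorem one_le_fourthBound : 1 ≤ fourthBound := by unfold fourthBound; norm_num

/-- The block, for one window. -/
theorem exists_coin (hM : MomentsTarget) (U : Type) [Fintype U] {c₀ ε : ℝ} (hc₀ : 0 < c₀)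
    (hε : 0 < ε) : ∃ (D : ℕ) (a : Fin D → ℝ), ∀ w w' : U → ℝ, BankData.IsWeight w →
      BankData.IsWeight w' → ∃ R₀ : ℕ, ∀ R, R₀ ≤ R → ∀ (A B : Type) [CStarAlgebra A]
        [CStarAlgebra B] (b : BankData A B U R) (τ : A →ₗ[ℂ] ℂ), PosTr τ → (τ 1).re = 1 →
        (∀ i e, c₀ ≤ (τ (b.letter i e * b.letter i e)).re) →
        IsSelfAdjoint (b.coin a w) ∧ |(τ (b.coin a w)).re| ≤ ε ∧
        c₀ ≤ (τ (b.coin a w * b.coin a w)).re ∧ (τ (b.coin a w ^ 4)).re ≤ fourthBound ∧
        (τ ((b.coin a w - b.coin a w') * (b.coin a w - b.coin a w'))).re ≤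
          ε + 8 * ∑ e, |w e - w' e| := by
  classical
  set n : ℝ := (Fintype.card U : ℝ) + 1
  set σ : ℝ := min c₀ ε / (24 * n)
  have hσ : 0 < σ := by positivity
  obtain ⟨D, a, ha⟩ := exists_sqrt_poly hσ
  refine ⟨D, a, fun w w' hw hw' => ?_⟩
  obtain ⟨C₁, h₁⟩ := hM U D a w (fun _ => 0)
  obtain ⟨C₂, h₂⟩ := hM U D a w w'
  set η : ℝ := min (min c₀ ε / 4) 1
  obtain ⟨N, hN⟩ := exists_nat_gt (max |C₁| |C₂| / η)
  refine ⟨max (max N (Fintype.card U)) 1, fun R hR A B _ _ b τ hτ hτ1 hc => ?_⟩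
  let := CStarAlgebra.spectralOrder A
  have := CStarAlgebra.spectralOrderedRing A
  have hR0 : 0 < R := lt_of_lt_of_le one_pos ((le_max_right _ _).trans hR)
  have hRc : Fintype.card U ≤ R := ((le_max_right _ _).trans (le_max_left _ _)).trans hR
  obtain ⟨ι⟩ := Function.Embedding.nonempty_of_card_le (α := U) (β := Fin R) (by simpa using hRc)
  have hη : 0 < η := by positivity
  have hCR : ∀ C : ℝ, |C| ≤ max |C₁| |C₂| → C / R ≤ η := fun C hC => by
    rw [div_lt_iff₀ hη] at hN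
    rw [div_le_iff₀ (by exact_mod_cast hR0)]
    have : (N : ℝ) ≤ R := by exact_mod_cast ((le_max_left _ _).trans (le_max_left _ _)).trans hR
    nlinarith [le_abs_self C]
  have e₁ := hCR C₁ (le_max_left _ _)
  have e₂ := hCR C₂ (le_max_right _ _)
  have hηc : η ≤ c₀ / 4 ∧ η ≤ ε / 4 ∧ η ≤ 1 := by
    have := min_le_left c₀ ε; have := min_le_right c₀ ε
    exact ⟨(min_le_left _ _).trans (by linarith), (min_le_left _ _).trans (by linarith), min_le_right _ _⟩
  have hzero : b.polyCov a (fun _ => 0) = 0 := by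
    simp [BankData.polyCov, BankData.cov, zero_pow]
  have hzero' : b.coin a (fun _ => 0) = 0 := by simp [BankData.coin, hzero]
  obtain ⟨m1, m2, m4⟩ := h₁ A B R hR0 b τ hτ hτ1.le
  obtain ⟨-, d2, -⟩ := h₂ A B R hR0 b τ hτ hτ1.le
  rw [hzero, hzero', sub_zero, sub_zero] at m2
  obtain ⟨t1, t2⟩ := b.traces_le hR0 ha hτ hτ1 hw
  have hv := b.variance_ge hR0 ι ha hτ hτ1 hw hc
  have hd := b.distance_le hR0 ι ha hτ hτ1 hw hw'
  have hσn : 24 * (σ * Fintype.card U) ≤ min c₀ ε := by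
    have hn0 : n ≠ 0 := (by positivity : (0 : ℝ) < n).ne'
    have h : 24 * (σ * n) = min c₀ ε := by simp only [σ]; field_simp
    have : σ * (Fintype.card U : ℝ) ≤ σ * n := mul_le_mul_of_nonneg_left (by simp [n]) hσ.le
    linarith
  have := min_le_left c₀ ε
  have := min_le_right c₀ ε
  refine ⟨b.coin_isSelfAdjoint a w ?_, by linarith, ?_, ?_, ?_⟩
  · rw [b.polyCov_eq_cfc a (IsSelfAdjoint.of_nonneg (b.cov_bounds hR0 hw).1)]
    exact cfc_predicate _ _
  · linarith [(abs_le.1 m2).1]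
  · refine m4.trans ?_
    have : (8 : ℝ) ^ 8 * ((τ (Mat.tr (b.polyCov a w ^ 2) * Mat.tr (b.polyCov a w ^ 2))).re +
        (Mat.matTr τ R (b.polyCov a w ^ 4)).re) ≤ (8 : ℝ) ^ 8 * 32 :=
      mul_le_mul_of_nonneg_left (by linarith) (by positivity)
    unfold fourthBound
    linarith
  · linarith [(abs_le.1 d2).2]

/-- The block. -/
theorem exists_block (hM : MomentsTarget) {G : Type} [Group G] (hG : IsAmenable G) (S : Finset G)
    {c₀ ε : ℝ} (hc₀ : 0 < c₀) (hε : 0 < ε) :
    ∃ R : ℕ, ∀ (A B : Type) [CStarAlgebra A] [CStarAlgebra B] (Z : BankSystem G A B R),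
      Z.Spread c₀ → ∃ X : A, IsSelfAdjoint X ∧ ∀ τ : A →ₗ[ℂ] ℂ, PosTr τ → (τ 1).re = 1 →
        |(τ X).re| ≤ ε ∧ c₀ ≤ (τ (X * X)).re ∧ (τ (X ^ 4)).re ≤ fourthBound ∧
        ∀ s ∈ S, (τ ((Z.α s X - X) * (Z.α s X - X))).re ≤ ε := by
  classical
  obtain ⟨V, hVne, hV⟩ := hG S (ε / 32) (by positivity)
  set U : Finset G := V ∪ S.biUnion fun s => V.image (s * ·)
  have hVU : V ⊆ U := subset_union_left
  have hsU : ∀ s ∈ S, V.image (s * ·) ⊆ U := fun s hs =>
    (subset_biUnion_of_mem (fun s => V.image (s * ·)) hs).trans subset_union_right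
  obtain ⟨D, a, ha⟩ := exists_coin hM U hc₀ (half_pos hε)
  have hw := isWeight_uniform (U := U) hVU hVne
  have hws : ∀ s ∈ S, BankData.IsWeight (uniformWeight (U := U) (V.image (s * ·))) := fun s hs =>
    isWeight_uniform (hsU s hs) (hVne.image _)
  obtain ⟨R₁, hR₁⟩ := ha _ _ hw hw
  choose R₂ hR₂ using fun s : S => ha _ _ hw (hws s s.2)
  refine ⟨max R₁ (univ.sup R₂), fun A B _ _ Z hZ => ?_⟩
  set b := Z.data U
  have hc : ∀ (τ : A →ₗ[ℂ] ℂ), PosTr τ → (τ 1).re = 1 → ∀ i e,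
      c₀ ≤ (τ (b.letter i e * b.letter i e)).re := fun τ hτ hτ1 i e => by
    have hσ := hτ.comp ((Z.φ i).comp (Z.β (e : G)).toStarAlgHom)
    have := hZ _ hσ
    simp only [LinearMap.comp_apply, AlgHom.toLinearMap_apply] at this
    change c₀ * (τ ((Z.φ i).comp (Z.β (e : G)).toStarAlgHom 1)).re ≤
      (τ ((Z.φ i).comp (Z.β (e : G)).toStarAlgHom (Z.ζ * Z.ζ))).re at this
    rw [map_one, hτ1, mul_one, map_mul] at this
    exact this
  refine ⟨b.coin a (uniformWeight V), ?_, fun τ hτ hτ1 => ?_⟩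
  · let := CStarAlgebra.spectralOrder A
    have := CStarAlgebra.spectralOrderedRing A
    rcases Nat.eq_zero_or_pos (max R₁ (univ.sup R₂)) with h0 | h0
    · have : IsEmpty (Fin (max R₁ (univ.sup R₂))) := by rw [h0]; infer_instance
      rw [BankData.coin, sum_eq_zero fun p _ => isEmptyElim p.1]
      exact IsSelfAdjoint.zero A
    · refine b.coin_isSelfAdjoint a _ ?_
      rw [b.polyCov_eq_cfc a (IsSelfAdjoint.of_nonneg (b.cov_bounds h0 hw).1)]
      exact cfc_predicate _ _
  obtain ⟨-, h1, h2, h3, -⟩ := hR₁ _ (le_max_left _ _) A B b τ hτ hτ1 (hc τ hτ hτ1)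
  refine ⟨by linarith, h2, h3, fun s hs => ?_⟩
  obtain ⟨-, -, -, -, h5⟩ := hR₂ ⟨s, hs⟩ _
    ((le_sup (f := R₂) (mem_univ (⟨s, hs⟩ : S))).trans (le_max_right _ _)) A B b τ hτ hτ1 (hc τ hτ hτ1)
  set X := b.coin a (uniformWeight V)
  rw [Z.act_coin a hVU (hsU s hs), ← neg_sub X, neg_mul_neg]
  refine h5.trans ?_
  have hcard : V.card = (V.image (s * ·)).card :=
    (card_image_of_injective _ (mul_right_injective s)).symm
  rw [sum_uniform_sub hVU (hsU s hs) hcard]
  have hbd : (((V.image (s * ·)) \ V).card : ℝ) ≤ ε / 32 * V.card := by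
    refine le_of_eq_of_le ?_ (hV s hs)
    have e : V.image (s * ·) \ V = (V.filter fun x => s * x ∉ V).image (s * ·) := by
      ext y
      simp only [Finset.mem_sdiff, Finset.mem_image, Finset.mem_filter]
      constructor
      · rintro ⟨⟨x, hx, rfl⟩, hy⟩; exact ⟨x, ⟨hx, hy⟩, rfl⟩
      · rintro ⟨x, ⟨hx, hy⟩, rfl⟩; exact ⟨⟨x, hx, rfl⟩, hy⟩
    rw [e, card_image_of_injective _ (mul_right_injective s)]
    norm_cast
    rw [← Set.ncard_coe_finset]
    congr 1
    ext x
    simp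
  have e2 : (V \ V.image (s * ·)).card = (V.image (s * ·) \ V).card := by
    have h7 := card_sdiff_add_card_inter V (V.image (s * ·))
    have h8 := card_sdiff_add_card_inter (V.image (s * ·)) V
    rw [inter_comm] at h8
    omega
  rw [e2]
  have hpos : (0 : ℝ) < V.card := by exact_mod_cast hVne.card_pos
  have : 2 * (((V.image (s * ·)) \ V).card : ℝ) / V.card ≤ ε / 16 := by
    rw [div_le_iff₀ hpos]; linarith
  linarith

end

end Vale.Agent.P095.All.Coin
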