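import Vale.Agent.P095.All.Coin.Basic

/-!
# P095 coin: the covariance operator of the banks

`E` labels finitely many translates of one commutator `ζ`, the `R` homomorphisms `φ` are the
banks, `v_e = R^(-1/2) (φ_i ζ_e)_i` and `P = ∑ w_e v_e v_e*`. The coin is the sum of the off-diagonal
entries of `∑ a_k P^(k+1)`.
-/

namespace Vale.Agent.P095.All.Coin

open Vale.Agent.P101.KR Vale.Agent.P095.Amen Finset

noncomputable section

/-- Commuting banks and self-adjoint commutators. -/
structure BankData (A B E : Type) [CStarAlgebra A] [CStarAlgebra B] (R : ℕ) where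
  /-- The banks. -/
  φ : Fin R → B →⋆ₐ[ℂ] A
  /-- The letters. -/
  ζ : E → B
  comm : ∀ i j, i ≠ j → ∀ x y, Commute (φ i x) (φ j y)
  selfAdjoint : ∀ e, IsSelfAdjoint (ζ e)
  bound : ∀ e, ‖ζ e‖ ≤ 1
  commutator : ∀ e, ∃ c d : B, ζ e = c * d - d * c

variable {A B E : Type} [CStarAlgebra A] [CStarAlgebra B] [Fintype E] {R : ℕ}

namespace BankData

variable (b : BankData A B E R)

/-- One letter in one bank. -/
def letter (i : Fin R) (e : E) : A := b.φ i (b.ζ e)

/-- The covariance operator. -/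
def cov (w : E → ℝ) : Mat A R :=
  ∑ e, w e • Mat.of fun i j => (R : ℝ)⁻¹ • (b.letter i e * b.letter j e)

/-- A polynomial without constant term of the covariance operator. -/
def polyCov {D : ℕ} (a : Fin D → ℝ) (w : E → ℝ) : Mat A R :=
  ∑ k, a k • b.cov w ^ ((k : ℕ) + 1)

/-- The coin before normalisation. -/
def coin {D : ℕ} (a : Fin D → ℝ) (w : E → ℝ) : A :=
  ∑ p ∈ univ.filter (fun p : Fin R × Fin R => p.1 ≠ p.2), Mat.ent (b.polyCov a w) p.1 p.2

end BankData

/-- The moments of the coin, up to `O(1/R)`: centred, variance twice the Hilbert–Schmidt norm,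
fourth moment bounded by the two ways of contracting four copies. -/
def MomentsTarget : Prop :=
  ∀ (E : Type) [Fintype E] (D : ℕ) (a : Fin D → ℝ) (w w' : E → ℝ), ∃ C : ℝ,
    ∀ (A B : Type) [CStarAlgebra A] [CStarAlgebra B] (R : ℕ), 0 < R →
    ∀ (b : BankData A B E R) (τ : A →ₗ[ℂ] ℂ), PosTr τ → (τ 1).re ≤ 1 →
      |(τ (b.coin a w)).re| ≤ C / R ∧
      |(τ ((b.coin a w - b.coin a w') * (b.coin a w - b.coin a w'))).re -
        2 * (Mat.matTr τ R ((b.polyCov a w - b.polyCov a w') *
          (b.polyCov a w - b.polyCov a w'))).re| ≤ C / R ∧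
      (τ (b.coin a w ^ 4)).re ≤ (8 : ℝ) ^ 8 *
        ((τ (Mat.tr (b.polyCov a w ^ 2) * Mat.tr (b.polyCov a w ^ 2))).re +
          (Mat.matTr τ R (b.polyCov a w ^ 4)).re) + C / R

end

end Vale.Agent.P095.All.Coin
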