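import Vale.Agent.P095.All.Coin.Analysis

/-!
# P095 coin: bounds for the covariance operator and for the Hilbert–Schmidt norms of the coin
-/

namespace Vale.Agent.P095.All.Coin

open Vale.Agent.P101.KR Vale.Agent.P095.Amen Finset

noncomputable section

variable {A B E : Type} [CStarAlgebra A] [CStarAlgebra B] [Fintype E] {R : ℕ}

namespace Mat

/-- A diagonal matrix. -/
def diag (f : Fin R → A) : Mat A R := of fun i j => if i = j then f i else 0

theorem diag_mul (f g : Fin R → A) : diag f * diag g = diag fun i => f i * g i := by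
  refine ext fun i j => ?_
  simp only [diag, ent_mul, ent_of, ite_mul, zero_mul, sum_ite_eq, mem_univ, if_true]
  split_ifs <;> simp

theorem star_diag (f : Fin R → A) : star (diag f) = diag fun i => star (f i) := by
  refine ext fun i j => ?_
  simp only [diag, ent_star, ent_of]
  rcases eq_or_ne i j with rfl | h
  · simp
  · simp [h, h.symm]

theorem diag_sub (f g : Fin R → A) : diag f - diag g = diag fun i => f i - g i := by
  refine ext fun i j => ?_
  simp only [diag, ent_sub, ent_of]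
  split_ifs <;> simp

theorem diag_one : diag (fun _ : Fin R => (1 : A)) = 1 := ext fun i j => by simp [diag, ent_one]

theorem diag_mono [PartialOrder A] [StarOrderedRing A] {f g : Fin R → A} (h : ∀ i, f i ≤ g i) :
    diag f ≤ diag g := by
  choose c hc using fun i => CStarAlgebra.nonneg_iff_eq_star_mul_self.1 (sub_nonneg.2 (h i))
  rw [← sub_nonneg, diag_sub, show (fun i => g i - f i) = fun i => star (c i) * c i from funext hc,
    ← diag_mul, ← star_diag]
  exact star_mul_self_nonneg _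

theorem tr_diag (f : Fin R → A) : tr (diag f) = ∑ i, f i := by simp [tr, diag]

end Mat

namespace BankData

variable (b : BankData A B E R)

omit [Fintype E] in
theorem letter_isSelfAdjoint (i : Fin R) (e : E) : IsSelfAdjoint (b.letter i e) :=
  (b.selfAdjoint e).map _

omit [Fintype E] in
theorem norm_letter_le (i : Fin R) (e : E) : ‖b.letter i e‖ ≤ 1 :=
  (NonUnitalStarAlgHom.norm_apply_le (b.φ i) _).trans (b.bound e)

/-- One summand of the covariance operator. -/
def outer (e : E) : Mat A R := Mat.of fun i j => (R : ℝ)⁻¹ • (b.letter i e * b.letter j e)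

theorem cov_eq (w : E → ℝ) : b.cov w = ∑ e, w e • b.outer e := rfl

/-- A square root of the covariance operator, with at most `card E` columns. -/
def root (ι : E ↪ Fin R) (w : E → ℝ) : Mat A R :=
  Mat.of fun i j => ∑ e, if ι e = j then (Real.sqrt (w e) * Real.sqrt (R : ℝ)⁻¹) • b.letter i e else 0

theorem root_mul_star (ι : E ↪ Fin R) {w : E → ℝ} (hw : ∀ e, 0 ≤ w e) :
    b.root ι w * star (b.root ι w) = b.cov w := by
  classical
  refine Mat.ext fun i k => ?_
  have hstar : ∀ j, star (Mat.ent (b.root ι w) k j) = Mat.ent (b.root ι w) k j := fun j => by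
    simp only [root, Mat.ent_of, star_sum]
    refine sum_congr rfl fun e _ => ?_
    split_ifs
    · rw [star_smul, star_trivial, (b.letter_isSelfAdjoint k e).star_eq]
    · simp
  simp only [Mat.ent_mul, Mat.ent_star, hstar]
  simp only [root, cov_eq, outer, Mat.ent_of, Mat.ent_sum, Mat.ent_rsmul, sum_mul]
  rw [sum_comm]
  refine sum_congr rfl fun e _ => ?_
  simp only [ite_mul, zero_mul]
  rw [sum_ite_eq, if_pos (mem_univ _), mul_sum]
  rw [sum_eq_single e (fun f _ hf => by rw [if_neg fun h => hf (ι.injective h), mul_zero])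
    (fun h => absurd (mem_univ e) h), if_pos rfl, smul_mul_smul_comm, smul_smul]
  congr 1
  calc _ = (Real.sqrt (w e) * Real.sqrt (w e)) * (Real.sqrt (R : ℝ)⁻¹ * Real.sqrt (R : ℝ)⁻¹) := by
        ring
    _ = _ := by rw [Real.mul_self_sqrt (hw e), Real.mul_self_sqrt (by positivity)]

/-- The projection on the columns in use. -/
def colProj (ι : E ↪ Fin R) : Mat A R := by
  classical
  exact Mat.diag fun j => if j ∈ univ.map ι then 1 else 0

theorem colProj_spec (ι : E ↪ Fin R) (w : E → ℝ) :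
    b.root ι w * colProj ι = b.root ι w ∧ IsSelfAdjoint (colProj ι : Mat A R) ∧
      colProj ι * colProj ι = (colProj ι : Mat A R) ∧
      ∀ τ : A →ₗ[ℂ] ℂ, (Mat.matTr τ R (colProj ι)).re = Fintype.card E * (τ 1).re := by
  classical
  refine ⟨Mat.ext fun i j => ?_, ?_, ?_, fun τ => ?_⟩
  · simp only [colProj, Mat.diag, root, Mat.ent_mul, Mat.ent_of, mul_ite, mul_zero, sum_ite_eq',
      mem_univ, if_true]
    split_ifs with h
    · rw [mul_one]
    · refine (sum_eq_zero fun e _ => ?_).symm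
      rw [if_neg]
      exact fun he => h (mem_map.2 ⟨e, mem_univ e, he⟩)
  · rw [IsSelfAdjoint, colProj, Mat.star_diag]
    congr 1
    funext j
    split_ifs <;> simp
  · rw [colProj, Mat.diag_mul]
    congr 1
    funext j
    split_ifs <;> simp
  · rw [Mat.matTr_apply, colProj, Mat.tr_diag, sum_ite_mem, univ_inter, sum_const, card_map,
      card_univ, map_nsmul, nsmul_eq_mul]
    simp

variable [PartialOrder A] [StarOrderedRing A]

theorem letter_sq_le_one (i : Fin R) (e : E) :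
    0 ≤ b.letter i e * b.letter i e ∧ b.letter i e * b.letter i e ≤ 1 := by
  refine ⟨(b.letter_isSelfAdjoint i e).mul_self_nonneg, ?_⟩
  rw [← CStarAlgebra.norm_le_one_iff_of_nonneg _ (b.letter_isSelfAdjoint i e).mul_self_nonneg]
  exact (norm_mul_le _ _).trans (mul_le_one₀ (b.norm_letter_le i e) (norm_nonneg _) (b.norm_letter_le i e))

theorem outer_bounds (hR : 0 < R) (e : E) : 0 ≤ b.outer e ∧ b.outer e ≤ 1 := by
  classical
  set o : Fin R := ⟨0, hR⟩
  set c := Real.sqrt (R : ℝ)⁻¹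
  have hcc : c * c = (R : ℝ)⁻¹ := Real.mul_self_sqrt (by positivity)
  set V : Mat A R := Mat.of fun i j => if j = o then c • b.letter i e else 0
  have hVV : V * star V = b.outer e := Mat.ext fun i k => by
    simp only [V, outer, Mat.ent_mul, Mat.ent_star, Mat.ent_of, apply_ite, star_zero, star_smul,
      star_trivial, (b.letter_isSelfAdjoint k e).star_eq, mul_ite, mul_zero, ite_mul, zero_mul]
    rw [sum_eq_single o (fun j _ hj => by simp [hj]) (fun h => absurd (mem_univ o) h)]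
    simp [smul_smul, hcc]
  have hle : star V * V ≤ 1 := by
    have e1 : star V * V = Mat.diag fun j => if j = o then
        (R : ℝ)⁻¹ • ∑ i, b.letter i e * b.letter i e else 0 := Mat.ext fun j k => by
      simp only [V, Mat.diag, Mat.ent_mul, Mat.ent_star, Mat.ent_of]
      by_cases hj : j = o
      · by_cases hk : k = o
        · subst hj hk
          simp [smul_smul, hcc, smul_sum, (b.letter_isSelfAdjoint _ e).star_eq]
        · have hjk : j ≠ k := fun h => hk (h ▸ hj)
          simp [hk, hjk]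
      · simp [hj]
    rw [e1, ← Mat.diag_one]
    refine Mat.diag_mono fun j => ?_
    split_ifs
    · calc (R : ℝ)⁻¹ • ∑ i, b.letter i e * b.letter i e ≤ (R : ℝ)⁻¹ • ∑ i : Fin R, (1 : A) :=
            smul_le_smul_of_nonneg_left (sum_le_sum fun i _ => (b.letter_sq_le_one i e).2)
              (by positivity)
        _ = 1 := by
            rw [sum_const, card_univ, Fintype.card_fin, ← Nat.cast_smul_eq_nsmul ℝ, smul_smul,
              inv_mul_cancel₀ (by exact_mod_cast hR.ne'), one_smul]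
    · exact zero_le_one
  rw [← hVV]
  refine ⟨mul_star_self_nonneg V, ?_⟩
  rw [← CStarAlgebra.norm_le_one_iff_of_nonneg _ (mul_star_self_nonneg V),
    CStarRing.norm_self_mul_star, ← CStarRing.norm_star_mul_self]
  exact (CStarAlgebra.norm_le_one_iff_of_nonneg _ (star_mul_self_nonneg V)).2 hle

omit [Fintype E] [PartialOrder A] [StarOrderedRing A] in
theorem tr_outer (e : E) : Mat.tr (b.outer e) = (R : ℝ)⁻¹ • ∑ i, b.letter i e * b.letter i e := by
  simp [Mat.tr, outer, smul_sum]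

theorem tr_outer_le (hR : 0 < R) (e : E) : Mat.tr (b.outer e) ≤ 1 := by
  rw [b.tr_outer]
  calc (R : ℝ)⁻¹ • ∑ i, b.letter i e * b.letter i e ≤ (R : ℝ)⁻¹ • ∑ i : Fin R, (1 : A) :=
        smul_le_smul_of_nonneg_left (sum_le_sum fun i _ => (b.letter_sq_le_one i e).2) (by positivity)
    _ = 1 := by
        rw [sum_const, card_univ, Fintype.card_fin, ← Nat.cast_smul_eq_nsmul ℝ, smul_smul,
          inv_mul_cancel₀ (by exact_mod_cast hR.ne'), one_smul]

/-- Weights of a probability vector. -/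
def IsWeight (w : E → ℝ) : Prop := (∀ e, 0 ≤ w e) ∧ ∑ e, w e = 1

theorem cov_bounds (hR : 0 < R) {w : E → ℝ} (hw : IsWeight w) :
    0 ≤ b.cov w ∧ b.cov w ≤ 1 ∧ Mat.tr (b.cov w) ≤ 1 := by
  refine ⟨sum_nonneg fun e _ => smul_nonneg (hw.1 e) (b.outer_bounds hR e).1, ?_, ?_⟩
  · calc b.cov w ≤ ∑ e, w e • (1 : Mat A R) :=
          sum_le_sum fun e _ => smul_le_smul_of_nonneg_left (b.outer_bounds hR e).2 (hw.1 e)
      _ = 1 := by rw [← sum_smul, hw.2, one_smul]
  · calc Mat.tr (b.cov w) = ∑ e, w e • Mat.tr (b.outer e) := by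
          simp only [cov_eq, Mat.tr, Mat.ent_sum, Mat.ent_rsmul, smul_sum]
          exact sum_comm
      _ ≤ ∑ e, w e • (1 : A) :=
          sum_le_sum fun e _ => smul_le_smul_of_nonneg_left (b.tr_outer_le hR e) (hw.1 e)
      _ = 1 := by rw [← sum_smul, hw.2, one_smul]

omit [PartialOrder A] [StarOrderedRing A] in
theorem coin_isSelfAdjoint {D : ℕ} (a : Fin D → ℝ) (w : E → ℝ) (h : IsSelfAdjoint (b.polyCov a w)) :
    IsSelfAdjoint (b.coin a w) := by
  rw [IsSelfAdjoint, coin, star_sum]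
  refine sum_nbij' Prod.swap Prod.swap ?_ ?_ (fun _ _ => rfl) (fun _ _ => rfl) fun p _ => ?_
  · intro p hp; simpa [eq_comm] using hp
  · intro p hp; simpa [eq_comm] using hp
  · rw [← Mat.ent_star, h.star_eq]
    rfl

omit [PartialOrder A] [StarOrderedRing A] in
theorem polyCov_eq_cfc {D : ℕ} (a : Fin D → ℝ) {w : E → ℝ} (h : IsSelfAdjoint (b.cov w)) :
    b.polyCov a w = cfc (fun t : ℝ => ∑ k, a k * t ^ ((k : ℕ) + 1)) (b.cov w) := by
  rw [← Finset.sum_fn, cfc_sum _ _ _ fun k _ => (by fun_prop : Continuous _).continuousOn]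
  exact sum_congr rfl fun k _ => by
    rw [cfc_const_mul (a k) (fun t : ℝ => t ^ ((k : ℕ) + 1)) _ (by fun_prop : Continuous _).continuousOn,
      cfc_pow_id (R := ℝ) (b.cov w)]

/-- The bounds of the polynomial. -/
def IsSqrtPoly {D : ℕ} (a : Fin D → ℝ) (σ : ℝ) : Prop :=
  ∀ t ∈ Set.Icc (0 : ℝ) 1, (∑ k, a k * t ^ ((k : ℕ) + 1) - Real.sqrt t) ^ 2 ≤ σ ∧
    |(∑ k, a k * t ^ ((k : ℕ) + 1)) ^ 2 - t| ≤ σ ∧
    (∑ k, a k * t ^ ((k : ℕ) + 1)) ^ 2 ≤ 4 * t

variable {D : ℕ} {a : Fin D → ℝ} {σ : ℝ} {τ : A →ₗ[ℂ] ℂ}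

theorem cov_spectrum (hR : 0 < R) {w : E → ℝ} (hw : IsWeight w) :
    ∀ t ∈ spectrum ℝ (b.cov w), t ∈ Set.Icc (0 : ℝ) 1 := fun t ht => by
  obtain ⟨h0, h1, -⟩ := b.cov_bounds hR hw
  exact ⟨spectrum_nonneg_of_nonneg h0 ht, (le_algebraMap_iff_spectrum_le
    (IsSelfAdjoint.of_nonneg h0)).1 (h1.trans_eq (map_one _).symm) t ht⟩

theorem rank_bound (hR : 0 < R) (ι : E ↪ Fin R) (hτ : PosTr τ) (hτ1 : (τ 1).re = 1) {w : E → ℝ}
    (hw : IsWeight w) {φ : ℝ → ℝ} (hφ : Continuous φ) (hφ0 : φ 0 = 0)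
    (hφσ : ∀ t ∈ Set.Icc (0 : ℝ) 1, φ t ≤ σ) :
    (Mat.matTr τ R (cfc φ (b.cov w))).re ≤ σ * Fintype.card E := by
  obtain ⟨h1, h2, h3, h4⟩ := b.colProj_spec ι w
  have := (Mat.posTr hτ R).rank_le h1 h2 h3
    (by rw [b.root_mul_star ι hw.1]; exact (b.cov_bounds hR hw).2.1) hφ hφ0 hφσ
  rwa [b.root_mul_star ι hw.1, h4, hτ1, mul_one] at this

theorem traces_le (hR : 0 < R) (ha : IsSqrtPoly a σ) (hτ : PosTr τ) (hτ1 : (τ 1).re = 1)
    {w : E → ℝ} (hw : IsWeight w) :
    (τ (Mat.tr (b.polyCov a w ^ 2) * Mat.tr (b.polyCov a w ^ 2))).re ≤ 16 ∧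
      (Mat.matTr τ R (b.polyCov a w ^ 4)).re ≤ 16 := by
  obtain ⟨h0, h1, htr⟩ := b.cov_bounds hR hw
  have hsa := IsSelfAdjoint.of_nonneg h0
  set p : ℝ → ℝ := fun t => ∑ k, a k * t ^ ((k : ℕ) + 1)
  have hp : Continuous p := by fun_prop
  have hle : ∀ (m : ℕ) (c : ℝ), (∀ t ∈ Set.Icc (0 : ℝ) 1, p t ^ m ≤ c * t) →
      b.polyCov a w ^ m ≤ c • b.cov w := fun m c hc => by
    rw [b.polyCov_eq_cfc a hsa, ← cfc_pow p m (b.cov w) hp.continuousOn]
    conv_rhs => rw [← cfc_id' ℝ (b.cov w), ← cfc_smul c (fun t : ℝ => t) (b.cov w) continuous_id.continuousOn]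
    exact cfc_mono (fun t ht => hc t (b.cov_spectrum hR hw t ht)) (hp.pow m).continuousOn
      (continuous_id.const_smul c).continuousOn
  have h2 : b.polyCov a w ^ 2 ≤ (4 : ℝ) • b.cov w := hle 2 4 fun t ht => (ha t ht).2.2
  have h4 : b.polyCov a w ^ 4 ≤ (16 : ℝ) • b.cov w := hle 4 16 fun t ht => by
    have h5 := (ha t ht).2.2
    rw [show p t ^ 4 = (p t ^ 2) ^ 2 by ring]
    nlinarith [ht.1, ht.2, sq_nonneg (p t)]
  have hT : IsSelfAdjoint (b.polyCov a w) := by
    rw [b.polyCov_eq_cfc a hsa]; exact cfc_predicate _ _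
  constructor
  · set z := Mat.tr (b.polyCov a w ^ 2)
    have hz0 : 0 ≤ z := Mat.tr_nonneg (by rw [sq]; exact hT.mul_self_nonneg)
    have hz4 : z ≤ algebraMap ℝ A 4 := by
      refine (Mat.tr_mono h2).trans ?_
      rw [Mat.tr_rsmul, Algebra.algebraMap_eq_smul_one]
      exact smul_le_smul_of_nonneg_left htr (by norm_num)
    have hzn : ‖z‖ ≤ 4 := CStarAlgebra.norm_le_iff_le_algebraMap z (by norm_num) hz0 |>.2 hz4
    have h5 := (le_abs_self _).trans (hτ.abs_re_le (IsSelfAdjoint.of_nonneg hz0).mul_self_nonneg.isSelfAdjoint)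
    rw [hτ1, mul_one] at h5
    exact h5.trans ((norm_mul_le _ _).trans (by nlinarith [norm_nonneg z]))
  · refine ((Mat.posTr hτ R).mono h4).trans ?_
    rw [Mat.matTr_apply, Mat.tr_rsmul, smul_re]
    have := hτ.mono htr
    rw [hτ1] at this
    linarith

theorem variance_ge (hR : 0 < R) (ι : E ↪ Fin R) (ha : IsSqrtPoly a σ) (hτ : PosTr τ)
    (hτ1 : (τ 1).re = 1) {w : E → ℝ} (hw : IsWeight w) {c₀ : ℝ}
    (hc : ∀ i e, c₀ ≤ (τ (b.letter i e * b.letter i e)).re) :
    c₀ - σ * Fintype.card E ≤ (Mat.matTr τ R (b.polyCov a w * b.polyCov a w)).re := by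
  obtain ⟨h0, h1, -⟩ := b.cov_bounds hR hw
  have hsa := IsSelfAdjoint.of_nonneg h0
  set p : ℝ → ℝ := fun t => ∑ k, a k * t ^ ((k : ℕ) + 1)
  have hp : Continuous p := by fun_prop
  have h2 := b.rank_bound hR ι hτ hτ1 hw (φ := fun t => t - p t ^ 2) (σ := σ)
    (continuous_id.sub (hp.pow 2)) (by simp [p]) (fun t ht => by
      have := (abs_le.1 (ha t ht).2.1).1; linarith)
  rw [cfc_sub (fun t : ℝ => t) (fun t => p t ^ 2) _ continuous_id.continuousOn (hp.pow 2).continuousOn,
    cfc_id' ℝ (b.cov w), map_sub, Complex.sub_re, cfc_pow p 2 _ hp.continuousOn,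
    ← b.polyCov_eq_cfc a hsa, sq] at h2
  have h3 : c₀ ≤ (Mat.matTr τ R (b.cov w)).re := by
    rw [cov_eq, map_sum, Complex.re_sum]
    calc c₀ = ∑ e, w e * c₀ := by rw [← sum_mul, hw.2, one_mul]
      _ ≤ _ := sum_le_sum fun e _ => by
          rw [smul_re, Mat.matTr_apply, b.tr_outer, smul_re, map_sum, Complex.re_sum]
          refine mul_le_mul_of_nonneg_left ?_ (hw.1 e)
          calc c₀ = (R : ℝ)⁻¹ * ∑ i : Fin R, c₀ := by
                rw [sum_const, card_univ, Fintype.card_fin, nsmul_eq_mul, ← mul_assoc,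
                  inv_mul_cancel₀ (by exact_mod_cast hR.ne'), one_mul]
            _ ≤ _ := mul_le_mul_of_nonneg_left (sum_le_sum fun i _ => hc i e) (by positivity)
  linarith

theorem distance_le (hR : 0 < R) (ι : E ↪ Fin R) (ha : IsSqrtPoly a σ) (hτ : PosTr τ)
    (hτ1 : (τ 1).re = 1) {w w' : E → ℝ} (hw : IsWeight w) (hw' : IsWeight w') :
    (Mat.matTr τ R ((b.polyCov a w - b.polyCov a w') * (b.polyCov a w - b.polyCov a w'))).re ≤
      6 * (σ * Fintype.card E) + 4 * ∑ e, |w e - w' e| := by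
  set Φ := Mat.matTr τ R
  have hΦ : PosTr Φ := Mat.posTr hτ R
  set p : ℝ → ℝ := fun t => ∑ k, a k * t ^ ((k : ℕ) + 1)
  have hp : Continuous p := by fun_prop
  set S : (E → ℝ) → Mat A R := fun v => cfc Real.sqrt (b.cov v)
  have hT : ∀ v, IsWeight v → IsSelfAdjoint (b.polyCov a v - S v) ∧
      (Φ ((b.polyCov a v - S v) * (b.polyCov a v - S v))).re ≤ σ * Fintype.card E := fun v hv => by
    have h0 := IsSelfAdjoint.of_nonneg (b.cov_bounds hR hv).1
    have e : b.polyCov a v - S v = cfc (fun t => p t - Real.sqrt t) (b.cov v) := by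
      rw [cfc_sub p Real.sqrt _ hp.continuousOn Real.continuous_sqrt.continuousOn,
        ← b.polyCov_eq_cfc a h0]
    refine ⟨e ▸ cfc_predicate _ _, ?_⟩
    rw [e, ← cfc_mul (fun t => p t - Real.sqrt t) (fun t => p t - Real.sqrt t) (b.cov v) (hp.sub Real.continuous_sqrt).continuousOn
      (hp.sub Real.continuous_sqrt).continuousOn]
    exact b.rank_bound hR ι hτ hτ1 hv ((hp.sub Real.continuous_sqrt).mul (hp.sub Real.continuous_sqrt))
      (by simp [p]) fun t ht => by have := (ha t ht).1; rw [sq] at this; exact this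
  have hS : ∀ v, IsWeight v → 0 ≤ S v ∧ S v * S v = b.cov v := fun v hv => by
    have h0 := (b.cov_bounds hR hv).1
    refine ⟨cfc_nonneg fun t _ => Real.sqrt_nonneg t, ?_⟩
    rw [← cfc_mul Real.sqrt Real.sqrt _ Real.continuous_sqrt.continuousOn
      Real.continuous_sqrt.continuousOn]
    exact (cfc_congr fun t ht => Real.mul_self_sqrt (spectrum_nonneg_of_nonneg h0 ht)).trans
      (cfc_id' ℝ (b.cov v))
  obtain ⟨hx, hx'⟩ := hT w hw
  obtain ⟨hz, hz'⟩ := hT w' hw'
  have hy : (Φ ((S w - S w') * (S w - S w'))).re ≤ ∑ e, |w e - w' e| := by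
    refine hΦ.powers_stormer (hS w hw).1 (hS w' hw').1 fun u hu hu1 => ?_
    rw [(hS w hw).2, (hS w' hw').2, cov_eq, cov_eq, ← sum_sub_distrib, sum_mul, map_sum,
      Complex.re_sum]
    refine (abs_sum_le_sum_abs _ _).trans (sum_le_sum fun e _ => ?_)
    rw [← sub_smul, smul_mul_assoc, smul_re, abs_mul]
    refine mul_le_of_le_one_right (abs_nonneg _) ?_
    refine (hΦ.abs_mul_le (b.outer_bounds hR e).1 hu hu1).trans ?_
    exact (hτ.mono (b.tr_outer_le hR e)).trans_eq hτ1
  have hsy : IsSelfAdjoint (S w - S w') :=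
    (IsSelfAdjoint.of_nonneg (hS w hw).1).sub (IsSelfAdjoint.of_nonneg (hS w' hw').1)
  have h1 := hΦ.sq_add_le (b.polyCov a w - S w) ((S w - S w') + -(b.polyCov a w' - S w'))
  have h2 := hΦ.sq_add_le (S w - S w') (-(b.polyCov a w' - S w'))
  rw [show (b.polyCov a w - S w) + ((S w - S w') + -(b.polyCov a w' - S w')) =
    b.polyCov a w - b.polyCov a w' by abel] at h1
  have hsd : IsSelfAdjoint (b.polyCov a w - b.polyCov a w') := by
    rw [b.polyCov_eq_cfc a (IsSelfAdjoint.of_nonneg (b.cov_bounds hR hw).1),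
      b.polyCov_eq_cfc a (IsSelfAdjoint.of_nonneg (b.cov_bounds hR hw').1)]
    exact (cfc_predicate _ _ : IsSelfAdjoint _).sub (cfc_predicate _ _)
  rw [hsd.star_eq, hx.star_eq] at h1
  rw [hsy.star_eq, hz.neg.star_eq, neg_mul_neg] at h2
  linarith

end BankData

end

end Vale.Agent.P095.All.Coin
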