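import Vale.Agent.P095.All.Coin.Basic

/-!
# P095 coin: functional calculus in the two-norm of a trace
-/

namespace Vale.Agent.P095.All.Coin

open Vale.Agent.P101.KR Vale.Agent.P095.Amen Finset

noncomputable section

variable {A : Type} [CStarAlgebra A]

theorem norm_pow_le_one {a : A} (ha : ‖a‖ ≤ 1) : ∀ k : ℕ, ‖a ^ k‖ ≤ 1
  | 0 => by
    rcases subsingleton_or_nontrivial A with h | h
    · rw [Subsingleton.elim (a ^ 0) 0, norm_zero]; exact zero_le_one
    · simp
  | k + 1 => by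
    rw [pow_succ]
    exact (norm_mul_le _ _).trans (mul_le_one₀ (norm_pow_le_one ha k) (norm_nonneg _) ha)

theorem norm_pow_sub_le {a b : A} (ha : ‖a‖ ≤ 1) (hb : ‖b‖ ≤ 1) :
    ∀ k : ℕ, ‖a ^ k - b ^ k‖ ≤ k * ‖a - b‖
  | 0 => by simp
  | k + 1 => by
    have e : a ^ (k + 1) - b ^ (k + 1) = a ^ k * (a - b) + (a ^ k - b ^ k) * b := by
      rw [pow_succ, pow_succ, mul_sub, sub_mul]; abel
    rw [e]
    refine (norm_add_le _ _).trans ((add_le_add (norm_mul_le _ _) (norm_mul_le _ _)).trans ?_)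
    push_cast
    have h1 := mul_le_mul_of_nonneg_right (norm_pow_le_one ha k) (norm_nonneg (a - b))
    have h2 := mul_le_mul (norm_pow_sub_le ha hb k) hb (norm_nonneg _)
      (mul_nonneg (Nat.cast_nonneg k) (norm_nonneg _))
    linarith

theorem trace_pow_sub_le {τ : A →ₗ[ℂ] ℂ} (hτ : PosTr τ) {a b : A} (ha : ‖a‖ ≤ 1) (hb : ‖b‖ ≤ 1)
    {M : ℝ} (hM : ∀ v : A, ‖v‖ ≤ 1 → |(τ ((a - b) * v)).re| ≤ M) :
    ∀ k m : ℕ, |(τ ((a ^ k - b ^ k) * b ^ m)).re| ≤ k * M
  | 0, m => by simp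
  | k + 1, m => by
    have e : (a ^ (k + 1) - b ^ (k + 1)) * b ^ m =
        a ^ k * ((a - b) * b ^ m) + (a ^ k - b ^ k) * b ^ (m + 1) := by
      rw [pow_succ, pow_succ, pow_succ' b m]; noncomm_ring
    rw [e, map_add, Complex.add_re, hτ.comm (a ^ k), mul_assoc]
    refine (abs_add_le _ _).trans ?_
    have h1 := hM _ ((norm_mul_le (b ^ m) (a ^ k)).trans
      (mul_le_one₀ (norm_pow_le_one hb m) (norm_nonneg _) (norm_pow_le_one ha k)))
    have h2 := trace_pow_sub_le hτ ha hb hM k (m + 1)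
    push_cast
    linarith

/-- A continuous function is uniformly continuous in norm and in the two-norm of every trace. -/
theorem exists_approx (f : ℝ → ℝ) (hf : Continuous f) {η : ℝ} (hη : 0 < η) :
    ∃ L : ℝ, 0 ≤ L ∧ ∀ {A : Type} [CStarAlgebra A] [PartialOrder A] [StarOrderedRing A] (a b : A),
      IsSelfAdjoint a → IsSelfAdjoint b → ‖a‖ ≤ 1 → ‖b‖ ≤ 1 →
      ‖cfc f a - cfc f b‖ ≤ η + L * ‖a - b‖ ∧
      ∀ τ : A →ₗ[ℂ] ℂ, PosTr τ → (τ 1).re = 1 → ∀ t : ℝ, 0 < t →
        |(τ (cfc f a - cfc f b)).re| ≤ η + L * (t * (τ ((a - b) * (a - b))).re + 1 / t) := by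
  obtain ⟨q, hq⟩ := exists_polynomial_near_of_continuousOn (-1) 1 f hf.continuousOn (η / 2) (half_pos hη)
  refine ⟨∑ k ∈ range (q.natDegree + 1), |q.coeff k| * k, by positivity, ?_⟩
  intro A _ _ _ a b ha hb han hbn
  have hnear : ∀ {c : A}, IsSelfAdjoint c → ‖c‖ ≤ 1 → ‖cfc f c - Polynomial.aeval c q‖ ≤ η / 2 := by
    intro c hc hcn
    rcases subsingleton_or_nontrivial A with h | h
    · rw [Subsingleton.elim (cfc f c - Polynomial.aeval c q) 0, norm_zero]; positivity
    rw [← cfc_polynomial q c hc, ← cfc_sub f q.eval c hf.continuousOn q.continuous.continuousOn]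
    refine norm_cfc_le (half_pos hη).le fun t ht => ?_
    have := (spectrum.norm_le_norm_of_mem ht).trans hcn
    rw [Real.norm_eq_abs] at this ⊢
    rw [abs_sub_comm]
    exact (hq t (abs_le.1 this)).le
  have hdiff : cfc f a - cfc f b = (cfc f a - Polynomial.aeval a q) -
      (cfc f b - Polynomial.aeval b q) +
      ∑ k ∈ range (q.natDegree + 1), q.coeff k • (a ^ k - b ^ k) := by
    simp only [smul_sub, sum_sub_distrib, ← Polynomial.aeval_eq_sum_range]
    abel
  rw [hdiff]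
  constructor
  · refine (norm_add_le _ _).trans (add_le_add ((norm_sub_le _ _).trans
      (by linarith [hnear ha han, hnear hb hbn])) ?_)
    refine (norm_sum_le _ _).trans ?_
    rw [sum_mul]
    refine sum_le_sum fun k _ => ?_
    rw [norm_smul, Real.norm_eq_abs, mul_assoc]
    exact mul_le_mul_of_nonneg_left (norm_pow_sub_le han hbn k) (abs_nonneg _)
  · intro τ hτ hτ1 t ht
    set D := (τ ((a - b) * (a - b))).re
    have hd : IsSelfAdjoint (a - b) := ha.sub hb
    have hD : 0 ≤ D := (hτ.of_nonneg hd.mul_self_nonneg).1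
    have hM : ∀ v : A, ‖v‖ ≤ 1 → |(τ ((a - b) * v)).re| ≤ t * D + 1 / t := by
      intro v hv
      have h1 := hτ.two_re_le (a - b) v ht
      have h2 := hτ.two_re_le (a - b) (-v) ht
      rw [hd.star_eq] at h1 h2
      simp only [star_neg, neg_mul, mul_neg, neg_neg, map_neg, Complex.neg_re] at h2
      have h3 : (τ (star v * v)).re ≤ 1 := by
        refine (le_abs_self _).trans ((hτ.abs_re_le (IsSelfAdjoint.star_mul_self v)).trans ?_)
        rw [hτ1, mul_one, CStarRing.norm_star_mul_self]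
        exact mul_le_one₀ hv (norm_nonneg _) hv
      have h4 : (τ (star v * v)).re / t ≤ 1 / t := div_le_div_of_nonneg_right h3 ht.le
      have h5 : 0 ≤ t * D + 1 / t := by positivity
      exact abs_le.2 ⟨by linarith, by linarith⟩
    have hsmall : ∀ {c : A}, IsSelfAdjoint c → ‖c‖ ≤ 1 →
        |(τ (cfc f c - Polynomial.aeval c q)).re| ≤ η / 2 := fun {c} hc hcn => by
      have hsa : IsSelfAdjoint (cfc f c - Polynomial.aeval c q) := by
        rw [← cfc_polynomial q c hc]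
        exact (cfc_predicate _ _ : IsSelfAdjoint _).sub (cfc_predicate _ _)
      refine (hτ.abs_re_le hsa).trans ?_
      rw [hτ1, mul_one]
      exact hnear hc hcn
    rw [map_add, Complex.add_re, map_sub, Complex.sub_re]
    refine (abs_add_le _ _).trans (add_le_add ((abs_sub _ _).trans
      (by linarith [hsmall ha han, hsmall hb hbn])) ?_)
    rw [map_sum, Complex.re_sum, sum_mul]
    refine (abs_sum_le_sum_abs _ _).trans (sum_le_sum fun k _ => ?_)
    rw [smul_re, abs_mul, mul_assoc]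
    refine mul_le_mul_of_nonneg_left ?_ (abs_nonneg _)
    simpa using trace_pow_sub_le hτ han hbn hM k 0

/-- The sigmoid. -/
def sigmoid (X : A) : A := cfc (fun x : ℝ => x / (1 + x ^ 2)) X

theorem continuous_sigmoidFun : Continuous fun x : ℝ => x / (1 + x ^ 2) :=
  continuous_id.div (by fun_prop) fun x => by positivity

theorem sigmoid_spec (X : A) : IsSelfAdjoint (sigmoid X) ∧ ‖sigmoid X‖ ≤ 1 / 2 := by
  refine ⟨cfc_predicate _ _, norm_cfc_le (by norm_num) fun x _ => ?_⟩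
  rw [Real.norm_eq_abs, abs_div, abs_of_pos (by positivity : (0 : ℝ) < 1 + x ^ 2),
    div_le_iff₀ (by positivity)]
  nlinarith [sq_abs x, sq_nonneg (|x| - 1)]

/-- The sigmoid is Lipschitz in the two-norm of a trace. -/
theorem sigmoid_lipschitz [PartialOrder A] [StarOrderedRing A] {τ : A →ₗ[ℂ] ℂ} (hτ : PosTr τ)
    {X Y : A} (hX : IsSelfAdjoint X) (hY : IsSelfAdjoint Y) :
    (τ ((sigmoid Y - sigmoid X) * (sigmoid Y - sigmoid X))).re ≤
      3 * (τ ((Y - X) * (Y - X))).re := by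
  set k : ℝ → ℝ := fun x => (1 + x ^ 2)⁻¹
  have hk : Continuous k := (by fun_prop : Continuous fun x : ℝ => 1 + x ^ 2).inv₀ fun x => by positivity
  have key : ∀ Z : A, IsSelfAdjoint Z → sigmoid Z = cfc k Z * Z ∧ sigmoid Z = Z * cfc k Z ∧
      cfc k Z * (1 + Z * Z) = 1 ∧ (1 + Z * Z) * cfc k Z = 1 ∧ ‖cfc k Z‖ ≤ 1 := by
    intro Z hZ
    have hid : cfc (fun x : ℝ => x) Z = Z := cfc_id' ℝ Z hZ
    have e1 : sigmoid Z = cfc k Z * Z := by
      conv_rhs => enter [2]; rw [← hid]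
      rw [← cfc_mul k (fun x : ℝ => x) Z hk.continuousOn continuous_id.continuousOn, sigmoid]
      exact cfc_congr fun x _ => by simp [k, div_eq_inv_mul]
    have hc : Commute Z (cfc k Z) := ((Commute.refl Z).cfc_real k).symm
    have e3 : cfc k Z * (1 + Z * Z) = 1 := by
      have e : 1 + Z * Z = cfc (fun x : ℝ => 1 + x * x) Z := by
        rw [cfc_const_add (1 : ℝ) (fun x => x * x) Z (continuous_id.mul continuous_id).continuousOn hZ,
          cfc_mul (fun x : ℝ => x) (fun x => x) Z continuous_id.continuousOn continuous_id.continuousOn,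
          hid, map_one]
      rw [e, ← cfc_mul k (fun x : ℝ => 1 + x * x) Z hk.continuousOn
        (by fun_prop : Continuous fun x : ℝ => 1 + x * x).continuousOn, ← cfc_const_one ℝ Z hZ]
      refine cfc_congr fun x _ => ?_
      simp only [k, sq]
      exact inv_mul_cancel₀ (by nlinarith [mul_self_nonneg x])
    refine ⟨e1, e1.trans hc.eq.symm, e3, ?_, norm_cfc_le zero_le_one fun x _ => ?_⟩
    · rw [← ((Commute.one_left (cfc k Z)).add_left (hc.mul_left hc)).symm.eq]; exact e3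
    · rw [Real.norm_of_nonneg (by positivity)]
      exact inv_le_one_of_one_le₀ (by nlinarith [sq_nonneg x])
  obtain ⟨a1, -, a3, -, a5⟩ := key Y hY
  obtain ⟨-, b2, -, b4, b5⟩ := key X hX
  have hu : ‖cfc k Y * Y‖ ≤ 1 / 2 := a1 ▸ (sigmoid_spec Y).2
  have hv : ‖X * cfc k X‖ ≤ 1 / 2 := b2 ▸ (sigmoid_spec X).2
  set d := Y - X
  have e : sigmoid Y - sigmoid X =
      cfc k Y * d * cfc k X + -(cfc k Y * Y * d * (X * cfc k X)) := by
    have h : cfc k Y * (Y * (1 + X * X) - (1 + Y * Y) * X) * cfc k X =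
        cfc k Y * Y - X * cfc k X := by
      calc _ = cfc k Y * Y * ((1 + X * X) * cfc k X) - cfc k Y * (1 + Y * Y) * (X * cfc k X) := by
            noncomm_ring
        _ = _ := by rw [a3, b4, mul_one, one_mul]
    rw [a1, b2, ← h]
    simp only [d]
    noncomm_ring
  have hd : IsSelfAdjoint d := hY.sub hX
  have hD := (hτ.of_nonneg hd.mul_self_nonneg).1
  have hs : IsSelfAdjoint (sigmoid Y - sigmoid X) := (sigmoid_spec Y).1.sub (sigmoid_spec X).1
  have h1 := hτ.sq_add_le (cfc k Y * d * cfc k X) (-(cfc k Y * Y * d * (X * cfc k X)))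
  rw [← e, hs.star_eq, star_neg, neg_mul_neg] at h1
  have h2 := hτ.sandwich_le (cfc k Y) d (cfc k X)
  have h3 := hτ.sandwich_le (cfc k Y * Y) d (X * cfc k X)
  rw [hd.star_eq] at h2 h3
  have p1 : ‖cfc k Y‖ ^ 2 * (‖cfc k X‖ ^ 2 * (τ (d * d)).re) ≤ 1 ^ 2 * (1 ^ 2 * (τ (d * d)).re) := by
    gcongr
  have p2 : ‖cfc k Y * Y‖ ^ 2 * (‖X * cfc k X‖ ^ 2 * (τ (d * d)).re) ≤
      (1 / 2) ^ 2 * ((1 / 2) ^ 2 * (τ (d * d)).re) := by
    gcongr
  linarith

/-- The guarded element. -/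
theorem guarded_bounds [PartialOrder A] [StarOrderedRing A] {τ : A →ₗ[ℂ] ℂ} (hτ : PosTr τ)
    {W T : A} (hW0 : 0 ≤ W) (hW1 : W ≤ 1) (hT : IsSelfAdjoint T) (hTn : ‖T‖ ≤ 1 / 2) :
    (τ (((1 - W) * T * (1 - W) - T) * ((1 - W) * T * (1 - W) - T))).re ≤ 3 * (τ W).re := by
  have hWs := IsSelfAdjoint.of_nonneg hW0
  have hWn : ‖W‖ ≤ 1 := (CStarAlgebra.norm_le_one_iff_of_nonneg W hW0).2 hW1
  have hWW : (τ (W * W)).re ≤ (τ W).re := by
    refine hτ.mono ?_
    conv_lhs => rw [← cfc_id' ℝ W, ← cfc_mul (fun x : ℝ => x) (fun x => x) W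
      continuous_id.continuousOn continuous_id.continuousOn]
    conv_rhs => rw [← cfc_id' ℝ W]
    refine cfc_mono (fun x hx => ?_) (continuous_id.mul continuous_id).continuousOn
      continuous_id.continuousOn
    have h0 := spectrum_nonneg_of_nonneg hW0 hx
    have h1 := (le_algebraMap_iff_spectrum_le hWs).1 (hW1.trans_eq (map_one _).symm) x hx
    nlinarith
  have e : (1 - W) * T * (1 - W) - T =
      (-(1 * W * T) + -(T * W * 1)) + 1 * W * (T * W) := by noncomm_ring
  have hone : ‖(1 : A)‖ ≤ 1 := by simpa using norm_pow_le_one (a := (0 : A)) (by simp) 0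
  have hs : IsSelfAdjoint ((1 - W) * T * (1 - W) - T) := by
    have h1 : IsSelfAdjoint (1 - W) := (IsSelfAdjoint.one A).sub hWs
    refine IsSelfAdjoint.sub ?_ hT
    rw [IsSelfAdjoint, star_mul, star_mul, h1.star_eq, hT.star_eq, mul_assoc]
  have h1 := hτ.sq_add_le (-(1 * W * T) + -(T * W * 1)) (1 * W * (T * W))
  have h2 := hτ.sq_add_le (-(1 * W * T)) (-(T * W * 1))
  rw [← e, hs.star_eq] at h1
  simp only [star_neg, neg_mul_neg] at h2
  have hW2 := (hτ.of_nonneg hWs.mul_self_nonneg).1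
  have hb : ∀ u v : A, ‖u‖ * ‖v‖ ≤ 1 / 2 →
      (τ (star (u * W * v) * (u * W * v))).re ≤ 1 / 4 * (τ W).re := fun u v huv => by
    refine (hτ.sandwich_le u W v).trans ?_
    rw [hWs.star_eq, ← mul_assoc, ← mul_pow]
    have : (‖u‖ * ‖v‖) ^ 2 ≤ 1 / 4 := by
      refine (pow_le_pow_left₀ (by positivity) huv 2).trans_eq (by norm_num)
    exact mul_le_mul this hWW hW2 (by norm_num)
  have p1 := hb 1 T (by nlinarith [norm_nonneg T, norm_nonneg (1 : A)])
  have p2 := hb T 1 (by nlinarith [norm_nonneg T, norm_nonneg (1 : A)])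
  have p3 := hb 1 (T * W) (by
    nlinarith [norm_nonneg (T * W), norm_nonneg (1 : A), norm_mul_le T W, norm_nonneg T, norm_nonneg W])
  linarith [(hτ.of_nonneg hW0).1]

end

end Vale.Agent.P095.All.Coin
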