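import Vale.Agent.P095.All.Targets
import Vale.Agent.P095.All.Coin.Block
import Vale.Agent.P095.All.Coin.Func

/-!
# P095 coin: two almost fixed orthogonal elements of uniformly positive trace
-/

namespace Vale.Agent.P095.All.Coin

open Vale.Agent.P101.KR Vale.Agent.P095.Amen Finset

noncomputable section

variable {A : Type} [CStarAlgebra A]

theorem PosTr.smul {τ : A →ₗ[ℂ] ℂ} (h : PosTr τ) {r : ℝ} (hr : 0 ≤ r) : PosTr ((r : ℂ) • τ) where
  nonneg x := by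
    rw [LinearMap.smul_apply, smul_eq_mul, Complex.nonneg_iff, Complex.re_ofReal_mul,
      Complex.im_ofReal_mul]
    obtain ⟨h1, h2⟩ := Complex.nonneg_iff.1 (h.nonneg x)
    exact ⟨_root_.mul_nonneg hr h1, by rw [← h2, mul_zero]⟩
  comm x y := by rw [LinearMap.smul_apply, LinearMap.smul_apply, h.comm]

/-- An inequality for tracial states holds for all positive tracial functionals. -/
theorem PosTr.of_states [PartialOrder A] [StarOrderedRing A] {H : A} (hH : 0 ≤ H) {c : ℝ}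
    (hc : ∀ τ : A →ₗ[ℂ] ℂ, PosTr τ → (τ 1).re = 1 → c ≤ (τ H).re) {τ : A →ₗ[ℂ] ℂ} (h : PosTr τ) :
    c * (τ 1).re ≤ (τ H).re := by
  rcases eq_or_lt_of_le h.mass_nonneg with h0 | h0
  · rw [← h0, mul_zero]; exact (h.of_nonneg hH).1
  · have h1 := hc _ (h.smul (inv_nonneg.2 h0.le)) (by
      rw [LinearMap.smul_apply, smul_eq_mul, Complex.re_ofReal_mul, inv_mul_cancel₀ h0.ne'])
    rw [LinearMap.smul_apply, smul_eq_mul, Complex.re_ofReal_mul, inv_mul_eq_div,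
      le_div_iff₀ h0] at h1
    exact h1

/-- The ramp. -/
def ramp (κ t : ℝ) : ℝ := min 1 (max 0 (2 * t / κ - 1))

theorem continuous_ramp (κ : ℝ) : Continuous (ramp κ) := by unfold ramp; fun_prop

theorem ramp_mem (κ t : ℝ) : 0 ≤ ramp κ t ∧ ramp κ t ≤ 1 :=
  ⟨le_min zero_le_one (le_max_left _ _), min_le_left _ _⟩

theorem ramp_mul_neg {κ : ℝ} (hκ : 0 < κ) (t : ℝ) : ramp κ t * ramp κ (-t) = 0 := by
  have h0 : ∀ s : ℝ, s ≤ 0 → ramp κ s = 0 := fun s hs => by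
    have : 2 * s / κ - 1 ≤ 0 := by
      have := div_nonpos_of_nonpos_of_nonneg (show 2 * s ≤ 0 by linarith) hκ.le
      linarith
    rw [ramp, max_eq_left this, min_eq_right zero_le_one]
  rcases le_total t 0 with ht | ht
  · rw [h0 t ht, zero_mul]
  · rw [h0 (-t) (by linarith), mul_zero]

/-- The pointwise inequality behind the Paley–Zygmund argument. -/
theorem pointwise {K M lo : ℝ} (hK : 0 < K) (hM : 0 < M) (hlo : 0 < lo) (x : ℝ) :
    (x ^ 2 / K - x ^ 4 / K ^ 3 + x) / 2 - lo - x ^ 4 / M ^ 3 ≤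
      M * ramp (lo / (1 + M ^ 2)) (x / (1 + x ^ 2)) := by
  have habs : x ^ 2 / K - x ^ 4 / K ^ 3 ≤ |x| := by
    have hKp : (0 : ℝ) ≤ x ^ 4 / K ^ 3 := by positivity
    rcases le_total |x| K with h | h
    · have h1 : x ^ 2 / K ≤ |x| := by
        rw [div_le_iff₀ hK, ← sq_abs]; nlinarith [abs_nonneg x]
      linarith
    · have : x ^ 2 / K ≤ x ^ 4 / K ^ 3 := by
        rw [div_le_div_iff₀ hK (by positivity)]
        have h2 : K ^ 2 ≤ x ^ 2 := by rw [← sq_abs x]; nlinarith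
        nlinarith [mul_le_mul_of_nonneg_left h2 (mul_nonneg (sq_nonneg x) hK.le)]
      linarith [abs_nonneg x]
  obtain ⟨hr0, -⟩ := ramp_mem (lo / (1 + M ^ 2)) (x / (1 + x ^ 2))
  have hM3 : (0 : ℝ) ≤ x ^ 4 / M ^ 3 := by positivity
  have hmr : 0 ≤ M * ramp (lo / (1 + M ^ 2)) (x / (1 + x ^ 2)) := mul_nonneg hM.le hr0
  rcases le_total x lo with h | h
  · rcases le_total 0 x with h0 | h0
    · rw [abs_of_nonneg h0] at habs; linarith
    · rw [abs_of_nonpos h0] at habs; linarith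
  have hx : 0 < x := hlo.trans_le h
  rw [abs_of_pos hx] at habs
  rcases le_total x M with hxM | hxM
  · have hκ : lo / (1 + M ^ 2) ≤ x / (1 + x ^ 2) :=
      div_le_div₀ hx.le h (by positivity) (by nlinarith)
    have : ramp (lo / (1 + M ^ 2)) (x / (1 + x ^ 2)) = 1 := by
      rw [ramp, min_eq_left]
      refine le_max_of_le_right ?_
      rw [le_sub_iff_add_le, le_div_iff₀ (by positivity)]
      linarith
    rw [this]; linarith
  · have : x ≤ x ^ 4 / M ^ 3 := by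
      rw [le_div_iff₀ (by positivity)]
      have := mul_le_mul_of_nonneg_left (pow_le_pow_left₀ hM.le hxM 3) hx.le
      linarith
    linarith

/-- The trace of the ramp of the sigmoid of an element with the moments of the block. -/
theorem trace_ramp [PartialOrder A] [StarOrderedRing A] {τ : A →ₗ[ℂ] ℂ} (hτ : PosTr τ)
    (hτ1 : (τ 1).re = 1) {X : A} (hX : IsSelfAdjoint X) {K M lo c₀ ε C : ℝ} (hK : 0 < K)
    (hM : 0 < M) (hlo : 0 < lo) (h1 : |(τ X).re| ≤ ε) (h2 : c₀ ≤ (τ (X * X)).re)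
    (h4 : (τ (X ^ 4)).re ≤ C) :
    (c₀ / K - C / K ^ 3 - ε) / 2 - lo - C / M ^ 3 ≤
      M * (τ (cfc (ramp (lo / (1 + M ^ 2))) (sigmoid X))).re := by
  set r := ramp (lo / (1 + M ^ 2))
  have hr := continuous_ramp (lo / (1 + M ^ 2))
  set P := (2 * K)⁻¹ • X ^ 2 - ((2 * K ^ 3)⁻¹ + (M ^ 3)⁻¹) • X ^ 4 + (1 / 2 : ℝ) • X - lo • (1 : A)
  have hP : P = cfc (fun x : ℝ => (2 * K)⁻¹ * x ^ 2 - ((2 * K ^ 3)⁻¹ + (M ^ 3)⁻¹) * x ^ 4 +
      1 / 2 * x - lo) X := by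
    rw [cfc_sub (fun x : ℝ => (2 * K)⁻¹ * x ^ 2 - ((2 * K ^ 3)⁻¹ + (M ^ 3)⁻¹) * x ^ 4 + 1 / 2 * x)
        (fun _ => lo) X (by fun_prop : Continuous _).continuousOn continuousOn_const,
      cfc_add (a := X) (fun x : ℝ => (2 * K)⁻¹ * x ^ 2 - ((2 * K ^ 3)⁻¹ + (M ^ 3)⁻¹) * x ^ 4)
        (fun x : ℝ => 1 / 2 * x) (by fun_prop : Continuous _).continuousOn
        (by fun_prop : Continuous _).continuousOn,
      cfc_sub (fun x : ℝ => (2 * K)⁻¹ * x ^ 2) (fun x : ℝ => ((2 * K ^ 3)⁻¹ + (M ^ 3)⁻¹) * x ^ 4) X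
        (by fun_prop : Continuous _).continuousOn (by fun_prop : Continuous _).continuousOn,
      cfc_const_mul _ (fun x : ℝ => x ^ 2) X (by fun_prop : Continuous _).continuousOn,
      cfc_const_mul _ (fun x : ℝ => x ^ 4) X (by fun_prop : Continuous _).continuousOn,
      cfc_const_mul _ (fun x : ℝ => x) X continuous_id.continuousOn,
      cfc_pow_id (R := ℝ) X, cfc_pow_id (R := ℝ) X, cfc_id' ℝ X hX, cfc_const lo X hX,
      Algebra.algebraMap_eq_smul_one]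
  have hle : P ≤ M • cfc r (sigmoid X) := by
    rw [hP, sigmoid, ← cfc_comp' r (fun x : ℝ => x / (1 + x ^ 2)) X hr.continuousOn
      continuous_sigmoidFun.continuousOn, ← cfc_const_mul M (fun x : ℝ => r (x / (1 + x ^ 2))) X
      (hr.comp continuous_sigmoidFun).continuousOn]
    refine cfc_mono (fun x _ => le_trans (le_of_eq ?_) (pointwise hK hM hlo x))
      (by fun_prop : Continuous _).continuousOn
      (continuous_const.mul (hr.comp continuous_sigmoidFun)).continuousOn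
    field_simp
    ring
  have h5 := hτ.mono hle
  simp only [P, map_sub, map_add, Complex.sub_re, Complex.add_re, smul_re, hτ1, mul_one] at h5
  rw [sq] at h5
  have e1 : (2 * K)⁻¹ * c₀ ≤ (2 * K)⁻¹ * (τ (X * X)).re :=
    mul_le_mul_of_nonneg_left h2 (by positivity)
  have e2 : ((2 * K ^ 3)⁻¹ + (M ^ 3)⁻¹) * (τ (X ^ 4)).re ≤ ((2 * K ^ 3)⁻¹ + (M ^ 3)⁻¹) * C :=
    mul_le_mul_of_nonneg_left h4 (by positivity)
  have e : (c₀ / K - C / K ^ 3 - ε) / 2 - lo - C / M ^ 3 =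
      (2 * K)⁻¹ * c₀ - ((2 * K ^ 3)⁻¹ + (M ^ 3)⁻¹) * C + 1 / 2 * (-ε) - lo := by
    field_simp; ring
  linarith [(abs_le.1 h1).1]

/-- The constants. -/
theorem exists_constants {c₀ C : ℝ} (hc₀ : 0 < c₀) (hC : 1 ≤ C) :
    ∃ K M lo ε c : ℝ, 0 < K ∧ 0 < M ∧ 0 < lo ∧ 0 < ε ∧ 0 < c ∧
      2 * c * M ≤ (c₀ / K - C / K ^ 3 - ε) / 2 - lo - C / M ^ 3 := by
  set K := 2 * C / c₀ + 1
  have hK1 : 1 ≤ K := by simp only [K]; linarith [show 0 ≤ 2 * C / c₀ by positivity]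
  set c₁ := c₀ / (2 * K)
  have hc₁ : 0 < c₁ := by positivity
  set M := 16 * C / c₁ + 1
  have hM1 : 1 ≤ M := by simp only [M]; linarith [show 0 ≤ 16 * C / c₁ by positivity]
  refine ⟨K, M, c₁ / 16, c₁ / 2, c₁ / (16 * M), by linarith, by linarith, by positivity,
    by positivity, by positivity, ?_⟩
  have h1 : C / K ^ 3 ≤ c₁ := by
    have h : 2 * C ≤ c₀ * K := by
      rw [show c₀ * K = 2 * C + c₀ by simp only [K]; field_simp]; linarith
    rw [div_le_div_iff₀ (by positivity) (by positivity)]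
    nlinarith [mul_le_mul_of_nonneg_right h (by positivity : (0 : ℝ) ≤ K),
      mul_le_mul_of_nonneg_left (show K ^ 2 ≤ K ^ 3 by nlinarith) hc₀.le]
  have h2 : C / M ^ 3 ≤ c₁ / 16 := by
    have h : 16 * C ≤ c₁ * M := by
      rw [show c₁ * M = 16 * C + c₁ by simp only [M]; field_simp]; linarith
    rw [div_le_div_iff₀ (by positivity) (by norm_num)]
    nlinarith [mul_le_mul_of_nonneg_left (le_self_pow₀ hM1 three_ne_zero) hc₁.le]
  have h3 : c₀ / K = 2 * c₁ := by simp only [c₁]; field_simp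
  have h4 : 2 * (c₁ / (16 * M)) * M = c₁ / 8 := by field_simp; ring
  rw [h3, h4]
  linarith

variable {G B : Type} [Group G] [CStarAlgebra B]

/-- The guarded sigmoid is almost fixed. -/
theorem guarded_almost_fixed [PartialOrder A] [StarOrderedRing A] (f : A →⋆ₐ[ℂ] A) {W T : A}
    (hW0 : 0 ≤ W) (hW1 : W ≤ 1) (hT : IsSelfAdjoint T) (hTn : ‖T‖ ≤ 1 / 2) {δ τ₀ : ℝ} (hW : ‖f W - W‖ ≤ δ)
    {r : A} (hr : IsSelfAdjoint r) (hle : (f T - T) * (f T - T) ≤ r * r)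
    (hguard : ‖r * (1 - W) * star r‖ ≤ τ₀) :
    ‖f ((1 - W) * T * (1 - W)) - (1 - W) * T * (1 - W)‖ ≤ δ + Real.sqrt τ₀ := by
  set h := 1 - W
  have hWs := IsSelfAdjoint.of_nonneg hW0
  have hh : IsSelfAdjoint h := (IsSelfAdjoint.one A).sub hWs
  have hh0 : 0 ≤ h := sub_nonneg.2 hW1
  have hh1 : h ≤ 1 := sub_le_self _ hW0
  have hhn : ‖h‖ ≤ 1 := (CStarAlgebra.norm_le_one_iff_of_nonneg h hh0).2 hh1
  set d := f T - T
  have hd : IsSelfAdjoint d := (hT.map f).sub hT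
  have hdh : ‖d * h‖ ≤ Real.sqrt τ₀ := by
    have hτ0 : 0 ≤ τ₀ := (norm_nonneg _).trans hguard
    refine Real.le_sqrt_of_sq_le ?_
    rw [sq, ← CStarRing.norm_star_mul_self, star_mul, hd.star_eq, hh.star_eq,
      show h * d * (d * h) = h * (d * d) * h by simp only [mul_assoc]]
    refine (CStarAlgebra.norm_le_norm_of_nonneg_of_le (hh.conjugate_nonneg hd.mul_self_nonneg)
      (hh.conjugate_le_conjugate hle)).trans ?_
    rw [show h * (r * r) * h = star (r * h) * (r * h) by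
      rw [star_mul, hr.star_eq, hh.star_eq]; simp only [mul_assoc], CStarRing.norm_star_mul_self,
      ← CStarRing.norm_self_mul_star, star_mul, hh.star_eq,
      show r * h * (h * star r) = r * (h * h) * star r by simp only [mul_assoc]]
    refine le_trans (CStarAlgebra.norm_le_norm_of_nonneg_of_le
      (star_right_conjugate_nonneg hh.mul_self_nonneg r) (star_right_conjugate_le_conjugate ?_ r)) hguard
    conv_lhs => rw [← cfc_id' ℝ h, ← cfc_mul (fun x : ℝ => x) (fun x => x) h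
      continuous_id.continuousOn continuous_id.continuousOn]
    conv_rhs => rw [← cfc_id' ℝ h]
    refine cfc_mono (fun x hx => ?_) (continuous_id.mul continuous_id).continuousOn
      continuous_id.continuousOn
    have h0 := spectrum_nonneg_of_nonneg hh0 hx
    have h1 := (le_algebraMap_iff_spectrum_le hh).1 (hh1.trans_eq (map_one _).symm) x hx
    nlinarith
  have hhd : ‖h * d‖ ≤ Real.sqrt τ₀ := by
    rwa [← norm_star, star_mul, hd.star_eq, hh.star_eq]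
  have hfh : f h - h = -(f W - W) := by simp only [h, map_sub, map_one]; abel
  have e : f (h * T * h) - h * T * h =
      -(f W - W) * f T * f h + (h * d * f h + h * T * -(f W - W)) := by
    rw [map_mul, map_mul, ← hfh]; simp only [d]; noncomm_ring
  rw [e]
  have hfT : ‖f T‖ ≤ 1 / 2 := (NonUnitalStarAlgHom.norm_apply_le f T).trans hTn
  have hfhn : ‖f h‖ ≤ 1 := (NonUnitalStarAlgHom.norm_apply_le f h).trans hhn
  have hδ : 0 ≤ δ := (norm_nonneg _).trans hW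
  refine (norm_add_le _ _).trans ((add_le_add le_rfl (norm_add_le _ _)).trans ?_)
  have p1 : ‖-(f W - W) * f T * f h‖ ≤ δ * (1 / 2) * 1 := by
    refine (norm_mul₃_le).trans ?_
    rw [norm_neg]
    gcongr
  have p2 : ‖h * d * f h‖ ≤ Real.sqrt τ₀ * 1 := (norm_mul_le _ _).trans
    (mul_le_mul hhd hfhn (norm_nonneg _) (Real.sqrt_nonneg _))
  have p3 : ‖h * T * -(f W - W)‖ ≤ 1 * (1 / 2) * δ := by
    refine (norm_mul₃_le).trans ?_
    rw [norm_neg]
    gcongr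
  linarith

omit [Group G] in
/-- The guarded sigmoid. -/
theorem exists_guarded [PartialOrder A] [StarOrderedRing A] (α : G → A ≃⋆ₐ[ℂ] A) (S E : Finset G)
    {δ ε₁ q : ℝ} (hδ : 0 < δ)
    (hguard : ∀ bad : A, SqLe 0 bad → ∃ W : A, SqLe 0 W ∧ SqLe W 1 ∧
      (∀ g ∈ S, ‖α g W - W‖ ≤ δ) ∧ SqLe W ((1 / δ ^ 2) • ∑ h ∈ E, α h bad) ∧
      ∀ r : A, star r * r = bad → ‖r * (1 - W) * star r‖ ≤ δ ^ 2)
    {X : A} (hX : IsSelfAdjoint X)
    (hXτ : ∀ τ : A →ₗ[ℂ] ℂ, PosTr τ → (τ 1).re = 1 → ∀ s ∈ S,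
      (τ ((α s X - X) * (α s X - X))).re ≤ ε₁)
    (hq : 9 * (E.card : ℝ) * S.card * ε₁ ≤ q * δ ^ 2) :
    ∃ T' : A, IsSelfAdjoint T' ∧ ‖T'‖ ≤ 1 ∧ (∀ s ∈ S, ‖α s T' - T'‖ ≤ 2 * δ) ∧
      ∀ τ : A →ₗ[ℂ] ℂ, PosTr τ → (τ 1).re = 1 →
        (τ ((T' - sigmoid X) * (T' - sigmoid X))).re ≤ q := by
  obtain ⟨hT, hTn⟩ := sigmoid_spec X
  set bad := ∑ s ∈ S, (α s (sigmoid X) - sigmoid X) * (α s (sigmoid X) - sigmoid X) with hbd
  have hd : ∀ s, IsSelfAdjoint (α s (sigmoid X) - sigmoid X) := fun s => (hT.map (α s)).sub hT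
  have hbad : 0 ≤ bad := sum_nonneg fun s _ => (hd s).mul_self_nonneg
  obtain ⟨W, hW0', hW1', hWfix, hWle', hWguard⟩ := hguard bad (Coin.sqLe_iff.2 hbad)
  have hW0 : 0 ≤ W := Coin.sqLe_iff.1 hW0'
  have hW1 : W ≤ 1 := Coin.sqLe_iff.1 hW1'
  set r := cfc Real.sqrt bad
  have hr : IsSelfAdjoint r := cfc_predicate _ _
  have hrr : r * r = bad := by
    rw [← cfc_mul Real.sqrt Real.sqrt bad Real.continuous_sqrt.continuousOn
      Real.continuous_sqrt.continuousOn]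
    exact (cfc_congr fun x hx => Real.mul_self_sqrt (spectrum_nonneg_of_nonneg hbad hx)).trans
      (cfc_id' ℝ bad (IsSelfAdjoint.of_nonneg hbad))
  have hWr := hWguard r (by rw [hr.star_eq, hrr])
  have hh : IsSelfAdjoint (1 - W) := (IsSelfAdjoint.one A).sub (IsSelfAdjoint.of_nonneg hW0)
  have hhn : ‖1 - W‖ ≤ 1 :=
    (CStarAlgebra.norm_le_one_iff_of_nonneg _ (sub_nonneg.2 hW1)).2 (sub_le_self _ hW0)
  refine ⟨(1 - W) * sigmoid X * (1 - W), ?_, (norm_mul₃_le).trans ?_, fun s hs => ?_,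
    fun τ hτ hτ1 => ?_⟩
  · rw [IsSelfAdjoint, star_mul, star_mul, hh.star_eq, hT.star_eq, mul_assoc]
  · calc ‖1 - W‖ * ‖sigmoid X‖ * ‖1 - W‖ ≤ 1 * (1 / 2) * 1 := by gcongr
      _ ≤ 1 := by norm_num
  · refine (guarded_almost_fixed (α s).toStarAlgHom hW0 hW1 hT hTn (hWfix s hs) hr ?_ hWr).trans ?_
    · rw [hrr, hbd]
      exact single_le_sum (fun s _ => (hd s).mul_self_nonneg) hs
    · rw [Real.sqrt_sq hδ.le]; linarith
  · refine (guarded_bounds hτ hW0 hW1 hT hTn).trans ?_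
    have h1 := hτ.mono (Coin.sqLe_iff.1 hWle')
    rw [smul_re, map_sum, Complex.re_sum] at h1
    have h2 : ∀ g : G, (τ (α g bad)).re ≤ S.card * (3 * ε₁) := fun g => by
      have hσ := hτ.comp (α g).toStarAlgHom
      have hσ1 : ((τ ∘ₗ (α g).toStarAlgHom.toAlgHom.toLinearMap) 1).re = 1 := by
        show (τ (α g 1)).re = 1
        rw [map_one, hτ1]
      show ((τ ∘ₗ (α g).toStarAlgHom.toAlgHom.toLinearMap) bad).re ≤ _
      rw [hbd, map_sum, Complex.re_sum]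
      refine (sum_le_card_nsmul _ _ (3 * ε₁) fun s hs => ?_).trans_eq (nsmul_eq_mul _ _)
      have e1 : α s (sigmoid X) = sigmoid (α s X) :=
        StarAlgHomClass.map_cfc (α s) (fun x : ℝ => x / (1 + x ^ 2)) X
          continuous_sigmoidFun.continuousOn (StarAlgEquiv.isometry (α s)).continuous hX
          (hX.map (α s))
      rw [e1]
      exact (sigmoid_lipschitz hσ hX (hX.map (α s))).trans
        (mul_le_mul_of_nonneg_left (hXτ _ hσ hσ1 s hs) (by norm_num))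
    have h3 : (τ W).re ≤ 1 / δ ^ 2 * ((E.card : ℝ) * (S.card * (3 * ε₁))) :=
      h1.trans (mul_le_mul_of_nonneg_left
        ((sum_le_card_nsmul _ _ _ fun g _ => h2 g).trans_eq (nsmul_eq_mul _ _)) (by positivity))
    refine (mul_le_mul_of_nonneg_left h3 (by norm_num : (0 : ℝ) ≤ 3)).trans ?_
    rw [show 3 * (1 / δ ^ 2 * ((E.card : ℝ) * (S.card * (3 * ε₁)))) =
      9 * (E.card : ℝ) * S.card * ε₁ / δ ^ 2 by ring, div_le_iff₀ (by positivity)]
    exact hq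

omit [Group G] in
/-- One end. -/
theorem ramp_end [PartialOrder A] [StarOrderedRing A] (α : G → A ≃⋆ₐ[ℂ] A) (S : Finset G)
    {f : ℝ → ℝ} (hf : Continuous f) (hf01 : ∀ x, 0 ≤ f x ∧ f x ≤ 1) {η L δ q t ε c : ℝ}
    (hL : 0 ≤ L) (ht : 0 < t)
    (hmod : ∀ a b : A, IsSelfAdjoint a → IsSelfAdjoint b → ‖a‖ ≤ 1 → ‖b‖ ≤ 1 →
      ‖cfc f a - cfc f b‖ ≤ η + L * ‖a - b‖ ∧
      ∀ τ : A →ₗ[ℂ] ℂ, PosTr τ → (τ 1).re = 1 → ∀ u : ℝ, 0 < u →
        |(τ (cfc f a - cfc f b)).re| ≤ η + L * (u * (τ ((a - b) * (a - b))).re + 1 / u))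
    {T T' : A} (hT : IsSelfAdjoint T) (hTn : ‖T‖ ≤ 1) (hT' : IsSelfAdjoint T') (hT'n : ‖T'‖ ≤ 1)
    (hfix : ∀ s ∈ S, ‖α s T' - T'‖ ≤ 2 * δ)
    (hTT : ∀ τ : A →ₗ[ℂ] ℂ, PosTr τ → (τ 1).re = 1 → (τ ((T' - T) * (T' - T))).re ≤ q)
    (htr : ∀ τ : A →ₗ[ℂ] ℂ, PosTr τ → (τ 1).re = 1 → 2 * c ≤ (τ (cfc f T)).re)
    (hεb : η + L * (2 * δ) ≤ ε) (hcb : η + L * (t * q + 1 / t) ≤ c) :
    SqLe 0 (cfc f T') ∧ SqLe (cfc f T') 1 ∧
      (∀ s ∈ S, ‖α s (cfc f T') - cfc f T'‖ ≤ ε) ∧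
      ∀ τ : A →ₗ[ℂ] ℂ, PosTr τ → c * (τ 1).re ≤ (τ (cfc f T')).re := by
  have hf0 : 0 ≤ cfc f T' := cfc_nonneg fun x _ => (hf01 x).1
  refine ⟨Coin.sqLe_iff.2 hf0, Coin.sqLe_iff.2 (cfc_le_one _ _ fun x _ => (hf01 x).2),
    fun s hs => ?_, fun τ hτ => PosTr.of_states hf0 (fun σ hσ hσ1 => ?_) hτ⟩
  · rw [StarAlgHomClass.map_cfc (α s) f T' hf.continuousOn
      (StarAlgEquiv.isometry (α s)).continuous hT' (hT'.map _)]
    refine (hmod _ _ (hT'.map _) hT' ((NonUnitalStarAlgHom.norm_apply_le _ _).trans hT'n) hT'n).1.trans ?_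
    have := mul_le_mul_of_nonneg_left (hfix s hs) hL
    linarith
  · have h7 := (hmod T' T hT' hT hT'n hTn).2 σ hσ hσ1 t ht
    rw [map_sub, Complex.sub_re] at h7
    have h8 := mul_le_mul_of_nonneg_left (mul_le_mul_of_nonneg_left (hTT σ hσ hσ1) ht.le) hL
    rw [mul_add] at hcb h7
    linarith [htr σ hσ hσ1, (abs_le.1 h7).1]

/-- Two almost fixed orthogonal elements of uniformly positive trace. -/
theorem exists_ends (hM : MomentsTarget) (hGu : GuardTarget) {c₀ : ℝ} (hc₀ : 0 < c₀) :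
    ∃ c : ℝ, 0 < c ∧ ∀ (G : Type) [Group G], IsAmenable G → ∀ (S : Finset G) (ε : ℝ), 0 < ε →
      ∃ R : ℕ, ∀ (A B : Type) [CStarAlgebra A] [CStarAlgebra B] (Z : BankSystem G A B R),
        Z.Spread c₀ → ∃ H L : A, SqLe 0 H ∧ SqLe H 1 ∧ SqLe 0 L ∧ SqLe L 1 ∧ H * L = 0 ∧
          (∀ s ∈ S, ‖Z.α s H - H‖ ≤ ε ∧ ‖Z.α s L - L‖ ≤ ε) ∧
          ∀ τ : A →ₗ[ℂ] ℂ, PosTr τ → c * (τ 1).re ≤ (τ H).re ∧ c * (τ 1).re ≤ (τ L).re := by
  classical
  obtain ⟨K, M, lo, ε₀, c, hK, hM0, hlo, hε₀, hc, hconst⟩ := exists_constants hc₀ one_le_fourthBound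
  refine ⟨c, hc, fun G _ hG S ε hε => ?_⟩
  set κ := lo / (1 + M ^ 2)
  have hκ : 0 < κ := by positivity
  have hcp := continuous_ramp κ
  have hcn : Continuous fun t => ramp κ (-t) := hcp.comp continuous_neg
  set η := min (ε / 2) (c / 2)
  have hη : 0 < η := by positivity
  obtain ⟨L₁, hL₁, hf₁⟩ := exists_approx (ramp κ) hcp hη
  obtain ⟨L₂, hL₂, hf₂⟩ := exists_approx (fun t => ramp κ (-t)) hcn hη
  set Lf := L₁ + L₂
  have hLf : 0 ≤ Lf := add_nonneg hL₁ hL₂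
  set δ := ε / (4 * (Lf + 1))
  have hδ : 0 < δ := by positivity
  obtain ⟨E, -, hguard⟩ := hGu G S δ hδ
  set t := 4 * Lf / c + 1
  have ht : 0 < t := by positivity
  set q := c / (4 * (Lf * t + 1))
  have hq : 0 < q := by positivity
  set n : ℝ := 9 * (E.card : ℝ) * S.card + 1
  set ε₁ := q * δ ^ 2 / n
  have hn : 0 < n := by positivity
  have hε₁ : 0 < ε₁ := by positivity
  obtain ⟨R, hR⟩ := exists_block hM hG S hc₀ (lt_min hε₁ hε₀)
  refine ⟨R, fun A B _ _ Z hZ => ?_⟩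
  let := CStarAlgebra.spectralOrder A
  have := CStarAlgebra.spectralOrderedRing A
  obtain ⟨X, hX, hXτ⟩ := hR A B Z hZ
  obtain ⟨hT, hTn⟩ := sigmoid_spec X
  have hq9 : 9 * (E.card : ℝ) * S.card * ε₁ ≤ q * δ ^ 2 := by
    calc _ ≤ n * ε₁ := mul_le_mul_of_nonneg_right (by simp [n]) hε₁.le
      _ = _ := by simp only [ε₁]; field_simp
  obtain ⟨T', hT', hT'n, hfix, hTT⟩ := exists_guarded Z.α S E (q := q) hδ (fun bad hb => by
      obtain ⟨W, w0, w1, -, w2, w3, w4⟩ := hguard A Z.α Z.α_mul bad (δ ^ 2) hb (by positivity)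
      exact ⟨W, w0, w1, w2, w3, w4⟩)
    hX (fun τ hτ hτ1 s hs => ((hXτ τ hτ hτ1).2.2.2 s hs).trans (min_le_left _ _)) hq9
  have hbudget : ∀ L : ℝ, 0 ≤ L → L ≤ Lf → η + L * (2 * δ) ≤ ε ∧ η + L * (t * q + 1 / t) ≤ c := by
    intro L hL hLL
    have h1 : (Lf + 1) * (2 * δ) = ε / 2 := by simp only [δ]; field_simp; ring
    have h2 : L * (2 * δ) ≤ (Lf + 1) * (2 * δ) := by gcongr; linarith
    have h3 : L * (t * q + 1 / t) ≤ Lf * (t * q + 1 / t) := by gcongr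
    have h4 : Lf * (t * q) ≤ c / 4 := by
      have e : c / 4 = (Lf * t + 1) * q := by simp only [q]; field_simp
      rw [e]; nlinarith
    have h5 : Lf * (1 / t) ≤ c / 4 := by
      rw [mul_one_div, div_le_iff₀ ht]
      simp only [t]
      rw [mul_add, mul_one, show c / 4 * (4 * Lf / c) = Lf by field_simp]
      linarith
    rw [mul_add] at h3 ⊢
    have := min_le_left (ε / 2) (c / 2)
    have := min_le_right (ε / 2) (c / 2)
    constructor <;> linarith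
  have hsig : sigmoid (-X) = -sigmoid X := by
    rw [sigmoid, sigmoid, ← cfc_comp_neg (fun x : ℝ => x / (1 + x ^ 2)) X
      continuous_sigmoidFun.continuousOn hX, ← cfc_neg]
    exact cfc_congr fun x _ => by simp [neg_div]
  have hbase : ∀ τ : A →ₗ[ℂ] ℂ, PosTr τ → (τ 1).re = 1 → 2 * c ≤ (τ (cfc (ramp κ) (sigmoid X))).re ∧
      2 * c ≤ (τ (cfc (fun x => ramp κ (-x)) (sigmoid X))).re := fun τ hτ hτ1 => by
    obtain ⟨h1, h2, h4, -⟩ := hXτ τ hτ hτ1
    have h1' := h1.trans (min_le_right _ _)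
    constructor
    · have h5 := (hconst.trans (trace_ramp hτ hτ1 hX hK hM0 hlo h1' h2 h4))
      rw [mul_comm (2 * c) M] at h5
      exact le_of_mul_le_mul_left h5 hM0
    · have h5 := hconst.trans (trace_ramp hτ hτ1 hX.neg hK hM0 hlo (by simpa using h1')
        (by simpa using h2) (by rwa [Even.neg_pow (by decide) X]))
      rw [hsig, ← cfc_comp_neg (ramp κ) (sigmoid X) hcp.continuousOn hT,
        mul_comm (2 * c) M] at h5
      exact le_of_mul_le_mul_left h5 hM0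
  obtain ⟨a0, a1, afix, atr⟩ := ramp_end Z.α S hcp (ramp_mem κ) hL₁ ht
    (fun a b ha hb han hbn => hf₁ a b ha hb han hbn) hT (hTn.trans (by norm_num)) hT' hT'n hfix hTT
    (fun τ hτ hτ1 => (hbase τ hτ hτ1).1) (hbudget L₁ hL₁ (le_add_of_nonneg_right hL₂)).1
    (hbudget L₁ hL₁ (le_add_of_nonneg_right hL₂)).2
  obtain ⟨b0, b1, bfix, btr⟩ := ramp_end Z.α S hcn (fun x => ramp_mem κ (-x)) hL₂ ht
    (fun a b ha hb han hbn => hf₂ a b ha hb han hbn) hT (hTn.trans (by norm_num)) hT' hT'n hfix hTT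
    (fun τ hτ hτ1 => (hbase τ hτ hτ1).2) (hbudget L₂ hL₂ (le_add_of_nonneg_left hL₁)).1
    (hbudget L₂ hL₂ (le_add_of_nonneg_left hL₁)).2
  refine ⟨_, _, a0, a1, b0, b1, ?_, fun s hs => ⟨afix s hs, bfix s hs⟩,
    fun τ hτ => ⟨atr τ hτ, btr τ hτ⟩⟩
  rw [← cfc_mul (ramp κ) (fun x => ramp κ (-x)) T' hcp.continuousOn hcn.continuousOn]
  exact (cfc_congr fun x _ => ramp_mul_neg hκ x).trans (cfc_zero ℝ T')

end

end Vale.Agent.P095.All.Coin
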