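import Vale.Agent.P095.All.Coin.Moments.Classify

/-!
# P095 coin: the moments of the coin
-/

namespace Vale.Agent.P095.All.Coin.BankData

open Vale.Agent.P101.KR Vale.Agent.P095.Amen Finset

noncomputable section

variable {A B E : Type} [CStarAlgebra A] [CStarAlgebra B] [Fintype E] {R D m : ℕ}

omit [Fintype E] in
theorem revInv_cfOf (a : Fin D → ℝ) (w : E → ℝ) : RevInv (cfOf a w) := fun x => by
  simp only [cfOf, Function.comp_def]
  congr 1
  exact Equiv.prod_comp Fin.revPerm fun t => w (x.2 t)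

omit [Fintype E] in
theorem RevInv.sub {cf cf' : Lab E D → ℝ} (h : RevInv cf) (h' : RevInv cf') :
    RevInv fun l => cf l - cf' l := fun x => by
  show cf _ - cf' _ = cf x - cf' x
  rw [h, h']

variable (b : BankData A B E R) {τ : A →ₗ[ℂ] ℂ}

theorem isSelfAdjoint_polyCov (a : Fin D → ℝ) (w : E → ℝ) : IsSelfAdjoint (b.polyCov a w) := by
  have h : IsSelfAdjoint (b.cov w) := by
    refine Mat.ext fun i j => ?_
    rw [Mat.ent_star, ent_cov, ent_cov, star_sum]
    refine sum_congr rfl fun e _ => ?_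
    simp only [star_smul, star_trivial, star_mul, letter,
      ((b.selfAdjoint e).map (b.φ i)).star_eq, ((b.selfAdjoint e).map (b.φ j)).star_eq]
  simp only [IsSelfAdjoint, polyCov, star_sum, star_smul, star_trivial, star_pow, h.star_eq]

open Classical in
/-- A moment of the coin is the sum over pairings of the ends. -/
theorem abs_pow_sub_pairings (hR : 0 < R) (hτ : PosTr τ) (h1 : (τ 1).re ≤ 1) (cf : Lab E D → ℝ)
    (m : ℕ) : |(τ (b.xgen cf ^ m)).re -
      ∑ π ∈ univ.filter (IsPairing (m := m)), b.pairSum τ cf π| ≤ errC cf m / R := by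
  rw [re_xgen_pow, ← sum_off_exact]
  convert b.abs_sum_sub_exact hR hτ h1 cf
    (fun y : Fin m → Item R E D => ∀ i, ends y (i, false) ≠ ends y (i, true))

open Classical in
/-- A moment of the matrix is one pairing. -/
theorem abs_cyc_sub_pairSum (hR : 0 < R) (hτ : PosTr τ) (h1 : (τ 1).re ≤ 1) (cf : Lab E D → ℝ)
    {nxt prv : Fin m → Fin m} (hnp : ∀ i, nxt (prv i) = i) :
    |(τ (cyc (b.mgen cf) nxt)).re - b.pairSum τ cf (chain nxt prv)| ≤ errC cf m / R := by
  rw [re_cyc, pairSum]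
  simp only [patt_chain hnp]
  convert b.abs_sum_sub_exact hR hτ h1 cf
    (fun y : Fin m → Item R E D => ∀ i, ends y (i, true) = ends y (nxt i, false))

theorem abs_first_moment (hR : 0 < R) (hτ : PosTr τ) (h1 : (τ 1).re ≤ 1) (cf : Lab E D → ℝ) :
    |(τ (b.xgen cf)).re| ≤ errC cf 1 / R := by
  classical
  have h := b.abs_pow_sub_pairings hR hτ h1 cf 1
  rw [show univ.filter (IsPairing (m := 1)) = ∅ from
    filter_eq_empty_iff.2 fun π _ => not_isPairing_one π] at h
  simpa using h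

theorem abs_second_moment (hR : 0 < R) (hτ : PosTr τ) (h1 : (τ 1).re ≤ 1) {cf : Lab E D → ℝ}
    (hcf : RevInv cf) :
    |(τ (b.xgen cf * b.xgen cf)).re - 2 * (Mat.matTr τ R (b.mgen cf * b.mgen cf)).re| ≤
      3 * errC cf 2 / R := by
  classical
  have h := b.abs_pow_sub_pairings hR hτ h1 cf 2
  set c : Fin 2 × Bool → Fin 2 × Bool := chain (fun i => i + 1) (fun i => i + 1)
  set s : Fin 2 × Bool → Fin 2 × Bool := fun u => (u.1 + 1, u.2)
  have hset : univ.filter (IsPairing (m := 2)) = {c, s} := by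
    ext π
    simp only [mem_filter, mem_univ, true_and, mem_insert, mem_singleton]
    refine ⟨fun hπ => exists_two hπ, ?_⟩
    rintro (rfl | rfl) <;> (simp only [IsPairing, c, s, chain]; decide)
  have hcs : c ≠ s := fun e => by
    have := congrFun e (0, true)
    simp [c, s, chain] at this
  have hconj : b.pairSum τ cf s = b.pairSum τ cf c :=
    b.pairSum_conj hτ hcf (Equiv.refl _) ![false, true] (by
      simp only [act, c, s, chain, Equiv.refl_apply]
      decide)
  rw [hset, sum_pair hcs, hconj, sq] at h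
  have h' := b.abs_cyc_sub_pairSum hR hτ h1 cf (nxt := fun i : Fin 2 => i + 1)
    (prv := fun i : Fin 2 => i + 1) (by decide)
  rw [cyc_two] at h'
  rw [abs_le] at h h' ⊢
  rw [Mat.matTr_apply, show 3 * errC cf 2 / (R : ℝ) = 3 * (errC cf 2 / R) by ring]
  constructor <;> linarith [h.1, h.2, h'.1, h'.2]

theorem fourth_moment (hR : 0 < R) (hτ : PosTr τ) (h1 : (τ 1).re ≤ 1) (a : Fin D → ℝ)
    (w : E → ℝ) :
    (τ (b.coin a w ^ 4)).re ≤ (8 : ℝ) ^ 8 *
      ((τ (Mat.tr (b.polyCov a w ^ 2) * Mat.tr (b.polyCov a w ^ 2))).re +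
        (Mat.matTr τ R (b.polyCov a w ^ 4)).re) +
      ((8 : ℝ) ^ 8 + 1) * (errC (cfOf a w) 4 / R) := by
  classical
  have hT := b.isSelfAdjoint_polyCov a w
  have hQ : 0 ≤ (τ (Mat.tr (b.polyCov a w ^ 2) * Mat.tr (b.polyCov a w ^ 2))).re := by
    have e : star (Mat.tr (b.polyCov a w ^ 2)) = Mat.tr (b.polyCov a w ^ 2) := by
      simp only [Mat.tr, star_sum, ← Mat.ent_star, (hT.pow 2).star_eq]
    have := hτ.re_sq_nonneg (Mat.tr (b.polyCov a w ^ 2))
    rwa [e] at this
  have hP : 0 ≤ (Mat.matTr τ R (b.polyCov a w ^ 4)).re := by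
    have := (Mat.posTr hτ R).re_sq_nonneg (b.polyCov a w ^ 2)
    rwa [(hT.pow 2).star_eq, ← pow_add] at this
  set cf := cfOf a w
  rw [coin_eq]
  rw [polyCov_eq] at hQ hP ⊢
  have hring := b.abs_cyc_sub_pairSum hR hτ h1 cf (nxt := fun i : Fin 4 => i + 1)
    (prv := fun i : Fin 4 => i - 1) (fun i => sub_add_cancel i 1)
  have hpairs := b.abs_cyc_sub_pairSum hR hτ h1 cf (nxt := (![1, 0, 3, 2] : Fin 4 → Fin 4))
    (prv := (![1, 0, 3, 2] : Fin 4 → Fin 4)) (by decide)
  rw [cyc_four, ← Mat.matTr_apply] at hring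
  rw [cyc_pairs] at hpairs
  rw [abs_le] at hring hpairs
  set P := (Mat.matTr τ R (b.mgen cf ^ 4)).re
  set Q := (τ (Mat.tr (b.mgen cf ^ 2) * Mat.tr (b.mgen cf ^ 2))).re
  have he : 0 ≤ errC cf 4 / R := by have := errC_nonneg cf 4; positivity
  have hπ : ∀ π ∈ univ.filter (IsPairing (m := 4)),
      b.pairSum τ cf π ≤ Q + P + errC cf 4 / R := fun π hπ => by
    obtain ⟨σ, f, h | h⟩ := exists_conj_four (mem_filter.1 hπ).2
    · rw [b.pairSum_conj hτ (revInv_cfOf a w) σ f h, ring4]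
      linarith [hring.1, hring.2]
    · rw [b.pairSum_conj hτ (revInv_cfOf a w) σ f h, pairs4]
      linarith [hpairs.1, hpairs.2]
  have h := (abs_le.1 (b.abs_pow_sub_pairings hR hτ h1 cf 4)).2
  have hsum := sum_le_card_nsmul _ _ _ hπ
  have hcard : ((univ.filter (IsPairing (m := 4))).card : ℝ) ≤ (8 : ℝ) ^ 8 := by
    calc ((univ.filter (IsPairing (m := 4))).card : ℝ)
        ≤ ((univ : Finset (Fin 4 × Bool → Fin 4 × Bool)).card : ℝ) :=
          Nat.cast_le.2 (card_filter_le _ _)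
      _ = (8 : ℝ) ^ 8 := by
        rw [card_univ, Fintype.card_fun, Fintype.card_prod, Fintype.card_fin, Fintype.card_bool]
        norm_num
  rw [nsmul_eq_mul] at hsum
  have := mul_le_mul_of_nonneg_right hcard (by linarith : 0 ≤ Q + P + errC cf 4 / R)
  linarith

end

end Vale.Agent.P095.All.Coin.BankData

namespace Vale.Agent.P095.All.Coin

open BankData

/-- The moments of the coin. -/
theorem moments_of : MomentsTarget := by
  intro E _ D a w w'
  refine ⟨errC (cfOf a w) 1 + 3 * errC (fun l => cfOf a w l - cfOf a w' l) 2 +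
    ((8 : ℝ) ^ 8 + 1) * errC (cfOf a w) 4, fun A B _ _ R hR b τ hτ h1 => ?_⟩
  have e1 := errC_nonneg (cfOf a w) 1
  have e2 := errC_nonneg (fun l => cfOf a w l - cfOf a w' l) 2
  have e4 := errC_nonneg (cfOf a w) 4
  have hR' : (0 : ℝ) < R := Nat.cast_pos.2 hR
  refine ⟨?_, ?_, ?_⟩
  · rw [coin_eq]
    refine (b.abs_first_moment hR hτ h1 _).trans (div_le_div_of_nonneg_right ?_ hR'.le)
    have : 0 ≤ ((8 : ℝ) ^ 8 + 1) * errC (cfOf a w) 4 := by positivity
    linarith
  · rw [coin_eq, coin_eq, polyCov_eq, polyCov_eq, xgen_sub, mgen_sub]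
    refine (b.abs_second_moment hR hτ h1 ((revInv_cfOf a w).sub (revInv_cfOf a w'))).trans
      (div_le_div_of_nonneg_right ?_ hR'.le)
    have : 0 ≤ ((8 : ℝ) ^ 8 + 1) * errC (cfOf a w) 4 := by positivity
    linarith
  · refine (b.fourth_moment hR hτ h1 a w).trans (add_le_add le_rfl ?_)
    rw [← mul_div_assoc]
    exact div_le_div_of_nonneg_right (by linarith) hR'.le

end Vale.Agent.P095.All.Coin
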