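import Vale.Agent.P095.All.Coin.Func
import Vale.Agent.P095.Amen.Coin.Setup
import Vale.Agent.P095.Amen.Coin.Inv
import Vale.Agent.P095.All.Targets
import Vale.Agent.P095.All.Orbit

/-!
# P095 coin: the action on invariant algebras, and the spread of a dimension drop commutator
-/

namespace Vale.Agent.P095.All.Coin

open Vale.Agent.P101.KR Vale.Agent.P095.Amen Finset
open scoped ComplexOrder

noncomputable section

section Group

variable {G F : Type} [Group G] [CStarAlgebra F] (β : G → F ≃⋆ₐ[ℂ] F)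

variable (hmul : ∀ g h x, β (g * h) x = β g (β h x))

include hmul

omit [Group G] hmul in
theorem act_mem_Cl {s : Set F} (hs : ∀ g, β g '' s = s) (g : G) {x : F} (hx : x ∈ Cl s) :
    β g x ∈ Cl s := by
  have hcl : IsClosed ((Cl s).comap (β g).toStarAlgHom : Set F) :=
    (isClosed_Cl s).preimage (StarAlgEquiv.isometry (β g)).continuous
  exact Cl_le hcl (fun y hy => subset_Cl s ((hs g).subset ⟨y, hy, rfl⟩)) hx

/-- The action on the algebra of an invariant set. -/
def act {s : Set F} (hs : ∀ g, β g '' s = s) (g : G) : Cl s ≃⋆ₐ[ℂ] Cl s :=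
  { toFun := fun x => ⟨β g x, act_mem_Cl β hs g x.2⟩
    invFun := fun x => ⟨β g⁻¹ x, act_mem_Cl β hs g⁻¹ x.2⟩
    left_inv := fun x => Subtype.ext (by
      show β g⁻¹ (β g (x : F)) = _; rw [← hmul, inv_mul_cancel, All.act_one hmul])
    right_inv := fun x => Subtype.ext (by
      show β g (β g⁻¹ (x : F)) = _; rw [← hmul, mul_inv_cancel, All.act_one hmul])
    map_mul' := fun x y => Subtype.ext (map_mul (β g) (x : F) (y : F))
    map_add' := fun x y => Subtype.ext (map_add (β g) (x : F) (y : F))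
    map_star' := fun x => Subtype.ext (map_star (β g) (x : F))
    map_smul' := fun c x => Subtype.ext (map_smul (β g) c (x : F)) }

theorem act_coe {s : Set F} (hs : ∀ g, β g '' s = s) (g : G) (x : Cl s) :
    (act β hmul hs g x : F) = β g x := rfl

theorem act_mul {s : Set F} (hs : ∀ g, β g '' s = s) (g h : G) (x : Cl s) :
    act β hmul hs (g * h) x = act β hmul hs g (act β hmul hs h x) :=
  Subtype.ext (hmul g h x)

theorem act_hom {s : Set F} (hs : ∀ g, β g '' s = s) {ι : Type} (κ : Copies' β s ι) (i : ι) (g : G)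
    (x : Cl s) : β g (κ.hom i x) = κ.hom i (act β hmul hs g x) :=
  κ.equiv i g x _ (act_coe β hmul hs g x).symm

end Group

/-- The spread constant. -/
def spread₀ : ℝ := (5 / 48) ^ 2

theorem spread₀_pos : 0 < spread₀ := by unfold spread₀; norm_num

variable {B : Type} [CStarAlgebra B] [PartialOrder B] [StarOrderedRing B]

/-- The commutator of two matrix units of a dimension drop algebra. -/
theorem drop_commutator (D : DropDataN 2 B) :
    IsSelfAdjoint (D.P 0 1 * D.P 1 0 - D.P 1 0 * D.P 0 1) ∧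
      ‖D.P 0 1 * D.P 1 0 - D.P 1 0 * D.P 0 1‖ ≤ 1 ∧
      ∀ σ : B →ₗ[ℂ] ℂ, PosTr σ → spread₀ * (σ 1).re ≤
        (σ ((D.P 0 1 * D.P 1 0 - D.P 1 0 * D.P 0 1) * (D.P 0 1 * D.P 1 0 - D.P 1 0 * D.P 0 1))).re := by
  set p := D.P 0 0
  set q := D.P 1 1
  have e00 : D.P 0 1 * D.P 1 0 = p * p := by
    rw [D.orderZero.mul_eq, if_pos rfl, D.orderZero.mul_eq, if_pos rfl]
  have e11 : D.P 1 0 * D.P 0 1 = q * q := by
    rw [D.orderZero.mul_eq, if_pos rfl, D.orderZero.mul_eq, if_pos rfl]
  have hp0 : 0 ≤ p := Coin.P_nonneg D 0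
  have hq0 : 0 ≤ q := Coin.P_nonneg D 1
  have hp1 : p ≤ 1 := (Coin.P_le_diag D 0).trans (Coin.diag_le_one D)
  have hpsa := IsSelfAdjoint.of_nonneg hp0
  have hqsa := IsSelfAdjoint.of_nonneg hq0
  have hp2 : p * p ≤ p := Coin.sq_P_le D 0
  have hq2 : q * q ≤ q := Coin.sq_P_le D 1
  have hq1 : q ≤ 1 := (Coin.P_le_diag D 1).trans (Coin.diag_le_one D)
  have hpq : p * q = 0 := by rw [D.orderZero.mul_eq, if_neg (by decide)]
  have hqp : q * p = 0 := by rw [D.orderZero.mul_eq, if_neg (by decide)]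
  rw [e00, e11]
  have hsa : IsSelfAdjoint (p * p - q * q) :=
    hpsa.mul_self_nonneg.isSelfAdjoint.sub hqsa.mul_self_nonneg.isSelfAdjoint
  refine ⟨hsa, ?_, fun σ hσ => ?_⟩
  · refine Coin.norm_le_of_bounds hsa zero_le_one ?_ ?_
    · rw [map_one, neg_le_sub_iff_le_add]
      exact (hq2.trans hq1).trans (le_add_of_nonneg_left hpsa.mul_self_nonneg)
    · rw [map_one]
      exact (sub_le_self _ hqsa.mul_self_nonneg).trans (hp2.trans hp1)
  set m := (σ 1).re
  set s := (σ (p * p)).re with hs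
  have hsq : (σ (q * q)).re = s := by rw [hs, ← e00, ← e11, hσ.comm]
  have hsa2 : ∀ {x : B}, IsSelfAdjoint x → x ≤ (2 : ℝ) • (x * x) + (1 / 8 : ℝ) • (1 : B) := by
    intro x hx
    rw [← sub_nonneg, show (2 : ℝ) • (x * x) + (1 / 8 : ℝ) • (1 : B) - x =
      (2 : ℝ) • ((x - (1 / 4 : ℝ) • (1 : B)) * (x - (1 / 4 : ℝ) • (1 : B))) by
      simp only [sub_mul, mul_sub, smul_mul_assoc, mul_smul_comm, one_mul, mul_one, smul_sub,
        smul_smul]
      norm_num; module]
    exact smul_nonneg (by norm_num)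
      (hx.sub ((IsSelfAdjoint.all (1 / 4 : ℝ)).smul (IsSelfAdjoint.one B))).mul_self_nonneg
  have hv : (σ (star D.v * D.v)).re ≤ (σ p).re := by
    rw [hσ.comm]
    refine hσ.mono ?_
    have hn : star D.v * D.v ≤ 1 := by
      rw [D.star_mul_v]; exact sub_le_self _ (Coin.diag_nonneg D)
    have hvn : D.v * star D.v ≤ 1 := by
      rw [← CStarAlgebra.norm_le_one_iff_of_nonneg _ (mul_star_self_nonneg _),
        CStarRing.norm_self_mul_star, ← CStarRing.norm_star_mul_self]
      exact (CStarAlgebra.norm_le_one_iff_of_nonneg _ (star_mul_self_nonneg _)).2 hn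
    calc D.v * star D.v = p * (D.v * star D.v) * p := by
          conv_lhs => rw [← D.fix_v, star_mul, hpsa.star_eq]
          simp only [mul_assoc, p]
      _ ≤ p * 1 * p := hpsa.conjugate_le_conjugate hvn
      _ = p * p := by rw [mul_one]
      _ ≤ p := hp2
  have hsum : m = (σ (star D.v * D.v)).re + ((σ p).re + (σ q).re) := by
    rw [D.star_mul_v, map_sub, Complex.sub_re, diagN, Fin.sum_univ_two, map_add, Complex.add_re]
    ring
  have hp' := hσ.mono (hsa2 hpsa)
  have hq' := hσ.mono (hsa2 hqsa)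
  rw [map_add, Complex.add_re, smul_re, smul_re] at hp' hq'
  rw [hsq] at hq'
  have hs5 : 5 / 48 * m ≤ s := by linarith
  have h4 : (2 * (5 / 48) : ℝ) • (p * p) - spread₀ • (1 : B) ≤
      (p * p - q * q) * (p * p - q * q) := by
    have e : (p * p - q * q) * (p * p - q * q) = p * p * (p * p) + q * q * (q * q) := by
      simp only [sub_mul, mul_sub]
      rw [show p * p * (q * q) = p * (p * q) * q by simp only [mul_assoc],
        show q * q * (p * p) = q * (q * p) * p by simp only [mul_assoc], hpq, hqp]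
      simp
    rw [e]
    refine le_add_of_le_of_nonneg ?_ hqsa.mul_self_nonneg.isSelfAdjoint.mul_self_nonneg
    rw [← sub_nonneg, show p * p * (p * p) - ((2 * (5 / 48) : ℝ) • (p * p) - spread₀ • (1 : B)) =
      (p * p - (5 / 48 : ℝ) • (1 : B)) * (p * p - (5 / 48 : ℝ) • (1 : B)) by
      simp only [sub_mul, mul_sub, smul_mul_assoc, mul_smul_comm, one_mul, mul_one,  
        spread₀]
      module]
    exact (hpsa.mul_self_nonneg.isSelfAdjoint.sub
      ((IsSelfAdjoint.all (5 / 48 : ℝ)).smul (IsSelfAdjoint.one B))).mul_self_nonneg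
  have h5 := hσ.mono h4
  rw [map_sub, Complex.sub_re, smul_re, smul_re] at h5
  rw [← hs] at h5
  unfold spread₀ at h5 ⊢
  linarith

/-- A tracial state is a positive tracial functional. -/
theorem posTr_of_isTrace {F : Type} [CStarAlgebra F] {s : Set F} {τ : Cl s →ₗ[ℂ] ℂ}
    (h : IsTrace (Cl s) τ) : PosTr τ ∧ (τ 1).re = 1 :=
  ⟨⟨fun x => Complex.nonneg_iff.2 ⟨h.nonneg x, (h.real x).symm⟩, h.comm⟩, by rw [h.one]; rfl⟩

end

end Vale.Agent.P095.All.Coin
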