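import Vale.Agent.P101.Bridge.AllDrops
import Vale.Agent.P095.All.Coin.Setup
import Vale.Agent.P095.Amen.Coin.Atom
import Vale.Agent.P095.Amen.Square.Calc

/-!
# P095 coin: almost fixed orthogonal full elements, one of them large in every state

The guard of a small atom: it is large on few translates, and zero on a full element.
-/

namespace Vale.Agent.P095.All.Coin

open Vale.Agent.P101.KR Vale.Agent.P101.Bridge Vale.Agent.P095.Amen Finset

noncomputable section

variable {F : Type} [CStarAlgebra F] [PartialOrder F] [StarOrderedRing F]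

/-- The two sides of a guard: `1 - W` is large in every state and full, `W` is full. -/
theorem sides_of_guard {C : StarSubalgebra ℂ F} {W a e : F}
    (hW0 : 0 ≤ W) (hW1 : W ≤ 1) (hWC : W ∈ C) (ha0 : 0 ≤ a)
    (hafull : FullPos (cut (1 / 16) a)) (he0 : 0 ≤ e) (heful : FullPos e)
    {ι : Type} [Fintype ι] (h : ι → F) (hh : ∀ i, 0 ≤ h i ∧ h i ∈ C) (hWe : W * e = 0)
    (hWh : W ≤ (100 : ℝ) • ∑ i, h i)
    (hguard : ∀ r : F, star r * r = a → ‖r * (1 - W) * star r‖ ≤ 1 / 100)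
    (hup : ∀ B : StarSubalgebra ℂ F, IsClosed (B : Set F) → C ≤ B → ∀ d : Dim B, ∀ i, ∀ δ : ℝ,
      0 < δ → d.d (cut δ (h i)) ≤ 1 / (2 * Fintype.card ι)) :
    FullPos (cut (1 / 8) (cut (1 / 2) (1 - W))) ∧ FullPos (cut (1 / 8) (cut (1 / 2) W)) ∧
      ∀ B : StarSubalgebra ℂ F, IsClosed (B : Set F) → C ≤ B → ∀ d : Dim B,
        1 / 2 ≤ d.d (cut (1 / 8) (cut (1 / 2) (1 - W))) := by
  have hWs := IsSelfAdjoint.of_nonneg hW0
  have hVs : IsSelfAdjoint (1 - W) := (IsSelfAdjoint.one F).sub hWs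
  have hV0 : 0 ≤ 1 - W := sub_nonneg.2 hW1
  rw [Coin.cut_cut hVs (by norm_num), Coin.cut_cut hWs (by norm_num)]
  refine ⟨?_, ?_, fun B hB hCB d => ?_⟩
  · have he1 : (1 - W) * e = (1 : ℝ) • e := by rw [sub_mul, one_mul, hWe, sub_zero, one_smul]
    have h1 : cut (1 / 8 + 1 / 2) (1 - W) * e = (3 / 8 : ℝ) • e := by
      rw [cut, Square.cfc_mul_eq_smul hVs he1
        (show Continuous fun t : ℝ => max (t - (1 / 8 + 1 / 2)) 0 by fun_prop)]
      congr 1
      norm_num
    have hWe' : Commute e W := by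
      show e * W = W * e
      rw [hWe]
      have := congrArg star hWe
      rwa [star_mul, (IsSelfAdjoint.of_nonneg he0).star_eq, hWs.star_eq, star_zero] at this
    exact Coin.fullPos_of_mul_le he0 heful (cfc_predicate _ _)
      (((Commute.one_right e).sub_right hWe').symm.cfc_real _).symm (by norm_num : (0 : ℝ) < 3 / 8)
      h1.ge
  · set Q := cut (1 / 8 + 1 / 2) W
    set r := cfc Real.sqrt a
    have hr : IsSelfAdjoint r := cfc_predicate _ _
    have hrr : r * r = a := by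
      rw [← cfc_mul Real.sqrt Real.sqrt a Real.continuous_sqrt.continuousOn
        Real.continuous_sqrt.continuousOn]
      exact (cfc_congr fun x hx => Real.mul_self_sqrt (spectrum_nonneg_of_nonneg ha0 hx)).trans
        (cfc_id' ℝ a (IsSelfAdjoint.of_nonneg ha0))
    have hg := hguard r (by rw [hr.star_eq, hrr])
    rw [hr.star_eq] at hg
    have h1 : r * (1 - W) * r ≤ (1 / 100 : ℝ) • (1 : F) := by
      refine ((hr.conjugate_nonneg hV0).isSelfAdjoint.le_algebraMap_norm_self).trans ?_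
      rw [Algebra.algebraMap_eq_smul_one]
      exact smul_le_smul_of_nonneg_right hg zero_le_one
    have h2 : r * W * r ≤ (5 / 8 : ℝ) • a + r * Q * r := by
      have h3 : W ≤ Q + (5 / 8 : ℝ) • (1 : F) := by
        have := Coin.le_cut_add hWs (1 / 8 + 1 / 2)
        rw [show (5 / 8 : ℝ) = 1 / 8 + 1 / 2 by norm_num]
        exact this
      refine (hr.conjugate_le_conjugate h3).trans_eq ?_
      rw [mul_add, add_mul, mul_smul_comm, smul_mul_assoc, mul_one, hrr, add_comm]
    have h4 : a ≤ (8 / 3 : ℝ) • (r * Q * r) + (8 / 300 : ℝ) • (1 : F) := by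
      have e1 : r * (1 - W) * r = a - r * W * r := by rw [mul_sub, mul_one, sub_mul, hrr]
      rw [e1, sub_le_iff_le_add] at h1
      have h5 : (3 / 8 : ℝ) • a ≤ r * Q * r + (1 / 100 : ℝ) • (1 : F) := by
        have h6 := h1.trans (add_le_add le_rfl h2)
        rw [show (3 / 8 : ℝ) • a = a - (5 / 8 : ℝ) • a by module, sub_le_iff_le_add]
        exact h6.trans_eq (by abel)
      have h6 := smul_le_smul_of_nonneg_left h5 (by norm_num : (0 : ℝ) ≤ 8 / 3)
      rw [smul_add, smul_smul, smul_smul] at h6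
      norm_num at h6 ⊢
      exact h6
    obtain ⟨g, -, hgle⟩ := Coin.exists_conj_of_le (B := (⊤ : StarSubalgebra ℂ F))
      (by simp) (IsSelfAdjoint.of_nonneg ha0) StarSubalgebra.mem_top h4
      (show (8 / 300 : ℝ) < 1 / 16 by norm_num)
    refine Coin.fullPos_of_le_conj (g := Real.sqrt (8 / 3) • (r * g)) hafull (cfc_predicate _ _)
      (hgle.trans_eq ?_)
    rw [Coin.star_smul_conj, Real.mul_self_sqrt (by norm_num), star_mul, hr.star_eq, mul_smul_comm,
      smul_mul_assoc]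
    simp only [mul_assoc]
  · set X := cut (1 / 8 + 1 / 2) (1 - W)
    rcases Nat.eq_zero_or_pos (Fintype.card ι) with h0 | h0
    · have : IsEmpty ι := Fintype.card_eq_zero_iff.1 h0
      have hW : W = 0 := le_antisymm (by simpa using hWh) hW0
      have h1 : (1 : F) ≤ (∑ j : Unit, star ((fun _ : Unit => (1 : F)) j) * X * 1) +
          (3 / 4 : ℝ) • (1 : F) := by
        have h7 := Coin.le_cut_add hVs (1 / 8 + 1 / 2)
        simp only [Fintype.sum_unique, star_one, one_mul, mul_one]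
        calc (1 : F) = 1 - W := by rw [hW, sub_zero]
          _ ≤ X + (1 / 8 + 1 / 2 : ℝ) • (1 : F) := h7
          _ ≤ _ := add_le_add le_rfl (smul_le_smul_of_nonneg_right (by norm_num) zero_le_one)
      have := Coin.one_le_dim_sum' hB d (fun _ : Unit => X) (fun _ => 1) (fun _ => Coin.cut_nonneg' _ _)
        (fun _ => Coin.cut_mem hB (hCB (sub_mem (one_mem C) hWC)) _) (fun _ => one_mem B)
        (by norm_num : (3 / 4 : ℝ) < 1) h1
      simp only [Fintype.sum_unique] at this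
      linarith
    set δ : ℝ := 1 / (800 * Fintype.card ι)
    have hn : (0 : ℝ) < Fintype.card ι := by exact_mod_cast h0
    have hδ : 0 < δ := by positivity
    have h100 : (10 : ℝ) * 10 = 100 := by norm_num
    have key : (1 : F) ≤ (∑ o : Option ι, star (o.elim (1 : F) fun _ => (10 : ℝ) • (1 : F)) *
        o.elim X (fun i => cut δ (h i)) * o.elim (1 : F) fun _ => (10 : ℝ) • (1 : F)) +
        (3 / 4 : ℝ) • (1 : F) := by
      simp only [Fintype.sum_option, Option.elim, star_one, one_mul, mul_one, star_smul, star_trivial,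
        smul_mul_assoc, mul_smul_comm, smul_smul, h100]
      have h1 : W ≤ (100 : ℝ) • ∑ i, cut δ (h i) + (1 / 8 : ℝ) • (1 : F) := by
        refine hWh.trans ((smul_le_smul_of_nonneg_left (sum_le_sum fun i _ =>
          Coin.le_cut_add (IsSelfAdjoint.of_nonneg (hh i).1) δ) (by norm_num)).trans_eq ?_)
        rw [sum_add_distrib, smul_add, sum_const, card_univ, ← Nat.cast_smul_eq_nsmul ℝ, smul_smul,
          smul_smul]
        congr 2
        simp only [δ]
        field_simp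
        norm_num
      have h2 := Coin.le_cut_add hVs (1 / 8 + 1 / 2)
      calc (1 : F) = (1 - W) + W := (sub_add_cancel 1 W).symm
        _ ≤ (X + (1 / 8 + 1 / 2 : ℝ) • (1 : F)) +
            ((100 : ℝ) • ∑ i, cut δ (h i) + (1 / 8 : ℝ) • (1 : F)) := add_le_add h2 h1
        _ = _ := by rw [← smul_sum]; module
    have := Coin.one_le_dim_sum' hB d _ _ (fun o => by cases o <;> exact Coin.cut_nonneg' _ _)
      (fun o => by
        cases o
        · exact Coin.cut_mem hB (hCB (sub_mem (one_mem C) hWC)) _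
        · exact Coin.cut_mem hB (hCB (hh _).2) _)
      (fun o => by cases o <;> first | exact one_mem B | exact Coin.smul_mem' (one_mem B) 10)
      (by norm_num : (3 / 4 : ℝ) < 1) key
    simp only [Fintype.sum_option, Option.elim] at this
    have hs : ∑ i, d.d (cut δ (h i)) ≤ 1 / 2 :=
      (sum_le_sum fun i _ => hup B hB hCB d i δ hδ).trans_eq (by
        rw [sum_const, card_univ, nsmul_eq_mul]; field_simp)
    linarith

/-- The two elements of the first step. -/
theorem exists_step0 (hGu : GuardTarget) {G : Type} [Group G] [Countable G] {F : Type}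
    [CStarAlgebra F] [PartialOrder F] [StarOrderedRing F] {β : G → F ≃⋆ₐ[ℂ] F} {S : Finset G}
    (hset : All.Setting β S) {ε : ℝ} (hε : 0 < ε) :
    ∃ (s : Set F) (X Y : F), s.Countable ∧ (∀ g, β g '' s = s) ∧ X ∈ Cl s ∧ Y ∈ Cl s ∧
      0 ≤ X ∧ X ≤ 1 ∧ 0 ≤ Y ∧ Y ≤ 1 ∧ X * Y = 0 ∧
      (∀ g ∈ S, ‖β g X - X‖ ≤ ε ∧ ‖β g Y - Y‖ ≤ ε) ∧
      FullPos (cut (1 / 8) X) ∧ FullPos (cut (1 / 8) Y) ∧
      ∀ B : StarSubalgebra ℂ F, IsClosed (B : Set F) → Cl s ≤ B → ∀ d : Dim B,
        1 / 2 ≤ d.d (cut (1 / 8) X) := by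
  classical
  have hcf : Continuous fun t : ℝ => max (t - 1 / 2) 0 := by fun_prop
  obtain ⟨L, hL, hmod⟩ := exists_approx _ hcf (half_pos hε)
  set δ := ε / (2 * (L + 1))
  have hδ : 0 < δ := by positivity
  obtain ⟨E, hE1, hguard⟩ := hGu G S δ hδ
  set n := E.card
  have hn : 0 < n := card_pos.2 ⟨1, hE1⟩
  have hcop := hset.hasCopies
  have : NeZero (2 * n) := ⟨by omega⟩
  obtain ⟨D₁⟩ := allDrops_of F hcop hset.noChar (2 * n) (by omega)
  obtain ⟨D₂⟩ := allDrops_of F hcop hset.noChar 2 le_rfl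
  set s₀ : Set F := orbitAll β ((Set.range (fun p : Fin (2 * n) × Fin (2 * n) => D₁.P p.1 p.2) ∪ {D₁.v}) ∪
    (Set.range (fun p : Fin 2 × Fin 2 => D₂.P p.1 p.2) ∪ {D₂.v}))
  have hmul := hset.mul
  have hs₀c : s₀.Countable := countable_orbitAll (β := β)
    (((Set.countable_range _).union (Set.countable_singleton _)).union
      ((Set.countable_range _).union (Set.countable_singleton _)))
  have hinv : ∀ g, β g '' s₀ = s₀ := image_orbitAll hmul _
  obtain ⟨κ⟩ := hset.copies s₀ hs₀c hinv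
  have hD₁ : Coin.EntriesIn D₁ (Cl s₀) :=
    ⟨fun x y => subset_Cl _ (subset_orbitAll hmul _ (.inl (.inl ⟨(x, y), rfl⟩))),
      subset_Cl _ (subset_orbitAll hmul _ (.inl (.inr rfl)))⟩
  have hD₂ : Coin.EntriesIn D₂ (Cl s₀) :=
    ⟨fun x y => subset_Cl _ (subset_orbitAll hmul _ (.inr (.inl ⟨(x, y), rfl⟩))),
      subset_Cl _ (subset_orbitAll hmul _ (.inr (.inr rfl)))⟩
  set φ : Fin (n + 1) → Cl s₀ →⋆ₐ[ℂ] F := fun i => κ.hom i.1
  set t₀ : Set (Cl s₀) := Subtype.val ⁻¹' s₀
  set s : Set F := orbitAll β (⋃ i : Fin (n + 1), φ i '' t₀)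
  have hsc : s.Countable := countable_orbitAll (β := β) (Set.countable_iUnion fun i =>
    (hs₀c.preimage Subtype.coe_injective).image _)
  have hsinv : ∀ g, β g '' s = s := image_orbitAll hmul _
  have hφmem : ∀ i x, φ i x ∈ Cl s := fun i x =>
    Cl_mono (fun y hy => subset_orbitAll hmul _ (Set.mem_iUnion.2 ⟨i, hy⟩)) (hom_mem_Cl _ x)
  let := CStarAlgebra.spectralOrder (Cl s₀)
  have := CStarAlgebra.spectralOrderedRing (Cl s₀)
  let enum : Fin n ≃ E := (E.equivFin).symm
  let gel : ℤ → G := fun z => if hz : z.toNat < n then (enum ⟨z.toNat, hz⟩ : G) else 1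
  obtain ⟨a, e, haS, heS, ha0, ha1, he0, hef, haf, hkill, -, hup⟩ :=
    Coin.atom_spec (G := Cl s₀) (L := n) le_rfl (Coin.restrictDrop D₁ hD₁) (Coin.restrictDrop D₂ hD₂)
      (fun z => β (gel z)) (fun z => (act β hmul hinv (gel z)).toStarAlgHom) φ
      (fun i j h => κ.comm _ _ fun e => h (Fin.ext e))
      (fun i z x => act_hom β hmul hinv κ _ (gel z) x) (fun j => ((j : ℕ) : ℤ)) (isClosed_Cl s) hφmem
  have hgel : ∀ j : Fin n, gel ((j : ℕ) : ℤ) = enum j := fun j => by simp [gel]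
  obtain ⟨W, hW0', hW1', hWcl, hWfix, hWle', hWguard⟩ := hguard F β hmul a (1 / 100)
    (Coin.sqLe_iff.2 ha0) (by norm_num)
  have hW0 : 0 ≤ W := Coin.sqLe_iff.1 hW0'
  have hW1 : W ≤ 1 := Coin.sqLe_iff.1 hW1'
  have hWC : W ∈ Cl s := Cl_le (isClosed_Cl s) (by
    rintro _ ⟨g, -, rfl⟩
    exact act_mem_Cl β hsinv g haS) hWcl
  have hsum : ∑ g ∈ E, β g a = ∑ j : Fin n, β (gel ((j : ℕ) : ℤ)) a := by
    rw [← Finset.sum_coe_sort, ← enum.sum_comp]
    simp only [hgel]
  have hWle : W ≤ (100 : ℝ) • ∑ g ∈ E, β g a := by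
    have := Coin.sqLe_iff.1 hWle'
    norm_num at this
    exact this
  choose h hhC hh0 hhle hhd using fun j : Fin n => hup ((j : ℕ) : ℤ)
  have hWh : W ≤ (100 : ℝ) • ∑ j, h j := hWle.trans
    (smul_le_smul_of_nonneg_left (hsum.trans_le (sum_le_sum fun j _ => hhle j)) (by norm_num))
  have hWe : W * e = 0 := by
    refine Coin.mul_eq_zero_of_conj hW0 ?_
    refine (star_left_conjugate_le_conjugate hWle e).trans_eq ?_
    rw [hsum, mul_smul_comm, smul_mul_assoc, mul_sum, sum_mul,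
      sum_eq_zero fun j _ => by rw [mul_assoc, hkill, mul_zero], smul_zero]
  obtain ⟨hXf, hYf, hXd⟩ := sides_of_guard (C := Cl s) hW0 hW1 hWC ha0 haf he0 hef h
    (fun j => ⟨hh0 j, hhC j⟩) hWe hWh (fun r hr => hWguard r hr) (fun B hB hCB d j δ' hδ' => by
      refine (hhd j B hB hCB d δ' hδ').trans_eq ?_
      simp [n])
  have hWs := IsSelfAdjoint.of_nonneg hW0
  have hVs : IsSelfAdjoint (1 - W) := (IsSelfAdjoint.one F).sub hWs
  have hV0 : 0 ≤ 1 - W := sub_nonneg.2 hW1
  have hWn := (CStarAlgebra.norm_le_one_iff_of_nonneg W hW0).2 hW1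
  have hVn := (CStarAlgebra.norm_le_one_iff_of_nonneg _ hV0).2 (sub_le_self _ hW0)
  have hfix : ∀ g ∈ S, ∀ {V : F}, IsSelfAdjoint V → ‖V‖ ≤ 1 → ‖β g V - V‖ ≤ δ →
      ‖β g (cut (1 / 2) V) - cut (1 / 2) V‖ ≤ ε := fun g _ V hV hVn' hd => by
    rw [cut, StarAlgHomClass.map_cfc (β g) (fun t : ℝ => max (t - 1 / 2) 0) V hcf.continuousOn
      (StarAlgEquiv.isometry (β g)).continuous hV (hV.map _)]
    refine (hmod (β g V) V (hV.map _) hV ((NonUnitalStarAlgHom.norm_apply_le _ _).trans hVn') hVn').1.trans ?_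
    have h1 : L * ‖β g V - V‖ ≤ (L + 1) * δ :=
      mul_le_mul (by linarith) hd (norm_nonneg _) (by linarith)
    have h2 : (L + 1) * δ = ε / 2 := by simp only [δ]; field_simp
    linarith
  refine ⟨s, cut (1 / 2) (1 - W), cut (1 / 2) W, hsc, hsinv,
    Coin.cut_mem (isClosed_Cl s) (sub_mem (one_mem _) hWC) _, Coin.cut_mem (isClosed_Cl s) hWC _,
    Coin.cut_nonneg' _ _, (Coin.cut_le_self hV0 (by norm_num)).trans (sub_le_self _ hW0),
    Coin.cut_nonneg' _ _, (Coin.cut_le_self hW0 (by norm_num)).trans hW1, ?_,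
    fun g hg => ⟨hfix g hg hVs hVn ?_, hfix g hg hWs hWn (hWfix g hg)⟩, hXf, hYf, hXd⟩
  · have e1 : cut (1 / 2) (1 - W) = cfc (fun t : ℝ => max (1 - t - 1 / 2) 0) W := by
      rw [cut, show (1 : F) - W = cfc (fun t : ℝ => 1 - t) W by
          rw [cfc_sub (fun _ : ℝ => (1 : ℝ)) (fun t => t) W, cfc_id' ℝ W, cfc_const_one ℝ W],
        ← cfc_comp' (fun t : ℝ => max (t - 1 / 2) 0) (fun t : ℝ => 1 - t) W hcf.continuousOn
          (by fun_prop : Continuous fun t : ℝ => 1 - t).continuousOn]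
    rw [e1, cut, ← cfc_mul (fun t : ℝ => max (1 - t - 1 / 2) 0) (fun t : ℝ => max (t - 1 / 2) 0) W
      (by fun_prop : Continuous _).continuousOn hcf.continuousOn]
    refine (cfc_congr fun t _ => ?_).trans (cfc_zero ℝ W)
    rcases le_total t (1 / 2) with h | h
    · rw [max_eq_right (show t - 1 / 2 ≤ 0 by linarith), mul_zero]; rfl
    · rw [max_eq_right (show 1 - t - 1 / 2 ≤ 0 by linarith), zero_mul]; rfl
  · rw [map_sub, map_one, show (1 - β g W) - (1 - W) = -(β g W - W) by abel, norm_neg]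
    exact hWfix g hg

end

end Vale.Agent.P095.All.Coin
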