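import Vale.Agent.P095.All.Coin.Side
import Vale.Agent.P095.All.Coin.Ends
import Vale.Agent.P095.All.Coin.Moments
import Vale.Agent.P095.All.Coin.Step0
import Vale.Agent.P095.Amen.Coin.Elements

/-!
# P095 coin: the fixed coin

Almost fixed orthogonal sides with uniform bounds, then saturation.
-/

namespace Vale.Agent.P095.All.Coin

open Vale.Agent.P101.KR Vale.Agent.P101.Bridge Vale.Agent.P095.Amen Finset

noncomputable section

/-- The places: `N` coins and two further copies. -/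
def finPlaces (N : ℕ) : Places (Fin (N + 2)) where
  I := univ.filter fun i : Fin (N + 2) => (i : ℕ) < N
  iX := ⟨N, by omega⟩
  iY := ⟨N + 1, by omega⟩
  hX := by simp
  hY := by simp
  ne := by simp [Fin.ext_iff]

theorem finPlaces_card (N : ℕ) : (finPlaces N).I.card = N := by
  rw [finPlaces, Fin.card_filter_val_lt, min_eq_right (by omega)]

theorem norm_Cl_le_one {F : Type} [CStarAlgebra F] [PartialOrder F] [StarOrderedRing F] {U : Set F}
    {x : Cl U} (h : 0 ≤ (x : F) ∧ (x : F) ≤ 1) : ‖x‖ ≤ 1 :=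
  (CStarAlgebra.norm_le_one_iff_of_nonneg (x : F) h.1).2 h.2

/-- The almost fixed ends in an invariant separable algebra with the elements of the first step. -/
theorem exists_stage (hGu : GuardTarget) {c : ℝ} {G : Type} [Group G] [Countable G] {F : Type}
    [CStarAlgebra F] [PartialOrder F] [StarOrderedRing F] {β : G → F ≃⋆ₐ[ℂ] F} {S : Finset G}
    (hset : All.Setting β S) {ε : ℝ} (hε : 0 < ε) {R : ℕ}
    (hR : ∀ (A B : Type) [CStarAlgebra A] [CStarAlgebra B] (Z : BankSystem G A B R),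
      Z.Spread spread₀ → ∃ H L : A, SqLe 0 H ∧ SqLe H 1 ∧ SqLe 0 L ∧ SqLe L 1 ∧ H * L = 0 ∧
        (∀ s ∈ S, ‖Z.α s H - H‖ ≤ ε ∧ ‖Z.α s L - L‖ ≤ ε) ∧
        ∀ τ : A →ₗ[ℂ] ℂ, PosTr τ → c * (τ 1).re ≤ (τ H).re ∧ c * (τ 1).re ≤ (τ L).re) :
    ∃ (U : Set F) (hU : ∀ g, β g '' U = U) (H L X Y : Cl U), U.Countable ∧
      (∀ u ∈ ({H, L, X, Y} : Set (Cl U)), 0 ≤ (u : F) ∧ (u : F) ≤ 1 ∧
        ∀ g ∈ S, ‖act β hset.mul hU g u - u‖ ≤ ε) ∧
      H * L = 0 ∧ X * Y = 0 ∧ Y * X = 0 ∧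
      (∀ σ : Cl U →ₗ[ℂ] ℂ, PosTr σ → c * (σ 1).re ≤ (σ H).re ∧ c * (σ 1).re ≤ (σ L).re) ∧
      (∀ d : Dim (Cl U), 1 / 2 ≤ d.d (cut (1 / 8) (X : F))) ∧
      Square.FullW (Cl U) (cut (1 / 8) (X : F)) ∧ Square.FullW (Cl U) (cut (1 / 8) (Y : F)) := by
  classical
  have hmul := hset.mul
  obtain ⟨D⟩ := allDrops_of F hset.hasCopies hset.noChar 2 le_rfl
  set u₁ : Set F := orbitAll β (Set.range (fun p : Fin 2 × Fin 2 => D.P p.1 p.2) ∪ {D.v})
  have hu₁c : u₁.Countable := countable_orbitAll (β := β)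
    ((Set.countable_range _).union (Set.countable_singleton _))
  have hu₁ : ∀ g, β g '' u₁ = u₁ := image_orbitAll hmul _
  have hD : Coin.EntriesIn D (Cl u₁) :=
    ⟨fun x y => subset_Cl _ (subset_orbitAll hmul _ (.inl ⟨(x, y), rfl⟩)),
      subset_Cl _ (subset_orbitAll hmul _ (.inr rfl))⟩
  obtain ⟨κ⟩ := hset.copies u₁ hu₁c hu₁
  obtain ⟨s, X, Y, hsc, -, hXs, hYs, hX0, hX1, hY0, hY1, hXY, hfix, ⟨KX, yX, hyX⟩, ⟨KY, yY, hyY⟩,
    hXd⟩ := exists_step0 hGu hset hε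
  set W : Set F := (⋃ i : Fin R, κ.hom i.1 '' (Subtype.val ⁻¹' u₁)) ∪
    (s ∪ (Set.range yX ∪ Set.range yY))
  have hWc : W.Countable := (Set.countable_iUnion fun i =>
    (hu₁c.preimage Subtype.coe_injective).image _).union
      (hsc.union ((Set.countable_range _).union (Set.countable_range _)))
  set U : Set F := orbitAll β W
  have hU : ∀ g, β g '' U = U := image_orbitAll hmul _
  have hWU : W ⊆ U := subset_orbitAll hmul W
  have hbank : ∀ (i : Fin R) x, κ.hom i.1 x ∈ Cl U := fun i x =>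
    Cl_mono (((Set.subset_iUnion (fun i : Fin R => κ.hom i.1 '' (Subtype.val ⁻¹' u₁)) i).trans
      Set.subset_union_left).trans hWU) (hom_mem_Cl _ x)
  have hsU : Cl s ≤ Cl U :=
    Cl_mono ((Set.subset_union_left.trans Set.subset_union_right).trans hWU)
  let := CStarAlgebra.spectralOrder (Cl u₁)
  have := CStarAlgebra.spectralOrderedRing (Cl u₁)
  set D' := Coin.restrictDrop D hD
  obtain ⟨hsa, hbd, hsp⟩ := drop_commutator D'
  let Z : BankSystem G (Cl U) (Cl u₁) R :=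
    { α := act β hmul hU
      β := act β hmul hu₁
      φ := fun i => (κ.hom i.1).codRestrict _ (hbank i)
      c := D'.P 0 1
      d := D'.P 1 0
      α_mul := act_mul β hmul hU
      β_mul := act_mul β hmul hu₁
      comm := fun i j hij x y =>
        Subtype.ext (κ.comm i.1 j.1 (fun e => hij (Fin.ext e)) x y)
      equiv := fun g i x => Subtype.ext (act_hom β hmul hu₁ κ i.1 g x)
      selfAdjoint := hsa
      bound := hbd }
  obtain ⟨H, L, hH0, hH1, hL0, hL1, hHL, hHfix, hHτ⟩ := hR (Cl U) (Cl u₁) Z hsp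
  have hco : ∀ {a b : Cl U}, SqLe a b → (a : F) ≤ (b : F) := fun {a b} ⟨w, hw⟩ =>
    Coin.sqLe_iff.1 ⟨(w : F), congrArg Subtype.val hw⟩
  have hYX : Y * X = 0 := by
    have := congrArg star hXY
    rwa [star_mul, (IsSelfAdjoint.of_nonneg hX0).star_eq, (IsSelfAdjoint.of_nonneg hY0).star_eq,
      star_zero] at this
  have hmemw : ∀ {K : ℕ} (y : Fin K → F), Set.range y ⊆ Set.range yX ∪ Set.range yY →
      ∀ i, y i ∈ Cl U := fun y hy i =>
    subset_Cl U (hWU (.inr (.inr (hy ⟨i, rfl⟩))))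
  refine ⟨U, hU, H, L, ⟨X, hsU hXs⟩, ⟨Y, hsU hYs⟩, countable_orbitAll hWc, ?_, hHL,
    Subtype.ext hXY, Subtype.ext hYX, fun σ hσ => hHτ σ hσ,
    fun d => hXd (Cl U) (isClosed_Cl U) hsU d,
    ⟨KX, yX, hmemw yX Set.subset_union_left, hyX⟩, ⟨KY, yY, hmemw yY Set.subset_union_right, hyY⟩⟩
  rintro u (rfl | rfl | rfl | rfl)
  · exact ⟨hco hH0, hco hH1, fun g hg => (hHfix g hg).1⟩
  · exact ⟨hco hL0, hco hL1, fun g hg => (hHfix g hg).2⟩
  · exact ⟨hX0, hX1, fun g hg => (hfix g hg).1⟩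
  · exact ⟨hY0, hY1, fun g hg => (hfix g hg).2⟩

/-- Almost fixed orthogonal elements with uniform bounds. -/
theorem exists_almost (hGu : GuardTarget) {G : Type} [Group G] [Countable G] {F : Type}
    [CStarAlgebra F] [PartialOrder F] [StarOrderedRing F] {β : G → F ≃⋆ₐ[ℂ] F} {S : Finset G}
    (hset : All.Setting β S) :
    ∃ r c : ℝ, 0 < r ∧ 0 < c ∧ ∀ ε : ℝ, 0 < ε → ∃ a b : F,
      0 ≤ a ∧ a ≤ 1 ∧ 0 ≤ b ∧ b ≤ 1 ∧ a * b = 0 ∧
      (∀ g ∈ S, ‖β g a - a‖ ≤ ε ∧ ‖β g b - b‖ ≤ ε) ∧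
      FullPos (cut r a) ∧ DGe (cut r a) c ∧ FullPos (cut r b) ∧ DGe (cut r b) c := by
  classical
  obtain ⟨c₁, hc₁, hends⟩ := exists_ends moments_of hGu spread₀_pos
  set c := min c₁ 1
  have hc : 0 < c := lt_min hc₁ one_pos
  obtain ⟨C, hC, htd⟩ := hset.traceDim (1 / 2) (by norm_num)
  obtain ⟨n₀, hn₀⟩ := exists_pow_lt_of_lt_one (show (0 : ℝ) < 1 / (2 * (C + 1)) by positivity)
    (show 1 - c < 1 by linarith)
  set n := n₀ + 1
  have hn : 0 < n := Nat.succ_pos _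
  have hsmall : C * (1 - c) ^ n ≤ 1 / 2 := by
    have hc0 : 0 ≤ 1 - c := sub_nonneg.2 (min_le_right _ _)
    have h1 : (1 - c) ^ n ≤ 1 / (2 * (C + 1)) :=
      (pow_le_pow_of_le_one hc0 (by linarith) (Nat.le_succ n₀)).trans hn₀.le
    calc C * (1 - c) ^ n ≤ (C + 1) * (1 / (2 * (C + 1))) :=
          mul_le_mul (by linarith) h1 (pow_nonneg hc0 _) (by linarith)
      _ = 1 / 2 := by field_simp
  set N := 2 * n - 1
  refine ⟨Places.rad n N / 2, (1 / (2 * (n : ℝ))) ^ n / 2, half_pos (Places.rad_pos N hn), by positivity,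
    fun ε hε => ?_⟩
  set ε' := ε / (n + 2 : ℕ)
  have hε' : 0 < ε' := by positivity
  obtain ⟨R, hR⟩ := hends G hset.amenable S ε' hε'
  obtain ⟨U, hU, H, L, X, Y, hUc, hbnd, hHL, hXY, hYX, hτ, hXd, hXf, hYf⟩ :=
    exists_stage hGu hset hε' hR
  obtain ⟨κ'⟩ := hset.copies U hUc hU
  let κ : Fin (N + 2) → Cl U →⋆ₐ[ℂ] F := fun i => κ'.hom i.1
  have hκ : ∀ i j, i ≠ j → ∀ x y, Commute (κ i x) (κ j y) := fun i j h =>
    κ'.comm i.1 j.1 fun e => h (Fin.ext e)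
  set P := finPlaces N
  have hI : P.I.card = N := finPlaces_card N
  have hcomm : Commute X Y := hXY.trans hYX.symm
  let v : Cl U → Cl U → Fin (N + 2) → Cl U := fun T Z i =>
    if i ∈ P.I then T else if i = P.iX then X else Z
  let w : Cl U → Cl U → Fin (N + 2) → Cl U := fun T Z i => if i = P.iX then Y else v T Z i
  have hT : ∀ T ∈ ({H, L} : Set (Cl U)), T ∈ ({H, L, X, Y} : Set (Cl U)) := by
    rintro T (rfl | rfl) <;> simp
  have hv : ∀ T ∈ ({H, L} : Set (Cl U)), ∀ Z ∈ ({X, Y} : Set (Cl U)), ∀ i,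
      v T Z i ∈ ({H, L, X, Y} : Set (Cl U)) ∧ w T Z i ∈ ({H, L, X, Y} : Set (Cl U)) ∧
        Commute (v T Z i) (w T Z i) := by
    rintro T hT' Z hZ i
    have h1 : v T Z i ∈ ({H, L, X, Y} : Set (Cl U)) := by
      simp only [v]
      split_ifs
      · exact hT T hT'
      · simp
      · rcases hZ with rfl | rfl <;> simp
    refine ⟨h1, ?_, ?_⟩
    · simp only [w]
      split_ifs
      · simp
      · exact h1
    · simp only [w]
      split_ifs with hi
      · simp only [v, hi, if_neg P.hX, if_pos]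
        exact hcomm
      · exact Commute.refl _
  have hb : ∀ T ∈ ({H, L} : Set (Cl U)), ∀ Z ∈ ({X, Y} : Set (Cl U)),
      (∀ i, 0 ≤ (v T Z i : F) ∧ (v T Z i : F) ≤ 1) ∧
        ∀ i, 0 ≤ (w T Z i : F) ∧ (w T Z i : F) ≤ 1 := fun T hT Z hZ =>
    ⟨fun i => ⟨(hbnd _ (hv T hT Z hZ i).1).1, (hbnd _ (hv T hT Z hZ i).1).2.1⟩,
      fun i => ⟨(hbnd _ (hv T hT Z hZ i).2.1).1, (hbnd _ (hv T hT Z hZ i).2.1).2.1⟩⟩
  have hHm : H ∈ ({H, L} : Set (Cl U)) := by simp
  have hLm : L ∈ ({H, L} : Set (Cl U)) := by simp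
  have hXm : X ∈ ({X, Y} : Set (Cl U)) := by simp
  have hYm : Y ∈ ({X, Y} : Set (Cl U)) := by simp
  have hone : ∀ T ∈ ({H, L} : Set (Cl U)), (∀ σ : Cl U →ₗ[ℂ] ℂ, PosTr σ →
      c₁ * (σ 1).re ≤ (σ T).re) → ∀ Z ∈ ({X, Y} : Set (Cl U)),
      0 ≤ P.side κ n (v T Z) (w T Z) ∧ P.side κ n (v T Z) (w T Z) ≤ 1 ∧
      (∀ g ∈ S, ‖β g (P.side κ n (v T Z) (w T Z)) - P.side κ n (v T Z) (w T Z)‖ ≤ ε) ∧
      FullPos (cut (Places.rad n N / 2) (P.side κ n (v T Z) (w T Z))) ∧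
      DGe (cut (Places.rad n N / 2) (P.side κ n (v T Z) (w T Z))) ((1 / (2 * (n : ℝ))) ^ n / 2) := by
    intro T hT hTτ Z hZ
    obtain ⟨hv0, hw0⟩ := hb T hT Z hZ
    obtain ⟨s0, s1, -⟩ := P.side_props n hκ hv0 hw0
    have hnorm : ∀ u ∈ ({H, L, X, Y} : Set (Cl U)), ‖u‖ ≤ 1 := fun u hu =>
      norm_Cl_le_one ⟨(hbnd u hu).1, (hbnd u hu).2.1⟩
    refine ⟨s0, s1, fun g hg => ?_, ?_, ?_⟩
    · refine (P.norm_map_side_sub_le κ n (β g).toStarAlgHom (act β hset.mul hU g).toStarAlgHom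
        (fun i x => act_hom β hset.mul hU κ' i.1 g x) hε'.le
        (fun i => hnorm _ (hv T hT Z hZ i).1) (fun i => hnorm _ (hv T hT Z hZ i).2.1)
        (fun i => (hbnd _ (hv T hT Z hZ i).1).2.2 g hg)
        (fun i => (hbnd _ (hv T hT Z hZ i).2.1).2.2 g hg)).trans_eq ?_
      simp only [ε']
      field_simp
    · have hY' : P.iY ≠ P.iX := P.ne.symm
      have := P.side_full hκ hn hv0 hw0 (fun i => (hv T hT Z hZ i).2.2)
        (by simpa [w] using hYf) (by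
          rcases hZ with rfl | rfl
          · simpa [w, v, P.hY, hY'] using hXf
          · simpa [w, v, P.hY, hY'] using hYf)
      rwa [hI] at this
    · have := P.side_dge hκ hUc (min_le_right c₁ 1) hn (by omega) hsmall htd hv0 hw0
        (fun i => (hv T hT Z hZ i).2.2) (H := T) (by
          rcases hT with rfl | rfl
          · exact ⟨(hbnd _ (by simp)).1, (hbnd _ (by simp)).2.1⟩
          · exact ⟨(hbnd _ (by simp)).1, (hbnd _ (by simp)).2.1⟩)
        (fun i hi => by simp [v, hi])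
        (fun σ hσ => (mul_le_mul_of_nonneg_right (min_le_left c₁ 1) hσ.mass_nonneg).trans (hTτ σ hσ))
        (by simpa [v, P.hX] using hXd)
      rwa [hI] at this
  obtain ⟨a0, a1, afix, af, ad⟩ := hone H hHm (fun σ hσ => (hτ σ hσ).1) X hXm
  obtain ⟨b0, b1, bfix, bf, bd⟩ := hone L hLm (fun σ hσ => (hτ σ hσ).2) Y hYm
  refine ⟨_, _, a0, a1, b0, b1, ?_, fun g hg => ⟨afix g hg, bfix g hg⟩, af, ad, bf, bd⟩
  refine P.side_mul_side n hκ (by omega) (fun i hi => ?_) ?_ ?_ ?_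
  · simp [v, hi, hHL]
  · simp [v, w, P.hX, hXY]
  · simp [v, w, P.hX, hYX]
  · simp [v, w, P.hY, P.ne.symm, hXY]

/-- The fixed coin. -/
theorem coin_of (hW : WitnessTarget) (hGu : GuardTarget) : CoinTarget := by
  intro G _ _ F _ β S hset
  let := CStarAlgebra.spectralOrder F
  have := CStarAlgebra.spectralOrderedRing F
  obtain ⟨r, c, hr, hc, halm⟩ := exists_almost hGu hset
  obtain ⟨K, hK⟩ := hW c hc
  let idx := Fintype.equivFin (Fin 6 ⊕ (Fin K ⊕ Fin K))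
  set k := Fintype.card (Fin 6 ⊕ (Fin K ⊕ Fin K))
  let v : Fin 6 → Fin k := fun i => idx (.inl i)
  let ya : Fin K → Fin k := fun i => idx (.inr (.inl i))
  let yb : Fin K → Fin k := fun i => idx (.inr (.inr i))
  let V : Fin 6 → Term k := fun i => .var (v i)
  let rels : List (Term k) :=
    [.add (V 0) (.smul (-1) (.mul (.adj (V 2)) (V 2))),
     .add (.add .one (.smul (-1) (V 0))) (.smul (-1) (.mul (.adj (V 3)) (V 3))),
     .add (V 1) (.smul (-1) (.mul (.adj (V 4)) (V 4))),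
     .add (.add .one (.smul (-1) (V 1))) (.smul (-1) (.mul (.adj (V 5)) (V 5))),
     .mul (V 0) (V 1), Coin.fullRel (v 0) ya, Coin.fullRel (v 1) yb]
  obtain ⟨z, hz, hfix⟩ := hset.saturated k {v 0, v 1} rels (max 1 (2 / Real.sqrt r)) (fun ε hε => by
    obtain ⟨a, b, ha0, ha1, hb0, hb1, hab, hfixab, haf, hac, hbf, hbc⟩ := halm ε hε
    obtain ⟨y, hy, hy1⟩ := hK F hset.hasCopies hset.central hset.noChar a r (Coin.sqLe_iff.2 ha0) hr
      haf hac
    obtain ⟨y', hy', hy1'⟩ := hK F hset.hasCopies hset.central hset.noChar b r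
      (Coin.sqLe_iff.2 hb0) hr hbf hbc
    have hroot : ∀ z : F, 0 ≤ z → z ≤ 1 → ∃ w, z = star w * w ∧ ‖w‖ ≤ 1 := by
      intro z hz0 hz1
      obtain ⟨w, hw⟩ := CStarAlgebra.nonneg_iff_eq_star_mul_self.1 hz0
      refine ⟨w, hw, ?_⟩
      have h := (CStarAlgebra.norm_le_one_iff_of_nonneg z hz0).2 hz1
      rw [hw, CStarRing.norm_star_mul_self] at h
      nlinarith [norm_nonneg w]
    obtain ⟨wa, hwa, nwa⟩ := hroot a ha0 ha1
    obtain ⟨wa', hwa', nwa'⟩ := hroot (1 - a) (sub_nonneg.2 ha1) (sub_le_self _ ha0)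
    obtain ⟨wb, hwb, nwb⟩ := hroot b hb0 hb1
    obtain ⟨wb', hwb', nwb'⟩ := hroot (1 - b) (sub_nonneg.2 hb1) (sub_le_self _ hb0)
    have na := (CStarAlgebra.norm_le_one_iff_of_nonneg a ha0).2 ha1
    have nb := (CStarAlgebra.norm_le_one_iff_of_nonneg b hb0).2 hb1
    let x : Fin k → F := fun i =>
      Sum.elim ![a, b, wa, wa', wb, wb'] (Sum.elim y y') (idx.symm i)
    refine ⟨x, fun i => ?_, ?_, fun i hi => ?_⟩
    · obtain ⟨i, rfl⟩ := idx.surjective i
      simp only [x, Equiv.symm_apply_apply]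
      rcases i with i | i | i
      · refine le_trans ?_ (le_max_left _ _)
        fin_cases i <;> simp <;> linarith
      · exact le_trans (by simpa using hy i) (le_max_right _ _)
      · exact le_trans (by simpa using hy' i) (le_max_right _ _)
    · intro q hq
      have h0 : q.eval x = 0 := by
        simp only [rels, List.mem_cons, List.not_mem_nil, or_false] at hq
        rcases hq with rfl | rfl | rfl | rfl | rfl | rfl | rfl <;>
          simp [Term.eval, Coin.eval_fullRel, V, v, ya, yb, x, ← hwa, ← hwa', ← hwb, ← hwb', hab,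
            hy1, hy1', ← sub_eq_add_neg]
      rw [h0, norm_zero]
      exact hε.le
    · simp only [Finset.mem_insert, Finset.mem_singleton] at hi
      intro g hg
      rcases hi with rfl | rfl
      · simpa [x, v] using (hfixab g hg).1
      · simpa [x, v] using (hfixab g hg).2)
  have h1 := fun q hq => hz q hq
  simp only [rels, List.mem_cons, List.not_mem_nil, or_false, forall_eq_or_imp, forall_eq,
    Term.eval, Coin.eval_fullRel, V, neg_smul, one_smul, ← sub_eq_add_neg, sub_eq_zero] at h1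
  obtain ⟨e2, e3, e4, e5, e01, efa, efb⟩ := h1
  exact ⟨z (v 0), z (v 1), fun g => ⟨hfix _ (by simp) g, hfix _ (by simp) g⟩,
    ⟨z (v 2), by rw [sub_zero, e2]⟩, ⟨z (v 4), by rw [sub_zero, e4]⟩, ⟨z (v 3), e3⟩, ⟨z (v 5), e5⟩,
    e01, ⟨K, fun i => z (ya i), efa⟩, ⟨K, fun i => z (yb i), efb⟩⟩

end

end Vale.Agent.P095.All.Coin
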