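import Vale.Agent.P095.All.Coin.Setup
import Vale.Agent.P095.Amen.Square.Calc
import Vale.Agent.P095.Amen.Coin.Elements

/-!
# P095 coin: from traces to all states

`TraceDim` makes the event that none of `n` independent copies is high small in every state, also given other
copies. So some product of `n` high copies, chosen one after another, is large in every state.
-/

namespace Vale.Agent.P095.All.Coin

open Vale.Agent.P101.KR Vale.Agent.P095.Amen Finset

noncomputable section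

variable {F : Type} [CStarAlgebra F]

theorem commute_Cl {a b : Set F} (h : CommSets a b) {x y : F} (hx : x ∈ Cl a) (hy : y ∈ Cl b) :
    Commute x y := by
  refine (commute_of_mem_Cl (t := y) (fun x' hx' => ?_) hx).symm
  have h1 : ∀ {z : F}, z ∈ Cl b → Commute x' z := fun hz =>
    commute_of_mem_Cl (fun y' hy' => h x' hx' y' hy') hz
  refine ⟨(h1 hy).symm, ?_⟩
  have := (h1 (star_mem hy)).star_star
  rw [star_star] at this
  exact this.symm

theorem pairwise_map {ι : Type} {f : ι → F} {l : List ι} (hl : l.Nodup)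
    (hc : ∀ i ∈ l, ∀ j ∈ l, i ≠ j → Commute (f i) (f j)) : (l.map f).Pairwise Commute :=
  List.pairwise_map.2 ((List.nodup_iff_pairwise_ne.1 hl).imp_of_mem fun hi hj h => hc _ hi _ hj h)

theorem prod_perm {ι : Type} {f : ι → F} {l l' : List ι} (h : l.Perm l') (hl : l.Nodup)
    (hc : ∀ i ∈ l, ∀ j ∈ l, i ≠ j → Commute (f i) (f j)) : (l.map f).prod = (l'.map f).prod :=
  (h.map f).prod_eq' (pairwise_map hl hc)

theorem prod_factor {ι : Type} [DecidableEq ι] {f : ι → F} {l : List ι} (hl : l.Nodup) {i : ι}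
    (hi : i ∈ l) (hc : ∀ i ∈ l, ∀ j ∈ l, i ≠ j → Commute (f i) (f j)) :
    (l.map f).prod = f i * ((l.erase i).map f).prod ∧
      (l.map f).prod = ((l.erase i).map f).prod * f i := by
  have h := prod_perm (List.perm_cons_erase hi) hl hc
  rw [List.map_cons, List.prod_cons] at h
  refine ⟨h, h.trans (Commute.eq ?_)⟩
  refine Square.commute_list_prod fun x hx => ?_
  obtain ⟨j, hj, rfl⟩ := List.mem_map.1 hx
  obtain ⟨hne, hj'⟩ := hl.mem_erase_iff.1 hj
  exact hc i hi j hj' (Ne.symm hne)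

/-- Two products with a common index where the factors annihilate. -/
theorem prod_mul_prod_eq_zero {ι : Type} {f g : ι → F} {l l' : List ι} (hl : l.Nodup)
    (hl' : l'.Nodup) {i : ι} (hi : i ∈ l) (hi' : i ∈ l')
    (hc : ∀ i ∈ l, ∀ j ∈ l, i ≠ j → Commute (f i) (f j))
    (hc' : ∀ i ∈ l', ∀ j ∈ l', i ≠ j → Commute (g i) (g j)) (h : f i * g i = 0) :
    (l.map f).prod * (l'.map g).prod = 0 := by
  classical
  rw [(prod_factor hl hi hc).2, (prod_factor hl' hi' hc').1, mul_assoc, ← mul_assoc (f i), h,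
    zero_mul, mul_zero]

theorem norm_list_prod_le {l : List F} (h : ∀ x ∈ l, ‖x‖ ≤ 1) : ‖l.prod‖ ≤ 1 := by
  induction l with
  | nil => simpa using norm_pow_le_one (a := (0 : F)) (by simp) 0
  | cons x l ih =>
    rw [List.prod_cons]
    exact (norm_mul_le _ _).trans (mul_le_one₀ (h x (by simp)) (norm_nonneg _)
      (ih fun y hy => h y (List.mem_cons_of_mem _ hy)))

theorem norm_prod_sub_le {ι : Type} (f g : ι → F) {ε : ℝ} : ∀ l : List ι,
    (∀ i ∈ l, ‖f i‖ ≤ 1 ∧ ‖g i‖ ≤ 1 ∧ ‖f i - g i‖ ≤ ε) →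
    ‖(l.map f).prod - (l.map g).prod‖ ≤ l.length * ε
  | [], _ => by simp
  | i :: l, h => by
    obtain ⟨h1, h2, h3⟩ := h i (by simp)
    have ih := norm_prod_sub_le f g l fun j hj => h j (List.mem_cons_of_mem _ hj)
    simp only [List.map_cons, List.prod_cons, List.length_cons, Nat.cast_succ]
    rw [show ∀ a b c d : F, a * b - c * d = (a - c) * b + c * (b - d) from fun a b c d => by noncomm_ring]
    refine (norm_add_le _ _).trans ((add_le_add (norm_mul_le _ _) (norm_mul_le _ _)).trans ?_)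
    have hb : ‖(l.map f).prod‖ ≤ 1 := norm_list_prod_le fun x hx => by
      obtain ⟨j, hj, rfl⟩ := List.mem_map.1 hx
      exact (h j (List.mem_cons_of_mem _ hj)).1
    have e1 : ‖f i - g i‖ * ‖(l.map f).prod‖ ≤ ε * 1 :=
      mul_le_mul h3 hb (norm_nonneg _) ((norm_nonneg _).trans h3)
    have e2 : ‖g i‖ * ‖(l.map f).prod - (l.map g).prod‖ ≤ 1 * (l.length * ε) :=
      mul_le_mul h2 ih (norm_nonneg _) zero_le_one
    linarith

theorem commute_prod_prod {ι : Type} {f g : ι → F} {l l' : List ι}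
    (h : ∀ i ∈ l, ∀ j ∈ l', Commute (f i) (g j)) : Commute (l.map f).prod (l'.map g).prod :=
  Square.commute_list_prod fun _ hy => by
    obtain ⟨j, hj, rfl⟩ := List.mem_map.1 hy
    exact (Square.commute_list_prod fun _ hx => by
      obtain ⟨i, hi, rfl⟩ := List.mem_map.1 hx
      exact (h i hi j hj).symm).symm

variable [PartialOrder F] [StarOrderedRing F]

theorem one_sub_prod_le : ∀ {l : List F}, (∀ x ∈ l, 0 ≤ x ∧ x ≤ 1) → l.Pairwise Commute →
    (1 : F) ≤ (l.map fun x => 1 - x).prod + l.sum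
  | [], _, _ => by simp
  | x :: l, h, hp => by
    rw [List.pairwise_cons] at hp
    obtain ⟨hx0, hx1⟩ := h x (by simp)
    have hl : ∀ y ∈ l, 0 ≤ y ∧ y ≤ 1 := fun y hy => h y (List.mem_cons_of_mem _ hy)
    have ih := one_sub_prod_le hl hp.2
    have hP1 : (l.map fun x => 1 - x).prod ≤ 1 := Square.list_prod_le_one (fun y hy => by
      obtain ⟨z, hz, rfl⟩ := List.mem_map.1 hy
      exact ⟨sub_nonneg.2 (hl z hz).2, sub_le_self _ (hl z hz).1⟩)
      (List.pairwise_map.2 (hp.2.imp fun h =>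
        ((Commute.one_left _).sub_left ((Commute.one_right _).sub_right h))))
    have hc : Commute x (1 - (l.map fun x => 1 - x).prod) :=
      (Commute.one_right x).sub_right (Square.commute_list_prod fun y hy => by
        obtain ⟨z, hz, rfl⟩ := List.mem_map.1 hy
        exact (Commute.one_right x).sub_right (hp.1 z hz))
    have h1 : 0 ≤ x * (1 - (l.map fun x => 1 - x).prod) := hc.mul_nonneg hx0 (sub_nonneg.2 hP1)
    simp only [List.map_cons, List.prod_cons, List.sum_cons]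
    rw [← sub_nonneg] at ih ⊢
    refine le_of_le_of_eq (add_nonneg ih h1) ?_
    rw [mul_sub, sub_mul, mul_one, one_mul]
    abel

theorem lower_mul {p a q b : F} {r s : ℝ} (hr : 0 ≤ r) (hp0 : 0 ≤ p) (hq0 : 0 ≤ q) (hb0 : 0 ≤ b)
    (hp : r • p ≤ p * a) (hq : s • q ≤ q * b) (hpq : Commute p q) (hpb : Commute p b)
    (haq : Commute a q) (hab : Commute a b) (hqb : Commute q b) :
    (r * s) • (p * q) ≤ (p * q) * (a * b) := by
  have h1 : 0 ≤ (p * a - r • p) * (q * b) :=
    (((hpq.mul_right hpb).mul_left (haq.mul_right hab)).sub_left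
      ((hpq.mul_right hpb).smul_left r)).mul_nonneg (sub_nonneg.2 hp) (hqb.mul_nonneg hq0 hb0)
  have h2 : 0 ≤ (r • p) * (q * b - s • q) :=
    (((hpq.mul_right hpb).sub_right (hpq.smul_right s)).smul_left r).mul_nonneg (smul_nonneg hr hp0)
      (sub_nonneg.2 hq)
  rw [← sub_nonneg]
  refine le_of_le_of_eq (add_nonneg h1 h2) ?_
  rw [sub_mul, mul_sub, smul_mul_assoc, smul_mul_assoc, mul_smul_comm, smul_smul,
    show p * a * (q * b) = p * q * (a * b) by
      rw [mul_assoc, ← mul_assoc a, haq.eq]; simp only [mul_assoc]]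
  abel

theorem lower_prod {ι : Type} {p a : ι → F} {r : ι → ℝ} (hr : ∀ i, 0 ≤ r i) (hp : ∀ i, 0 ≤ p i)
    (ha : ∀ i, 0 ≤ a i) (h : ∀ i, r i • p i ≤ p i * a i)
    (hc : ∀ i j, i ≠ j → Commute (p i) (p j) ∧ Commute (p i) (a j) ∧ Commute (a i) (a j))
    (hpa : ∀ i, Commute (p i) (a i)) :
    ∀ l : List ι, l.Nodup → (l.map r).prod • (l.map p).prod ≤ (l.map p).prod * (l.map a).prod
  | [], _ => by simp
  | i :: l, hl => by
    rw [List.nodup_cons] at hl
    have hne : ∀ j ∈ l, i ≠ j := fun j hj e => hl.1 (e ▸ hj)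
    have hcl : ∀ (f g : ι → F), (∀ j ∈ l, Commute (f i) (g j)) → Commute (f i) (l.map g).prod :=
      fun f g hfg => Square.commute_list_prod fun x hx => by
        obtain ⟨j, hj, rfl⟩ := List.mem_map.1 hx
        exact hfg j hj
    simp only [List.map_cons, List.prod_cons]
    refine lower_mul (hr i) (hp i)
      (Square.list_prod_nonneg (fun x hx => by
        obtain ⟨j, -, rfl⟩ := List.mem_map.1 hx; exact hp j)
        (pairwise_map hl.2 fun x _ y _ hxy => (hc x y hxy).1))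
      (Square.list_prod_nonneg (fun x hx => by
        obtain ⟨j, -, rfl⟩ := List.mem_map.1 hx; exact ha j)
        (pairwise_map hl.2 fun x _ y _ hxy => (hc x y hxy).2.2))
      (h i) (lower_prod hr hp ha h hc hpa l hl.2)
      (hcl p p fun j hj => (hc i j (hne j hj)).1) (hcl p a fun j hj => (hc i j (hne j hj)).2.1)
      (hcl a p fun j hj => (hc j i (hne j hj).symm).2.1.symm)
      (hcl a a fun j hj => (hc i j (hne j hj)).2.2) (commute_prod_prod fun x _ y _ => ?_)
    rcases eq_or_ne x y with rfl | hxy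
    · exact hpa x
    · exact (hc x y hxy).2.1

/-- A positive contraction on which `a` is bounded below is below a cut of `a`. -/
theorem le_cut_of_lower {p a : F} {r : ℝ} (hr : 0 < r) (hp0 : 0 ≤ p) (hp1 : p ≤ 1) (ha : 0 ≤ a)
    (hc : Commute p a) (h : r • p ≤ p * a) : p ≤ (2 / r) • cut (r / 2) a := by
  have has := IsSelfAdjoint.of_nonneg ha
  have hcc : Commute p (cut (r / 2) a) := (hc.symm.cfc_real _).symm
  have h1 : p * cut (r / 2) a ≤ cut (r / 2) a := Square.commute_mul_le (Coin.cut_nonneg' _ _) hp1 hcc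
  have h2 : 0 ≤ p * (cut (r / 2) a + (r / 2) • (1 : F) - a) :=
    ((hcc.add_right ((Commute.one_right p).smul_right _)).sub_right hc).mul_nonneg hp0
      (sub_nonneg.2 (Coin.le_cut_add has _))
  rw [mul_sub, mul_add, mul_smul_comm, mul_one, sub_nonneg] at h2
  have h3 : (r / 2) • p ≤ cut (r / 2) a := by
    have h4 := (h.trans h2).trans (add_le_add h1 le_rfl)
    rw [show r • p = (r / 2) • p + (r / 2) • p by module] at h4
    exact le_of_add_le_add_right h4
  have h5 := smul_le_smul_of_nonneg_left h3 (show (0 : ℝ) ≤ 2 / r by positivity)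
  rwa [smul_smul, div_mul_div_comm, mul_comm r 2, div_self (by positivity), one_smul] at h5

/-- The trace of the absence of a high copy. -/
theorem trace_prod_le {B A ι : Type} [CStarAlgebra B] [CStarAlgebra A] [PartialOrder B]
    [StarOrderedRing B] [PartialOrder A] [StarOrderedRing A] (φ : ι → B →⋆ₐ[ℂ] A)
    (hφ : ∀ i j, i ≠ j → ∀ x y, Commute (φ i x) (φ j y)) {h : B} (h0 : 0 ≤ h) (h1 : h ≤ 1) {c : ℝ}
    (hc1 : c ≤ 1) (hc : ∀ σ : B →ₗ[ℂ] ℂ, PosTr σ → c * (σ 1).re ≤ (σ h).re) {τ : A →ₗ[ℂ] ℂ}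
    (hτ : PosTr τ) : ∀ l : List ι, l.Nodup →
      (τ ((l.map fun i => 1 - φ i h).prod)).re ≤ (1 - c) ^ l.length * (τ 1).re
  | [], _ => by simp
  | i :: l, hl => by
    rw [List.nodup_cons] at hl
    have hle : ∀ j, 0 ≤ 1 - φ j h := fun j => sub_nonneg.2 (by
      rw [← map_one (φ j)]; exact OrderHomClass.mono (φ j) h1)
    set P := (l.map fun j => 1 - φ j h).prod
    have hP0 : 0 ≤ P := Square.list_prod_nonneg (fun x hx => by
        obtain ⟨j, -, rfl⟩ := List.mem_map.1 hx; exact hle j)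
      (pairwise_map hl.2 fun x _ y _ hxy =>
        (Commute.one_left _).sub_left ((Commute.one_right _).sub_right (hφ x y hxy h h)))
    have hcP : ∀ b, Commute (φ i b) P := fun b => Square.commute_list_prod fun x hx => by
      obtain ⟨j, hj, rfl⟩ := List.mem_map.1 hx
      exact (Commute.one_right _).sub_right (hφ i j (fun e => hl.1 (e ▸ hj)) b h)
    set r := cfc Real.sqrt P
    have hr : IsSelfAdjoint r := cfc_predicate _ _
    have hrr : r * r = P := by
      rw [← cfc_mul Real.sqrt Real.sqrt P Real.continuous_sqrt.continuousOn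
        Real.continuous_sqrt.continuousOn]
      exact (cfc_congr fun x hx => Real.mul_self_sqrt (spectrum_nonneg_of_nonneg hP0 hx)).trans
        (cfc_id' ℝ P (IsSelfAdjoint.of_nonneg hP0))
    have hσ := hτ.weight (φ i) (r := r) (fun b => ((hcP b).symm.cfc_real _).symm) hr
    have h2 := hc _ hσ
    simp only [LinearMap.comp_apply, AlgHom.toLinearMap_apply, LinearMap.mulRight_apply, hrr] at h2
    change c * (τ (φ i 1 * P)).re ≤ (τ (φ i h * P)).re at h2
    rw [map_one, one_mul] at h2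
    have ih := trace_prod_le φ hφ h0 h1 hc1 hc hτ l hl.2
    simp only [List.map_cons, List.prod_cons, List.length_cons, pow_succ]
    rw [sub_mul, one_mul, map_sub, Complex.sub_re]
    have h3 : (1 - c) * (τ P).re ≤ (1 - c) * ((1 - c) ^ l.length * (τ 1).re) :=
      mul_le_mul_of_nonneg_left ih (sub_nonneg.2 hc1)
    linarith

omit [PartialOrder F] [StarOrderedRing F] in
theorem nonneg_of_sq {A : Type} [CStarAlgebra A] [PartialOrder A] [StarOrderedRing A] {x w : A}
    (h : x = star w * w) : 0 ≤ x := h ▸ star_mul_self_nonneg w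

omit [PartialOrder F] [StarOrderedRing F] in
theorem le_one_of_sq {A : Type} [CStarAlgebra A] [PartialOrder A] [StarOrderedRing A] {x w : A}
    (h : 1 - x = star w * w) : x ≤ 1 := sub_nonneg.1 (nonneg_of_sq h)

/-- A positive element of a closed subalgebra is a square there. -/
theorem exists_sq_Cl {U : Set F} {x : Cl U} (hx : 0 ≤ (x : F)) : ∃ w : Cl U, x = star w * w := by
  obtain ⟨-, w, hw, e⟩ := Coin.posIn_of_nonneg (isClosed_Cl U) x.2 hx
  exact ⟨⟨w, hw⟩, Subtype.ext e⟩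

variable {U : Set F} {ι : Type} (κ : ι → Cl U →⋆ₐ[ℂ] F)

/-- The generators of one copy. -/
def img (i : ι) : Set F := κ i '' (Subtype.val ⁻¹' U)

omit [PartialOrder F] [StarOrderedRing F] in
theorem img_countable (hU : U.Countable) (i : ι) : (img κ i).Countable :=
  (hU.preimage Subtype.coe_injective).image _

omit [PartialOrder F] [StarOrderedRing F] in
theorem mem_img (i : ι) (x : Cl U) : κ i x ∈ Cl (img κ i) := hom_mem_Cl (κ i) x

variable {κ} (hκ : ∀ i j, i ≠ j → ∀ x y, Commute (κ i x) (κ j y))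

include hκ

omit [PartialOrder F] [StarOrderedRing F] in
theorem commSets_img {I J : Set ι} (h : Disjoint I J) :
    CommSets (⋃ i ∈ I, img κ i) (⋃ j ∈ J, img κ j) := by
  intro x hx y hy
  obtain ⟨i, hi, a, -, rfl⟩ := Set.mem_iUnion₂.1 hx
  obtain ⟨j, hj, b, -, rfl⟩ := Set.mem_iUnion₂.1 hy
  have hne : i ≠ j := fun e => h.le_bot ⟨hi, e ▸ hj⟩
  exact ⟨hκ i j hne a b, by rw [← map_star]; exact hκ i j hne a _⟩

/-- For one group of copies, a bigger algebra in which the absence of a high copy is small. -/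
theorem exists_group [Fintype ι] (hU : U.Countable) {C : ℝ}
    (htd : ∀ (s : Set F), s.Countable → ∀ (z : Cl s), SqLe 0 (z : F) → SqLe (z : F) 1 →
      ∀ ε : ℝ, 0 ≤ ε → (∀ τ : Cl s →ₗ[ℂ] ℂ, IsTrace (Cl s) τ → (τ z).re ≤ ε) →
      ∀ t : Set F, t.Countable → CommSets s t →
        ∃ q : Set F, q.Countable ∧ s ⊆ q ∧ CommSets q t ∧ PosIn (Cl q) (cut (1 / 2) (z : F)) ∧
          ∀ d : Dim (Cl q), d.d (cut (1 / 2) (z : F)) ≤ C * ε)
    {H : Cl U} (hH0 : 0 ≤ (H : F)) (hH1 : (H : F) ≤ 1) {c : ℝ} (hc1 : c ≤ 1)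
    (hc : ∀ σ : Cl U →ₗ[ℂ] ℂ, PosTr σ → c * (σ 1).re ≤ (σ H).re) (K : Finset ι) {n : ℕ}
    (hn : K.card = n) (hsmall : C * (1 - c) ^ n ≤ 1 / 2) :
    ∃ (q : Set F) (z : F), q.Countable ∧ CommSets q (⋃ j ∈ ((K : Set ι)ᶜ), img κ j) ∧
      (∀ i ∈ K, img κ i ⊆ q) ∧ z ∈ Cl q ∧ 0 ≤ z ∧
      (1 : F) ≤ z + ∑ i ∈ K, κ i H ∧ ∀ d : Dim (Cl q), d.d (cut (1 / 2) z) ≤ 1 / 2 := by
  classical
  set sK : Set F := ⋃ i ∈ (K : Set ι), img κ i
  have hsK : sK.Countable := Set.Countable.biUnion K.countable_toSet fun i _ => img_countable κ hU i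
  let := CStarAlgebra.spectralOrder (Cl U)
  have := CStarAlgebra.spectralOrderedRing (Cl U)
  let := CStarAlgebra.spectralOrder (Cl sK)
  have := CStarAlgebra.spectralOrderedRing (Cl sK)
  have hmem : ∀ i ∈ K, ∀ x, κ i x ∈ Cl sK := fun i hi x =>
    Cl_mono (Set.subset_biUnion_of_mem (u := fun i => img κ i) (mem_coe.2 hi)) (mem_img κ i x)
  let φ : K → Cl U →⋆ₐ[ℂ] Cl sK := fun i => (κ i).codRestrict _ (hmem i i.2)
  have hφ : ∀ i j : K, i ≠ j → ∀ x y, Commute (φ i x) (φ j y) := fun i j hij x y =>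
    Subtype.ext (hκ i j (fun e => hij (Subtype.ext e)) x y)
  set l : List K := (univ : Finset K).toList
  have hl : l.Nodup := nodup_toList _
  set z : Cl sK := (l.map fun i => 1 - φ i H).prod
  have hz : (z : F) = ((l.map fun i : K => κ (i : ι) H).map fun x => 1 - x).prod := by
    rw [show (z : F) = (Cl sK).subtype z from rfl, map_list_prod, List.map_map, List.map_map]
    rfl
  have h01 : ∀ i, 0 ≤ κ i H ∧ κ i H ≤ 1 := fun i => by
    refine ⟨by simpa using Coin.hom_mono (κ i) (x := (0 : Cl U)) (y := H) hH0, ?_⟩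
    simpa using Coin.hom_mono (κ i) (x := H) (y := (1 : Cl U)) hH1
  have hlist : ∀ x ∈ l.map fun i : K => κ (i : ι) H, 0 ≤ x ∧ x ≤ 1 := fun x hx => by
    obtain ⟨i, -, rfl⟩ := List.mem_map.1 hx
    exact h01 i
  have hpw : (l.map fun i : K => κ (i : ι) H).Pairwise Commute :=
    pairwise_map hl fun i _ j _ hij => hκ i j (fun e => hij (Subtype.ext e)) H H
  have hlist' : ∀ x ∈ (l.map fun i : K => κ (i : ι) H).map fun x => 1 - x, 0 ≤ x ∧ x ≤ 1 := fun x hx => by
    obtain ⟨y, hy, rfl⟩ := List.mem_map.1 hx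
    exact ⟨sub_nonneg.2 (hlist y hy).2, sub_le_self _ (hlist y hy).1⟩
  have hpw' : ((l.map fun i : K => κ (i : ι) H).map fun x => 1 - x).Pairwise Commute :=
    List.pairwise_map.2 (hpw.imp fun h =>
      (Commute.one_left _).sub_left ((Commute.one_right _).sub_right h))
  have hz0 : 0 ≤ (z : F) := hz ▸ Square.list_prod_nonneg (fun x hx => (hlist' x hx).1) hpw'
  have hz1 : (z : F) ≤ 1 := hz ▸ Square.list_prod_le_one hlist' hpw'
  have hlen : l.length = n := by rw [length_toList, card_univ, Fintype.card_coe, hn]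
  obtain ⟨w₀, hw₀⟩ := exists_sq_Cl (x := H) hH0
  obtain ⟨w₁, hw₁⟩ := exists_sq_Cl (x := 1 - H) (sub_nonneg.2 hH1)
  obtain ⟨q, hqc, hsq, hqt, -, hqd⟩ := htd sK hsK z (Coin.sqLe_iff.2 hz0) (Coin.sqLe_iff.2 hz1)
    ((1 - c) ^ n) (pow_nonneg (by linarith) n) (fun τ hτ => by
      obtain ⟨hτp, hτ1⟩ := posTr_of_isTrace hτ
      have := trace_prod_le φ hφ (nonneg_of_sq hw₀)
        (le_one_of_sq hw₁) hc1 hc hτp l hl
      rwa [hlen, hτ1, mul_one] at this)
    (⋃ j ∈ ((K : Set ι)ᶜ), img κ j) (Set.countable_iUnion fun j => Set.countable_iUnion fun _ =>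
      img_countable κ hU j) (commSets_img hκ disjoint_compl_right)
  refine ⟨q, z, hqc, hqt, fun i hi => (Set.subset_biUnion_of_mem (u := fun i => img κ i)
    (mem_coe.2 hi)).trans hsq, Cl_mono hsq z.2, hz0, ?_, fun d => (hqd d).trans hsmall⟩
  refine (one_sub_prod_le hlist hpw).trans_eq ?_
  rw [← hz]
  congr 1
  rw [← List.sum_toFinset _ hl]
  simp only [l, toList_toFinset]
  exact (Finset.sum_coe_sort K fun i => κ i H)

/-- A product of copies on one side of all groups. -/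
theorem prod_props {u : ι → Cl U} (hu : ∀ i, 0 ≤ (u i : F)) (hu1 : ∀ i, (u i : F) ≤ 1) {l : List ι}
    (hl : l.Nodup) {J : Set ι} (hJ : ∀ i ∈ l, i ∈ J) :
    0 ≤ (l.map fun i => κ i (u i)).prod ∧ (l.map fun i => κ i (u i)).prod ≤ 1 ∧
      (l.map fun i => κ i (u i)).prod ∈ Cl (⋃ i ∈ J, img κ i) := by
  have h01 : ∀ x ∈ l.map fun i => κ i (u i), 0 ≤ x ∧ x ≤ 1 := fun x hx => by
    obtain ⟨i, -, rfl⟩ := List.mem_map.1 hx
    refine ⟨by simpa using Coin.hom_mono (κ i) (x := (0 : Cl U)) (y := u i) (hu i), ?_⟩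
    simpa using Coin.hom_mono (κ i) (x := u i) (y := (1 : Cl U)) (hu1 i)
  have hpw := pairwise_map (f := fun i => κ i (u i)) hl fun i _ j _ hij => hκ i j hij _ _
  refine ⟨Square.list_prod_nonneg (fun x hx => (h01 x hx).1) hpw, Square.list_prod_le_one h01 hpw,
    Square.list_prod_mem fun x hx => ?_⟩
  obtain ⟨i, hi, rfl⟩ := List.mem_map.1 hx
  exact Cl_mono (Set.subset_biUnion_of_mem (u := fun i => img κ i) (hJ i hi)) (mem_img κ i _)

/-- One more high copy. -/
theorem select_step {H : Cl U} (hH0 : 0 ≤ (H : F)) {Q q : Set F}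
    (hQ : ∀ i, img κ i ⊆ Q) (hqQ : q ⊆ Q) {K : Finset ι} {n : ℕ} (hn : K.card = n) (hn0 : 0 < n)
    (hqt : CommSets q (⋃ j ∈ ((K : Set ι)ᶜ), img κ j)) (hKq : ∀ i ∈ K, img κ i ⊆ q) {z : F}
    (hzq : z ∈ Cl q) (hz0 : 0 ≤ z) (hcover : (1 : F) ≤ z + ∑ i ∈ K, κ i H)
    (hzd : ∀ d : Dim (Cl q), d.d (cut (1 / 2) z) ≤ 1 / 2) {u : ι → Cl U}
    (hu : ∀ i, 0 ≤ (u i : F)) (hu1 : ∀ i, (u i : F) ≤ 1)
    (hhigh : ∀ i ∈ K, (u i : F) = cut (1 / (4 * n)) (H : F)) {l : List ι} (hl : l.Nodup)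
    (hlK : ∀ i ∈ l, i ∉ K) (d : Dim (Cl Q)) :
    ∃ i ∈ K, 1 / (2 * n) * d.d (l.map fun j => κ j (u j)).prod ≤
      d.d ((i :: l).map fun j => κ j (u j)).prod := by
  classical
  set w := (l.map fun j => κ j (u j)).prod
  obtain ⟨hw0, hw1, hwt⟩ := prod_props hκ hu hu1 hl (J := ((K : Set ι)ᶜ))
    (fun i hi => by simpa using hlK i hi)
  have hwQ : w ∈ Cl Q := Cl_le (isClosed_Cl Q)
    ((Set.iUnion₂_subset fun i _ => hQ i).trans (subset_Cl Q)) hwt
  have hcw : ∀ {x : F}, x ∈ Cl q → Commute x w := fun hx => commute_Cl hqt hx hwt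
  set ρ : ℝ := 1 / (4 * n)
  have hρn : (K.card : ℝ) * ρ = 1 / 4 := by rw [hn]; simp only [ρ]; field_simp
  set h : ι → F := fun i => κ i (u i)
  have hhcut : ∀ i ∈ K, h i = cut ρ (κ i H) := fun i hi => by
    let := CStarAlgebra.spectralOrder (Cl U)
    have := CStarAlgebra.spectralOrderedRing (Cl U)
    obtain ⟨w₀, hw₀⟩ := exists_sq_Cl (x := H) hH0
    have e : u i = cut ρ H := Subtype.ext ((hhigh i hi).trans
      (Coin.map_cut (Cl U).subtype ρ (nonneg_of_sq hw₀)).symm)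
    simp only [h, e]
    exact Coin.map_cut (κ i) ρ (nonneg_of_sq hw₀)
  have hκH : ∀ i, 0 ≤ κ i H := fun i => by
    simpa using Coin.hom_mono (κ i) (x := (0 : Cl U)) (y := H) hH0
  set M := cut (1 / 2) z + ∑ i ∈ K, h i with hM
  have hquarter : (1 / 4 : ℝ) • (1 : F) ≤ M := by
    have h1 : (1 : F) ≤ M + (3 / 4 : ℝ) • (1 : F) := by
      refine hcover.trans ((add_le_add (Coin.le_cut_add (IsSelfAdjoint.of_nonneg hz0) (1 / 2))
        (sum_le_sum fun i hi => (Coin.le_cut_add (IsSelfAdjoint.of_nonneg (hκH i)) ρ).trans_eq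
          (by rw [← hhcut i hi]))).trans_eq ?_)
      rw [sum_add_distrib, sum_const, ← Nat.cast_smul_eq_nsmul ℝ, smul_smul, hρn, hM]
      module
    rw [show (1 / 4 : ℝ) • (1 : F) = 1 - (3 / 4 : ℝ) • (1 : F) by module]
    exact sub_le_iff_le_add.2 h1
  have hhq : ∀ i ∈ K, h i ∈ Cl q := fun i hi => Cl_mono (hKq i hi) (mem_img κ i _)
  have hzc : cut (1 / 2) z ∈ Cl q := Coin.cut_mem (isClosed_Cl q) hzq _
  have hMq : M ∈ Cl q := add_mem hzc (sum_mem hhq)
  have hMw : (1 / 4 : ℝ) • w ≤ M * w := by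
    have := ((hcw hMq).sub_left ((Commute.one_left w).smul_left (1 / 4 : ℝ))).mul_nonneg
      (sub_nonneg.2 hquarter) hw0
    rwa [sub_mul, smul_mul_assoc, one_mul, sub_nonneg] at this
  have hh0 : ∀ i, 0 ≤ h i := fun i => by
    simpa using Coin.hom_mono (κ i) (x := (0 : Cl U)) (y := u i) (hu i)
  let v : Option K → F := fun o => o.elim (cut (1 / 2) z * w) fun i => h i * w
  have hv0 : ∀ o, 0 ≤ v o := fun o => by
    cases o
    · exact (hcw hzc).mul_nonneg (Coin.cut_nonneg' _ _) hw0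
    · exact (hcw (hhq _ (Subtype.prop _))).mul_nonneg (hh0 _) hw0
  have hvQ : ∀ o, v o ∈ Cl Q := fun o => by
    cases o
    · exact mul_mem (Cl_mono hqQ hzc) hwQ
    · exact mul_mem (Cl_mono hqQ (hhq _ (Subtype.prop _))) hwQ
  let e := (Fintype.equivFin (Option K)).symm
  have h22 : (2 : ℝ) * 2 = 4 := by norm_num
  have key : d.d w ≤ ∑ o, d.d (v o) := by
    rw [← e.sum_comp fun o => d.d (v o)]
    refine Square.dim_le_of_le d hw0 hwQ (v ∘ e) (fun _ => (2 : ℝ) • (1 : F)) (fun o => hv0 _)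
      (fun o => hvQ _) (fun _ => Coin.smul_mem' (one_mem _) 2) ?_
    simp only [Coin.star_smul_conj, star_one, one_mul, mul_one, h22]
    rw [← smul_sum, Function.comp_def, e.sum_comp, Fintype.sum_option]
    simp only [v, Option.elim]
    rw [Finset.sum_coe_sort K fun i => h i * w, ← sum_mul, ← add_mul]
    refine le_trans (le_of_eq ?_) (smul_le_smul_of_nonneg_left hMw (by norm_num : (0 : ℝ) ≤ 4))
    rw [smul_smul]
    norm_num
    rfl
  have hz2 : d.d (cut (1 / 2) z * w) ≤ 1 / 2 * d.d w :=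
    (Square.dim_hom_mul d (Cl q).subtype (fun x => Cl_mono hqQ x.2) (u := ⟨_, hzc⟩)
      (Coin.cut_nonneg' _ _) (Coin.cut_nonneg' _ _) hw0 hwQ (fun x => hcw x.2) le_rfl
      fun d' => ⟨d'.nonneg (Square.posIn hzc (Coin.cut_nonneg' _ _)), hzd d'⟩).2
  rw [Fintype.sum_option] at key
  simp only [v, Option.elim] at key
  rw [Finset.sum_coe_sort K fun i => d.d (h i * w)] at key
  obtain ⟨i, hi, hmax⟩ := K.exists_max_image (fun i => d.d (h i * w))
    (card_pos.1 (by rw [hn]; exact hn0))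
  refine ⟨i, hi, ?_⟩
  simp only [List.map_cons, List.prod_cons]
  show _ ≤ d.d (h i * w)
  have hsum : ∑ j ∈ K, d.d (h j * w) ≤ n * d.d (h i * w) :=
    (sum_le_card_nsmul _ _ _ hmax).trans_eq (by rw [nsmul_eq_mul, hn])
  rw [one_div_mul_eq_div, div_le_iff₀ (by positivity)]
  linarith

/-- `n` high copies chosen one after another. -/
theorem exists_select {H : Cl U} (hH0 : 0 ≤ (H : F)) {Q : Set F} (hQ : ∀ i, img κ i ⊆ Q)
    {I : Finset ι} {n : ℕ} (hn0 : 0 < n) (hIn : 2 * n ≤ I.card + 1)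
    (hgroup : ∀ K ⊆ I, K.card = n → ∃ (q : Set F) (z : F), q ⊆ Q ∧
      CommSets q (⋃ j ∈ ((K : Set ι)ᶜ), img κ j) ∧ (∀ i ∈ K, img κ i ⊆ q) ∧ z ∈ Cl q ∧ 0 ≤ z ∧
      (1 : F) ≤ z + ∑ i ∈ K, κ i H ∧ ∀ d : Dim (Cl q), d.d (cut (1 / 2) z) ≤ 1 / 2)
    {u : ι → Cl U} (hu : ∀ i, 0 ≤ (u i : F)) (hu1 : ∀ i, (u i : F) ≤ 1)
    (hhigh : ∀ i ∈ I, (u i : F) = cut (1 / (4 * n)) (H : F)) {l₀ : List ι} (hl₀ : l₀.Nodup)
    (hlI : ∀ i ∈ l₀, i ∉ I) (d : Dim (Cl Q)) :
    ∀ k ≤ n, ∃ l : List ι, (l ++ l₀).Nodup ∧ l.length = k ∧ (∀ i ∈ l, i ∈ I) ∧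
      (1 / (2 * (n : ℝ))) ^ k * d.d (l₀.map fun j => κ j (u j)).prod ≤
        d.d ((l ++ l₀).map fun j => κ j (u j)).prod := by
  classical
  intro k hk
  induction k with
  | zero => exact ⟨[], by simpa using hl₀, rfl, by simp, by simp⟩
  | succ k ih =>
    obtain ⟨l, hlnd, hlen, hlsub, hle⟩ := ih (by omega)
    have hcard : n ≤ (I \ l.toFinset).card := by
      have h1 : l.toFinset.card ≤ k := hlen ▸ List.toFinset_card_le l
      have h2 := le_card_sdiff l.toFinset I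
      omega
    obtain ⟨K, hK, hKn⟩ := exists_subset_card_eq hcard
    obtain ⟨q, z, hqQ, hqt, hKq, hzq, hz0, hcover, hzd⟩ := hgroup K (hK.trans sdiff_subset) hKn
    obtain ⟨i, hi, hd⟩ := select_step hκ hH0 hQ hqQ hKn hn0 hqt hKq hzq hz0 hcover hzd hu hu1
      (fun i hi => hhigh i (sdiff_subset (hK hi))) hlnd
      (fun j hj hjK => by
        rcases List.mem_append.1 hj with h | h
        · exact (Finset.mem_sdiff.1 (hK hjK)).2 (List.mem_toFinset.2 h)
        · exact hlI j h (sdiff_subset (hK hjK))) d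
    refine ⟨i :: l, ?_, by simp [hlen], ?_, ?_⟩
    · rw [List.cons_append, List.nodup_cons]
      refine ⟨fun h => ?_, hlnd⟩
      rcases List.mem_append.1 h with h | h
      · exact (Finset.mem_sdiff.1 (hK hi)).2 (List.mem_toFinset.2 h)
      · exact hlI i h (sdiff_subset (hK hi))
    · intro j hj
      rcases List.mem_cons.1 hj with rfl | hj
      · exact sdiff_subset (hK hi)
      · exact hlsub j hj
    · rw [List.cons_append]
      refine le_trans ?_ hd
      rw [pow_succ, mul_comm ((1 / (2 * (n : ℝ))) ^ k), mul_assoc]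
      exact mul_le_mul_of_nonneg_left hle (by positivity)

end

end Vale.Agent.P095.All.Coin
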