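import Vale.Agent.P095.All.Coin.Majority

/-!
# P095 coin: one side of the majority element

The average of all products of `n` coin copies of `H` and a copy of `X`, and of one product of a
copy of `Y` and a copy of `Z`: large in every state by selection, full by the last product.
-/

namespace Vale.Agent.P095.All.Coin

open Vale.Agent.P101.KR Vale.Agent.P095.Amen Finset

noncomputable section

variable {F : Type} [CStarAlgebra F]

/-- The places of one side. -/
structure Places (ι : Type) where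
  /-- The coin copies. -/
  I : Finset ι
  /-- The copy of the large element. -/
  iX : ι
  /-- The further copy. -/
  iY : ι
  hX : iX ∉ I
  hY : iY ∉ I
  ne : iX ≠ iY

namespace Places

variable {ι : Type} (P : Places ι) {U : Set F} (κ : ι → Cl U →⋆ₐ[ℂ] F) (n : ℕ)

/-- The products. -/
def side (v w : ι → Cl U) : F :=
  (((P.I.powersetCard n).card : ℝ) + 1)⁻¹ •
    (∑ K ∈ P.I.powersetCard n, ((K.toList ++ [P.iX]).map fun i => κ i (v i)).prod +
      ([P.iX, P.iY].map fun i => κ i (w i)).prod)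

theorem nodup_head {K : Finset ι} (hK : K ⊆ P.I) : (K.toList ++ [P.iX]).Nodup :=
  List.nodup_append.2 ⟨nodup_toList _, List.nodup_singleton _, fun i hi j hj e => P.hX (by
    rw [List.mem_singleton] at hj
    exact hK (by rw [← hj, ← e]; exact mem_toList.1 hi))⟩

theorem nodup_pair : [P.iX, P.iY].Nodup := by simp [P.ne]


section

variable {κ} (hκ : ∀ i j, i ≠ j → ∀ x y, Commute (κ i x) (κ j y))

include hκ

/-- Two sides annihilate. -/
theorem side_mul_side (hn : P.I.card < 2 * n) {v w v' w' : ι → Cl U}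
    (hI : ∀ i ∈ P.I, v i * v' i = 0) (h1 : v P.iX * w' P.iX = 0) (h2 : w P.iX * v' P.iX = 0)
    (h3 : w P.iY * w' P.iY = 0) : P.side κ n v w * P.side κ n v' w' = 0 := by
  classical
  have hc : ∀ (f : ι → Cl U) (l : List ι), ∀ i ∈ l, ∀ j ∈ l, i ≠ j →
      Commute (κ i (f i)) (κ j (f j)) := fun f _ i _ j _ h => hκ i j h _ _
  have hz : ∀ (i : ι) {x y : Cl U}, x * y = 0 → κ i x * κ i y = 0 := fun i x y h => by
    rw [← map_mul, h, map_zero]
  rw [side, side, smul_mul_assoc, mul_smul_comm]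
  refine smul_eq_zero_of_right _ (smul_eq_zero_of_right _ ?_)
  rw [add_mul, mul_add, mul_add, sum_mul_sum, mul_sum, sum_mul]
  have e : ∀ {a b c d : F}, a = 0 → b = 0 → c = 0 → d = 0 → a + b + (c + d) = 0 := by
    rintro a b c d rfl rfl rfl rfl
    simp
  refine e (sum_eq_zero fun K hK => sum_eq_zero fun K' hK' => ?_) (sum_eq_zero fun K hK => ?_)
    (sum_eq_zero fun K hK => ?_) ?_
  · obtain ⟨hK1, hK2⟩ := mem_powersetCard.1 hK
    obtain ⟨hK1', hK2'⟩ := mem_powersetCard.1 hK'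
    obtain ⟨i, hi⟩ : (K ∩ K').Nonempty := by
      by_contra hne
      rw [not_nonempty_iff_eq_empty, ← disjoint_iff_inter_eq_empty] at hne
      have := card_le_card (union_subset hK1 hK1')
      rw [card_union_of_disjoint hne] at this
      omega
    rw [mem_inter] at hi
    exact prod_mul_prod_eq_zero (P.nodup_head hK1) (P.nodup_head hK1')
      (List.mem_append_left _ (mem_toList.2 hi.1)) (List.mem_append_left _ (mem_toList.2 hi.2))
      (hc v _) (hc v' _) (hz _ (hI i (hK1 hi.1)))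
  · exact prod_mul_prod_eq_zero (P.nodup_head (mem_powersetCard.1 hK).1) P.nodup_pair (i := P.iX)
      (by simp) (by simp) (hc v _) (hc w' _) (hz _ h1)
  · exact prod_mul_prod_eq_zero P.nodup_pair (P.nodup_head (mem_powersetCard.1 hK).1) (i := P.iX)
      (by simp) (by simp) (hc w _) (hc v' _) (hz _ h2)
  · exact prod_mul_prod_eq_zero P.nodup_pair P.nodup_pair (i := P.iY) (by simp) (by simp)
      (hc w _) (hc w' _) (hz _ h3)

end

/-- A side is as fixed as its entries. -/
theorem norm_map_side_sub_le (f : F →⋆ₐ[ℂ] F) {v w : ι → Cl U} (fU : Cl U →⋆ₐ[ℂ] Cl U)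
    (hf : ∀ i x, f (κ i x) = κ i (fU x)) {ε : ℝ} (hε : 0 ≤ ε) (hv : ∀ i, ‖v i‖ ≤ 1)
    (hw : ∀ i, ‖w i‖ ≤ 1) (hv' : ∀ i, ‖fU (v i) - v i‖ ≤ ε) (hw' : ∀ i, ‖fU (w i) - w i‖ ≤ ε) :
    ‖f (P.side κ n v w) - P.side κ n v w‖ ≤ (n + 2 : ℕ) * ε := by
  have key : ∀ (u : ι → Cl U) (l : List ι), (∀ i, ‖u i‖ ≤ 1) → (∀ i, ‖fU (u i) - u i‖ ≤ ε) →
      l.length ≤ n + 2 → ‖f (l.map fun i => κ i (u i)).prod - (l.map fun i => κ i (u i)).prod‖ ≤
        (n + 2 : ℕ) * ε := fun u l hu hu' hl => by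
    rw [map_list_prod, List.map_map]
    refine (norm_prod_sub_le _ (fun i => κ i (u i)) l fun i _ => ⟨?_, ?_, ?_⟩).trans
      (mul_le_mul_of_nonneg_right (by exact_mod_cast hl) hε)
    · exact (NonUnitalStarAlgHom.norm_apply_le f _).trans
        ((NonUnitalStarAlgHom.norm_apply_le (κ i) _).trans (hu i))
    · exact (NonUnitalStarAlgHom.norm_apply_le (κ i) _).trans (hu i)
    · simp only [Function.comp_apply, hf, ← map_sub]
      exact (NonUnitalStarAlgHom.norm_apply_le (κ i) _).trans (hu' i)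
  set m : ℝ := ((P.I.powersetCard n).card : ℝ) + 1 with hm
  have hm0 : 0 < m := by positivity
  rw [side, ← hm, ← Complex.coe_smul, map_smul, ← smul_sub, map_add, map_sum, add_sub_add_comm,
    ← sum_sub_distrib, norm_smul, Complex.norm_real, Real.norm_of_nonneg (inv_nonneg.2 hm0.le),
    inv_mul_le_iff₀ hm0]
  refine (norm_add_le _ _).trans ((add_le_add ((norm_sum_le _ _).trans
    (sum_le_card_nsmul _ _ ((n + 2 : ℕ) * ε) fun K hK => key v _ hv hv' ?_))
    (key w _ hw hw' ?_)).trans_eq ?_)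
  · simp [(mem_powersetCard.1 hK).2]
  · simp
  · rw [nsmul_eq_mul, hm]; ring

variable [PartialOrder F] [StarOrderedRing F]

/-- Where a coordinate is above its cut. -/
theorem cut_lower {u : F} (hu : IsSelfAdjoint u) (δ : ℝ) : δ • cut δ u ≤ cut δ u * u := by
  conv_rhs => arg 2; rw [← cfc_id' ℝ u]
  have hc : Continuous fun t : ℝ => max (t - δ) 0 := by fun_prop
  rw [cut, ← cfc_mul _ (fun t : ℝ => t) u hc.continuousOn continuous_id.continuousOn,
    ← cfc_smul δ _ u hc.continuousOn]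
  refine cfc_mono (fun t _ => ?_) (hc.const_smul δ).continuousOn
    (hc.mul continuous_id).continuousOn
  rw [smul_eq_mul]
  rcases le_total t δ with h | h
  · rw [max_eq_right (by linarith), mul_zero, zero_mul]
  · rw [max_eq_left (by linarith), mul_comm δ]
    exact mul_le_mul_of_nonneg_left h (by linarith)

variable {κ}

theorem side_props (hκ : ∀ i j, i ≠ j → ∀ x y, Commute (κ i x) (κ j y)) {v w : ι → Cl U}
    (hv : ∀ i, 0 ≤ (v i : F) ∧ (v i : F) ≤ 1) (hw : ∀ i, 0 ≤ (w i : F) ∧ (w i : F) ≤ 1) :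
    0 ≤ P.side κ n v w ∧ P.side κ n v w ≤ 1 ∧ P.side κ n v w ∈ Cl (⋃ i, img κ i) := by
  have hp : ∀ {u : ι → Cl U}, (∀ i, 0 ≤ (u i : F) ∧ (u i : F) ≤ 1) → ∀ {l : List ι}, l.Nodup →
      0 ≤ (l.map fun i => κ i (u i)).prod ∧ (l.map fun i => κ i (u i)).prod ≤ 1 ∧
      (l.map fun i => κ i (u i)).prod ∈ Cl (⋃ i, img κ i) := fun hu l hl => by
    have := prod_props hκ (fun i => (hu i).1) (fun i => (hu i).2) hl (J := Set.univ) (by simp)
    rwa [Set.biUnion_univ] at this
  obtain ⟨b0, b1, bm⟩ := hp hw P.nodup_pair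
  have ha := fun K (hK : K ∈ P.I.powersetCard n) => hp hv (P.nodup_head (mem_powersetCard.1 hK).1)
  set m : ℝ := ((P.I.powersetCard n).card : ℝ) + 1 with hm
  have hm0 : 0 < m := by positivity
  refine ⟨smul_nonneg (inv_nonneg.2 hm0.le) (add_nonneg (sum_nonneg fun K hK => (ha K hK).1) b0),
    (smul_le_smul_of_nonneg_left (add_le_add (sum_le_card_nsmul _ _ (1 : F) fun K hK => (ha K hK).2.1)
      b1) (inv_nonneg.2 hm0.le)).trans_eq ?_,
    Coin.smul_mem' (add_mem (sum_mem fun K hK => (ha K hK).2.2) bm) _⟩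
  rw [← Nat.cast_smul_eq_nsmul ℝ, show ∀ r : ℝ, r • (1 : F) + 1 = (r + 1) • (1 : F) from fun r => by
    rw [add_smul, one_smul], smul_smul, inv_mul_cancel₀ hm0.ne', one_smul]

/-- The height of a cut. -/
def height (i : ι) : ℝ := open Classical in if i ∈ P.I then 1 / (4 * n) else 1 / 8

theorem height_nonneg (i : ι) : 0 ≤ P.height n i := by
  unfold height; split_ifs <;> positivity

/-- The bound below for one side. -/
def rad (n N : ℕ) : ℝ := (1 / (4 * (n : ℝ))) ^ n / 64 / ((N.choose n : ℝ) + 1)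

theorem rad_pos {n : ℕ} (N : ℕ) (hn : 0 < n) : 0 < rad n N := by unfold rad; positivity


/-- The entries above their cuts. -/
def cuts (f : ι → Cl U) (i : ι) : Cl U :=
  ⟨cut (P.height n i) (f i : F), Coin.cut_mem (isClosed_Cl U) (f i).2 _⟩

variable {n} (hκ : ∀ i j, i ≠ j → ∀ x y, Commute (κ i x) (κ j y)) {v w : ι → Cl U}

theorem cuts_bounds {f : ι → Cl U} (hf : ∀ i, 0 ≤ (f i : F) ∧ (f i : F) ≤ 1) (i : ι) :
    0 ≤ (P.cuts n f i : F) ∧ (P.cuts n f i : F) ≤ 1 :=
  ⟨Coin.cut_nonneg' _ _, (Coin.cut_le_self (hf i).1 (P.height_nonneg n i)).trans (hf i).2⟩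

theorem map_cuts {f : ι → Cl U} (hf : ∀ i, 0 ≤ (f i : F) ∧ (f i : F) ≤ 1) (i : ι) :
    κ i (P.cuts n f i) = cut (P.height n i) (κ i (f i)) := by
  let := CStarAlgebra.spectralOrder (Cl U)
  have := CStarAlgebra.spectralOrderedRing (Cl U)
  obtain ⟨w₀, hw₀⟩ := exists_sq_Cl (x := f i) (hf i).1
  have e : P.cuts n f i = cut (P.height n i) (f i) :=
    Subtype.ext (Coin.map_cut (Cl U).subtype _ (nonneg_of_sq hw₀)).symm
  rw [e]
  exact Coin.map_cut (κ i) _ (nonneg_of_sq hw₀)

include hκ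

/-- A product of cuts below a cut of the side. -/
theorem prod_cuts_le_cut (hn : 0 < n) (hv : ∀ i, 0 ≤ (v i : F) ∧ (v i : F) ≤ 1)
    (hw : ∀ i, 0 ≤ (w i : F) ∧ (w i : F) ≤ 1) {f : ι → Cl U} {l : List ι}
    (hf : ∀ i, 0 ≤ (f i : F) ∧ (f i : F) ≤ 1) (hl : l.Nodup)
    (hfv : ∀ i, Commute (f i) (v i)) (hfw : ∀ i, Commute (f i) (w i))
    (hle : (((P.I.powersetCard n).card : ℝ) + 1)⁻¹ • (l.map fun i => κ i (f i)).prod ≤
      P.side κ n v w)
    (hrl : (1 / (4 * (n : ℝ))) ^ n / 64 ≤ (l.map (P.height n)).prod) :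
    (l.map fun i => κ i (P.cuts n f i)).prod ≤
      (2 / rad n P.I.card) • cut (rad n P.I.card / 2) (P.side κ n v w) := by
  obtain ⟨hs0, -, -⟩ := P.side_props n hκ hv hw
  obtain ⟨p0, p1, -⟩ := prod_props hκ (fun i => (P.cuts_bounds hf i).1)
    (fun i => (P.cuts_bounds hf i).2) hl (J := Set.univ) (by simp)
  set p := (l.map fun i => κ i (P.cuts n f i)).prod
  have hpc : ∀ u : ι → Cl U, (∀ i, Commute (f i) (u i)) → ∀ l' : List ι,
      Commute p (l'.map fun i => κ i (u i)).prod := fun u hu l' => commute_prod_prod fun i _ j _ => by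
    rcases eq_or_ne i j with rfl | hij
    · rw [P.map_cuts hf i]; exact ((hu i).map (κ i)).cfc_real _
    · exact hκ i j hij _ _
  have hpa : Commute p (P.side κ n v w) := Commute.smul_right ((Commute.sum_right _ _ _ fun K _ =>
    hpc v hfv _).add_right (hpc w hfw _)) _
  have hf0 : ∀ i, 0 ≤ κ i (f i) := fun i => Square.map_nonneg' (κ i) (hf i).1
  have hT : (l.map (P.height n)).prod • p ≤ p * (l.map fun i => κ i (f i)).prod := by
    refine lower_prod (P.height_nonneg n) (fun i => ?_) hf0 (fun i => ?_)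
      (fun i j hij => ⟨hκ i j hij _ _, hκ i j hij _ _, hκ i j hij _ _⟩) (fun i => ?_) l hl
    · rw [P.map_cuts hf i]; exact Coin.cut_nonneg' _ _
    · rw [P.map_cuts hf i]; exact cut_lower (IsSelfAdjoint.of_nonneg (hf0 i)) _
    · rw [P.map_cuts hf i]; exact (Commute.refl _).cfc_real _
  refine le_cut_of_lower (rad_pos _ hn) p0 p1 hs0 hpa ?_
  set m : ℝ := ((P.I.powersetCard n).card : ℝ) + 1 with hm
  have hm0 : 0 < m := by positivity
  have h1 : 0 ≤ p * (P.side κ n v w - m⁻¹ • (l.map fun i => κ i (f i)).prod) :=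
    (hpa.sub_right ((hpc f (fun i => Commute.refl _) l).smul_right _)).mul_nonneg p0
      (sub_nonneg.2 hle)
  rw [mul_sub, sub_nonneg, mul_smul_comm] at h1
  refine le_trans ?_ ((smul_le_smul_of_nonneg_left hT (inv_nonneg.2 hm0.le)).trans h1)
  rw [smul_smul]
  refine smul_le_smul_of_nonneg_right ?_ p0
  rw [inv_mul_eq_div, le_div_iff₀ hm0, hm, card_powersetCard, rad,
    div_mul_cancel₀ _ (by positivity)]
  exact hrl

/-- One side is full. -/
theorem side_full (hn : 0 < n) (hv : ∀ i, 0 ≤ (v i : F) ∧ (v i : F) ≤ 1)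
    (hw : ∀ i, 0 ≤ (w i : F) ∧ (w i : F) ≤ 1) (hvw : ∀ i, Commute (v i) (w i))
    (hX : Square.FullW (Cl U) (cut (1 / 8) (w P.iX : F)))
    (hY : Square.FullW (Cl U) (cut (1 / 8) (w P.iY : F))) :
    FullPos (cut (rad n P.I.card / 2) (P.side κ n v w)) := by
  classical
  have hp := P.prod_cuts_le_cut hκ hn hv hw hw P.nodup_pair (fun i => (hvw i).symm)
    (fun i => Commute.refl _)
    (smul_le_smul_of_nonneg_left (le_add_of_nonneg_left (sum_nonneg fun K hK =>
      (prod_props hκ (fun i => (hv i).1) (fun i => (hv i).2)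
        (P.nodup_head (mem_powersetCard.1 hK).1) (J := Set.univ) (by simp)).1)) (by positivity))
    (by
      have h4 : (1 : ℝ) / (4 * n) ≤ 1 := by
        rw [div_le_one (by positivity)]
        have : (1 : ℝ) ≤ n := by exact_mod_cast hn
        linarith
      have := pow_le_one₀ (n := n) (by positivity) h4
      simp only [List.map_cons, List.map_nil, List.prod_cons, List.prod_nil, height, if_neg P.hX,
        if_neg P.hY, mul_one]
      linarith)
  let e : ι → Cl U := fun i => if i = P.iX then P.cuts n w P.iX else P.cuts n w P.iY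
  have hfull : Square.FullW ⊤ ([P.iX, P.iY].map fun i => κ i (e i)).prod :=
    Square.fullW_list_prod (fun i => (κ i).range) (fun i x _ => StarSubalgebra.mem_top)
      (fun i j hij x hx y hy => by
        obtain ⟨x, rfl⟩ := hx
        obtain ⟨y, rfl⟩ := hy
        exact hκ i j hij x y)
      (fun i => κ i (e i)) (fun i => ⟨e i, rfl⟩)
      (fun i => Square.FullW.map (B := (κ i).range) (κ i) (fun x => ⟨x, rfl⟩) (by
        simp only [e]
        split_ifs
        · simpa [cuts, height, P.hX] using hX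
        · simpa [cuts, height, P.hY] using hY))
      _ P.nodup_pair
  have he : ([P.iX, P.iY].map fun i => κ i (e i)) =
      [P.iX, P.iY].map fun i => κ i (P.cuts n w i) := by
    simp [e, P.ne.symm]
  rw [he] at hfull
  refine Coin.fullPos_of_le_conj (g := Real.sqrt (2 / rad n P.I.card) • (1 : F)) hfull.fullPos
    (cfc_predicate _ _) (hp.trans_eq ?_)
  rw [Coin.star_smul_conj, star_one, one_mul, mul_one,
    Real.mul_self_sqrt (div_nonneg zero_le_two (rad_pos _ hn).le)]

/-- One side is large in every state. -/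
theorem side_dge [Fintype ι] (hU : U.Countable) {C c : ℝ} (hc1 : c ≤ 1) (hn : 0 < n)
    (hIn : 2 * n ≤ P.I.card + 1) (hsmall : C * (1 - c) ^ n ≤ 1 / 2)
    (htd : ∀ (s : Set F), s.Countable → ∀ (z : Cl s), SqLe 0 (z : F) → SqLe (z : F) 1 →
      ∀ ε : ℝ, 0 ≤ ε → (∀ τ : Cl s →ₗ[ℂ] ℂ, IsTrace (Cl s) τ → (τ z).re ≤ ε) →
      ∀ t : Set F, t.Countable → CommSets s t →
        ∃ q : Set F, q.Countable ∧ s ⊆ q ∧ CommSets q t ∧ PosIn (Cl q) (cut (1 / 2) (z : F)) ∧
          ∀ d : Dim (Cl q), d.d (cut (1 / 2) (z : F)) ≤ C * ε)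
    (hv : ∀ i, 0 ≤ (v i : F) ∧ (v i : F) ≤ 1) (hw : ∀ i, 0 ≤ (w i : F) ∧ (w i : F) ≤ 1)
    (hvw : ∀ i, Commute (v i) (w i)) {H : Cl U} (hH : 0 ≤ (H : F) ∧ (H : F) ≤ 1)
    (hvI : ∀ i ∈ P.I, v i = H)
    (hc : ∀ σ : Cl U →ₗ[ℂ] ℂ, PosTr σ → c * (σ 1).re ≤ (σ H).re)
    (hXd : ∀ d : Dim (Cl U), 1 / 2 ≤ d.d (cut (1 / 8) (v P.iX : F))) :
    DGe (cut (rad n P.I.card / 2) (P.side κ n v w)) ((1 / (2 * (n : ℝ))) ^ n / 2) := by
  classical
  obtain ⟨-, -, hsm⟩ := P.side_props n hκ hv hw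
  choose q z hqc hqt hKq hzq hz0 hcover hzd using fun K : {K : Finset ι // K.card = n} =>
    exists_group hκ hU htd hH.1 hH.2 hc1 hc K.1 K.2 hsmall
  set Q : Set F := (⋃ i, img κ i) ∪ ⋃ K, q K
  have hQc : Q.Countable := (Set.countable_iUnion fun i => img_countable κ hU i).union
    (Set.countable_iUnion hqc)
  have hQi : ∀ i, img κ i ⊆ Q := fun i =>
    (Set.subset_iUnion (img κ) i).trans Set.subset_union_left
  have haQ : P.side κ n v w ∈ Cl Q := Cl_mono Set.subset_union_left hsm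
  refine ⟨Q, hQc, Square.posIn (Coin.cut_mem (isClosed_Cl Q) haQ _) (Coin.cut_nonneg' _ _),
    fun d => ?_⟩
  have hcu := fun i => P.cuts_bounds (n := n) hv i
  obtain ⟨l, hnd, hlen, hlI, hle⟩ := exists_select hκ hH.1 hQi hn hIn
    (fun K _ hK => ⟨q ⟨K, hK⟩, z ⟨K, hK⟩,
      (Set.subset_iUnion q ⟨K, hK⟩).trans Set.subset_union_right, hqt ⟨K, hK⟩, hKq ⟨K, hK⟩,
      hzq ⟨K, hK⟩, hz0 ⟨K, hK⟩, hcover ⟨K, hK⟩, hzd ⟨K, hK⟩⟩)
    (fun i => (hcu i).1) (fun i => (hcu i).2)
    (fun i hi => by simp [cuts, height, hi, hvI i hi]) (l₀ := [P.iX]) (List.nodup_singleton _)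
    (fun i hi => by rw [List.mem_singleton.1 hi]; exact P.hX) d n le_rfl
  have hlnd : l.Nodup := (List.nodup_append.1 hnd).1
  have hKmem : l.toFinset ∈ P.I.powersetCard n := mem_powersetCard.2
    ⟨fun i hi => hlI i (List.mem_toFinset.1 hi), by rw [List.toFinset_card_of_nodup hlnd, hlen]⟩
  have hperm : (l ++ [P.iX]).Perm (l.toFinset.toList ++ [P.iX]) :=
    (List.toFinset_toList hlnd).symm.append_right _
  have hp := P.prod_cuts_le_cut hκ hn hv hw hv hnd (fun i => Commute.refl _) hvw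
    (by
      rw [prod_perm hperm hnd fun i _ j _ h => hκ i j h _ _]
      refine smul_le_smul_of_nonneg_left ?_ (by positivity)
      refine le_add_of_le_of_nonneg (single_le_sum (f := fun K : Finset ι =>
        ((K.toList ++ [P.iX]).map fun i => κ i (v i)).prod) (fun K hK => ?_) hKmem) ?_
      · exact (prod_props hκ (fun i => (hv i).1) (fun i => (hv i).2)
          (P.nodup_head (mem_powersetCard.1 hK).1) (J := Set.univ) (by simp)).1
      · exact (prod_props hκ (fun i => (hw i).1) (fun i => (hw i).2) P.nodup_pair (J := Set.univ)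
          (by simp)).1)
    (by
      rw [List.map_append, List.prod_append, List.prod_eq_pow_card (l.map (P.height n)) (1 / (4 * n))
        (fun x hx => by
          obtain ⟨i, hi, rfl⟩ := List.mem_map.1 hx
          simp [height, hlI i hi]), List.length_map, hlen]
      simp only [height, List.map_cons, List.map_nil, List.prod_cons, List.prod_nil, if_neg P.hX,
        mul_one]
      have : 0 ≤ (1 / (4 * (n : ℝ))) ^ n := by positivity
      linarith)
  obtain ⟨p0, -, pm⟩ := prod_props hκ (fun i => (hcu i).1) (fun i => (hcu i).2) hnd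
    (J := Set.univ) (by simp)
  rw [Set.biUnion_univ] at pm
  refine le_trans ?_ (hle.trans (d.mono_smul (Square.posIn (Cl_mono Set.subset_union_left pm) p0)
    (Square.posIn (Coin.cut_mem (isClosed_Cl Q) haQ _) (Coin.cut_nonneg' _ _))
    (div_nonneg zero_le_two (rad_pos _ hn).le) (Coin.sqLe_iff.2 hp)))
  have hb : ∀ d' : Dim (Cl U), 1 / 2 ≤ d'.d (P.cuts n v P.iX) ∧ d'.d (P.cuts n v P.iX) ≤ 1 :=
    fun d' => ⟨by simpa [cuts, height, P.hX] using hXd d',
      d'.le_one (Square.posIn (P.cuts n v P.iX).2 (hcu _).1)⟩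
  have h0 : 1 / 2 ≤ d.d ([P.iX].map fun i => κ i (P.cuts n v i)).prod := by
    have := (Square.dim_hom_mul d (κ P.iX) (fun x => Cl_mono (hQi P.iX) (mem_img κ _ x))
      (hcu _).1 (Square.map_nonneg' _ (hcu _).1) zero_le_one
      (one_mem _) (fun x => Commute.one_right _) (by norm_num) hb).1
    simpa [d.one] using this
  rw [div_eq_mul_one_div]
  exact mul_le_mul_of_nonneg_left h0 (by positivity)

end Places

end

end Vale.Agent.P095.All.Coin
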